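import Vale.Agent.P218EN.Green

/-! Holomorphic dependence of the Green operator on parameters. -/

namespace Vale.Agent.P218EN
open Set Complex WA Metric

variable {E : Type*} [NormedAddCommGroup E] [NormedSpace ℂ E] {U : Set E}

omit [NormedSpace ℂ E] in
theorem loc_bd (hU : IsOpen U) {φ : E → ℝ} (h : ContinuousOn φ U) {x : E} (hx : x ∈ U) :
    ∃ r, 0 < r ∧ ball x r ⊆ U ∧ ∀ y ∈ ball x r, φ y ≤ φ x + 1 := by
  have h1 := (h.continuousAt (hU.mem_nhds hx)).eventually (gt_mem_nhds (lt_add_one (φ x)))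
  obtain ⟨r, hr, h2⟩ := Metric.eventually_nhds_iff_ball.1 (h1.and (hU.eventually_mem hx))
  exact ⟨r, hr, fun y hy => (h2 y hy).2, fun y hy => (h2 y hy).1.le⟩

theorem differentiableOn_csqrt {f : E → ℂ} (hf : DifferentiableOn ℂ f U) (h : ∀ z ∈ U, 0 < (f z).re) :
    DifferentiableOn ℂ (fun z => Complex.sqrt (f z)) U := fun z hz =>
  (hasDerivAt_csqrt (h z hz)).differentiableAt.comp_differentiableWithinAt z (hf z hz)

theorem differentiableOn_nn (κ : ℝ) {f : E → ℂ} (hf : DifferentiableOn ℂ f U)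
    (h : ∀ z ∈ U, 0 < (f z).re) : DifferentiableOn ℂ (fun z => nn κ (f z)) U := by
  unfold nn
  split_ifs with hκ
  · refine ((differentiableOn_csqrt ((hf.const_mul _).const_add 1) fun z hz => ?_).sub_const
      1).mul_const (2 : ℂ)⁻¹
    have := h z hz
    simp only [add_re, one_re, mul_re, re_ofNat, ofReal_re, im_ofNat, ofReal_im, mul_zero,
      sub_zero, mul_im, zero_mul, add_zero]
    positivity
  · exact hf.const_mul _

theorem differentiableOn_cc (κ : ℝ) {f f' : E → ℂ} (hf : DifferentiableOn ℂ f U)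
    (hf' : DifferentiableOn ℂ f' U) (h : ∀ z ∈ U, 0 < (f z).re) :
    DifferentiableOn ℂ (fun z => cc κ (f z) (f' z)) U := by
  have h1 := differentiableOn_nn κ hf h
  have h2 : DifferentiableOn ℂ (fun z => nd κ (f z) (f' z)) U := by
    unfold nd
    split_ifs with hκ
    · exact (hf'.const_mul _).mul (((h1.const_mul 2).const_add 1).inv fun z hz => nn_ne hκ (h z hz))
    · exact hf'.const_mul _
  exact (((h1.add (h1.pow 2)).sub h2).mul (hf.inv fun z hz e => by
    simpa [e] using h z hz)).const_sub _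

/-- a holomorphic family of coefficients -/
structure Fam (U : Set E) (a b : ℝ) (A A' : E → ℝ → ℂ) (ε M : ℝ) : Prop where
  op : IsOpen U
  le : a ≤ b
  coef : ∀ z ∈ U, Coef a b (A z) (A' z) ε
  dA : ∀ w ∈ Icc a b, DifferentiableOn ℂ (fun z => A z w) U
  dA' : ∀ w ∈ Icc a b, DifferentiableOn ℂ (fun z => A' z w) U
  hM : ∀ z ∈ U, ∀ w ∈ Icc a b, ‖(A z w)⁻¹‖ ≤ M

namespace Fam
variable {a b ε M : ℝ} {A A' : E → ℝ → ℂ} {g ξ D0 D1 : E → WA}

theorem d_A (H : Fam U a b A A' ε M) : DifferentiableOn ℂ (fun z => mkB a b (A z)) U :=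
  differentiableOn_mkB H.le H.op (fun z hz => (H.coef z hz).cA) (fun z hz _ hw => (H.coef z hz).As hw)
    H.dA

theorem d_sqrt (H : Fam U a b A A' ε M) :
    DifferentiableOn ℂ (fun z => mkB a b fun w => Complex.sqrt (A z w)) U :=
  differentiableOn_mkB (M := 1) H.le H.op (fun z hz => (H.coef z hz).cont_sqrt)
    (fun z hz _ hw => le_of_sq_le_sq (by rw [norm_csqrt_sq]; linarith [(H.coef z hz).As hw])
      zero_le_one)
    fun w hw => differentiableOn_csqrt (H.dA w hw) fun z hz => (H.coef z hz).re w hw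

theorem d_inv (H : Fam U a b A A' ε M) :
    DifferentiableOn ℂ (fun z => mkB a b fun w => (A z w)⁻¹) U :=
  differentiableOn_mkB H.le H.op (fun z hz => (H.coef z hz).cont_inv) H.hM
    fun w hw => (H.dA w hw).inv fun z hz => norm_pos_iff.1 ((H.coef z hz).A0 hw)

theorem d_nB (H : Fam U a b A A' ε M) (s : ℝ) (k : ℤ) :
    DifferentiableOn ℂ (fun z => nB a b s (A z) k) U := by
  refine differentiableOn_mkB (M := |kp s k|) H.le H.op (fun z hz => (H.coef z hz).cont_nn _)
    (fun z hz w hw => ?_) fun w hw => differentiableOn_nn _ (H.dA w hw)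
      fun z hz => (H.coef z hz).re w hw
  by_cases h : 2 ≤ kp s k
  · linarith [(nn_facts h ((H.coef z hz).re w hw) ((H.coef z hz).As hw)).2.2.2.2.2.2.2.2.1,
      le_abs_self (kp s k)]
  · rw [nn, if_neg h, norm_mul, norm_real, Real.norm_eq_abs]
    exact mul_le_of_le_one_right (abs_nonneg _) (by linarith [(H.coef z hz).As hw])

theorem d_ccB (H : Fam U a b A A' ε M) (k : ℤ) :
    DifferentiableOn ℂ (fun z => ccB a b (-2) (A z) (A' z) k) U :=
  differentiableOn_mkB H.le H.op (fun z hz => (H.coef z hz).cont_cc _)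
    (fun z hz _ hw => (H.coef z hz).cc_le' (Or.inl rfl) k hw)
    fun w hw => differentiableOn_cc _ (H.dA w hw) (H.dA' w hw) fun z hz => (H.coef z hz).re w hw

theorem d_co {x : E → WA} (h : DifferentiableOn ℂ x U) (k : ℤ) :
    DifferentiableOn ℂ (fun z => (x z).co k) U := (coL k).differentiable.comp_differentiableOn h

theorem d_Cor (H : Fam U a b A A' ε M) (hg : DifferentiableOn ℂ g U) :
    DifferentiableOn ℂ (fun z => Cor a b (-2) (A z) (A' z) (g z)) U := by
  refine differentiableOn_WA (fun x hx => ?_) fun k => ?_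
  · obtain ⟨r, hr, hs, h⟩ := loc_bd H.op hg.continuousOn.norm hx
    exact ⟨r, _, hr, hs, fun y hy => ((H.coef y (hs hy)).norm_Cor_le (Or.inl rfl) _).trans (h y hy)⟩
  · exact (((H.d_ccB k).mul (d_co hg k)).const_smul (1 + (k : ℂ) ^ 2)⁻¹).congr
      fun z hz => (H.coef z hz).co_Cor (Or.inl rfl) _ k

theorem d_gJ (H : Fam U a b A A' ε M) (hg : DifferentiableOn ℂ g U) (hξ : DifferentiableOn ℂ ξ U)
    (h0 : DifferentiableOn ℂ D0 U) (h1 : DifferentiableOn ℂ D1 U) (k : ℤ) (i : Fin 6) :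
    DifferentiableOn ℂ (fun z => gJ a b (-2) (A z) (A' z) (g z) (ξ z) (D0 z) (D1 z) k i) U := by
  have hb := right_mem_Icc.2 H.le
  obtain ⟨hP, hY⟩ := differentiableOn_md (a := a) (b := b) (t := pt a b (-2) k)
    (y0 := fun z => (ξ z).co k (pt a b (-2) k) / (1 + (k : ℂ) ^ 2))
    (d := fun z => ((D0 z).co k b - I * k.sign * (D1 z).co k b) /
      (1 + |k| * Complex.sqrt (A z b))) H.d_A (H.d_nB (-2) k) (d_co hg k)
    ((differentiableOn_CB_apply (d_co hξ k) _).mul_const (1 + (k : ℂ) ^ 2)⁻¹)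
    (((differentiableOn_CB_apply (d_co h0 k) b).sub
      ((differentiableOn_CB_apply (d_co h1 k) b).const_mul _)).mul
      ((((differentiableOn_csqrt (H.dA b hb) fun z hz => (H.coef z hz).re b hb).const_mul
        _).const_add 1).inv fun z hz => rob_ne k ((H.coef z hz).re b hb)))
    fun z hz => (H.coef z hz).den_ne (Or.inl rfl) k
  have hp : DifferentiableOn ℂ (fun z => gP a b (-2) (A z) (g z) (ξ z) (D0 z) (D1 z) k) U :=
    H.d_inv.mul (hP.sub ((H.d_nB (-2) k).mul hY))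
  fin_cases i
  · exact hY
  · exact hY.const_smul ((k : ℂ) * I)
  · exact hY.const_smul (-(k : ℂ) ^ 2)
  · exact hp
  · exact (hp.add (d_co ((compL (cl a b)).differentiable.comp_differentiableOn hg) k)).add
      ((hY.const_smul (kp (-2) k : ℂ)).sub ((H.d_ccB k).mul hY))
  · exact (H.d_sqrt.mul hp).const_smul ((k : ℂ) * I)

theorem d_Gr (H : Fam U a b A A' ε M) (hg : DifferentiableOn ℂ g U) (hξ : DifferentiableOn ℂ ξ U)
    (h0 : DifferentiableOn ℂ D0 U) (h1 : DifferentiableOn ℂ D1 U) :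
    DifferentiableOn ℂ (fun z => Gr a b (-2) (A z) (A' z) (g z) (ξ z) (D0 z) (D1 z)) U := by
  refine differentiableOn_pi.2 fun i => differentiableOn_WA (fun x hx => ?_) fun k =>
    (H.d_gJ hg hξ h0 h1 k i).congr fun z hz => (H.coef z hz).co_Gr i k
  obtain ⟨r, hr, hs, h⟩ := loc_bd H.op (((hg.continuousOn.norm.add hξ.continuousOn.norm).add
    h0.continuousOn.norm).add h1.continuousOn.norm) hx
  refine ⟨r, 30000000 * (Real.exp (b - a) + M) * (‖g x‖ + ‖ξ x‖ + ‖D0 x‖ + ‖D1 x‖ + 1), hr, hs,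
    fun y hy => ?_⟩
  obtain ⟨c, c1, c2, c3⟩ := (H.coef y (hs hy)).gJ_plain (g := g y) (ξ := ξ y) (D0 := D0 y)
    (D1 := D1 y) (H.hM y (hs hy))
  have M0 : 0 ≤ M := (norm_nonneg _).trans (H.hM x hx b (right_mem_Icc.2 H.le))
  refine (norm_le_of c1 fun k => by rw [(H.coef y (hs hy)).co_Gr]; exact c3 i k).trans
    (c2.trans (mul_le_mul_of_nonneg_left (h y hy) (by positivity)))

end Fam

/-- uniqueness for the factorised model problem -/
theorem Coef.fact_unique {a b ε C : ℝ} {A A' : ℝ → ℂ} {τ ρ : ℤ → ℝ} {d σ ω : ℝ → ℝ}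
    (H : Coef a b A A' ε) (O : GB a b (-2) A τ ρ d σ ω C) (hε : 960 * C * ε ≤ 1)
    {X : Fin 6 → WA} (h : Jet a b A X)
    (he : WEq (Icc a b) (Lm (-2) X) (-Cor a b (-2) A A' (X 0 - X 2)))
    (dir : ∀ k, (X 0).co k (τ k) = 0) (rob : ∀ k, (X 3).co k b - (X 0).co k b = 0) (i : Fin 6) :
    WEq (Icc a b) (X i) 0 := by
  have C0 := O.one
  refine Bd.wEq (σ := σ) (ω := ω) ?_
  rw [sub_zero]
  refine (absorb H.le O.pos O.cont (c := 0) (fun B hB i => ?_) i).mono (by norm_num)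
  refine (H.apriori O (by nlinarith [H.e0]) h he (ξ := 0) (D0 := 0) (D1 := 0)
    (fun k => by simp [dir k]) (fun k => by simp [rob k]) (H.bd_Cor O ((hB 0).sub (hB 2))).neg
    (BdX.of_zero fun _ => rfl) (Bd.zero _ _ _) (Bd.zero _ _ _) i).mono ?_
  nlinarith [mul_le_mul_of_nonneg_right hε (hB 0).nonneg]

end Vale.Agent.P218EN
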