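import Vale.Agent.P218EN.Stab
import Vale.Agent.P218EN.GrHol

/-! Existence, holomorphy and uniqueness of solutions of the end problem. -/

namespace Vale.Agent.P218EN
open Set Complex WA Metric

/-- Robin datum with the mean value replaced by the pin -/
noncomputable def sD0 (b : ℝ) (α : ℂ) (J : Fin 6 → WA) (ξ γ : WA) : WA :=
  (1 / 2 : ℂ) • (Ex.exB0.ev (vB b α J) - γ -
    algebraMap ℂ WA (lf b α (J 0) + 2 * (J 0).co 0 b - 2 * ξ.co 0 b))

/-- its angular derivative -/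
noncomputable def sD1 (b : ℝ) (α : ℂ) (J : Fin 6 → WA) (γ1 : WA) : WA :=
  (1 / 2 : ℂ) • (Ex.exB1.ev (vB b α J) - γ1 - 0)

/-- the fixed point map -/
noncomputable def Ph (a b : ℝ) (α : ℂ) (J : Fin 6 → WA) (f ξ γ γ1 : WA) : Fin 6 → WA :=
  Gr a b (-2) (Af α) (Af' α) (f - NN a b α J + Cor a b (-2) (Af α) (Af' α) (J 0 - J 2)) ξ
    (sD0 b α J ξ γ) (sD1 b α J γ1)

/-- extension by constants -/
noncomputable def cX (a b : ℝ) : (Fin 6 → WA) →L[ℂ] (Fin 6 → WA) :=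
  ContinuousLinearMap.pi fun i => (compL (cl a b)).comp (ContinuousLinearMap.proj i)

theorem cX_apply (a b : ℝ) (x : Fin 6 → WA) (i : Fin 6) : cX a b x i = comp (cl a b) (x i) := rfl

theorem norm_cX_le (a b : ℝ) (x : Fin 6 → WA) : ‖cX a b x‖ ≤ ‖x‖ :=
  (pi_norm_le_iff_of_nonneg (norm_nonneg _)).2 fun i =>
    (norm_comp_le _ _).trans (norm_le_pi_norm x i)

section
variable {a b ε C : ℝ} {α : ℂ} {d σ ω : ℝ → ℝ} {ρ : ℤ → ℝ} {J : Fin 6 → WA} {f ξ γ γ1 : WA}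

theorem rob_data (hab : a ≤ b) (h : Jet a b (Af α) J)
    (dir : ∀ k : ℤ, (1 + (k : ℂ) ^ 2) * (J 0).co k (pt a b (-2) k) = ξ.co k (pt a b (-2) k))
    (hγ : HasD {b} (fun w => Complex.sqrt (Af α w)) γ γ1) : sD0 b α J ξ γ = rD0 b α J γ ∧
      ∀ k : ℤ, (sD0 b α J ξ γ).co k b - I * k.sign * (sD1 b α J γ1).co k b =
        (1 + |k| * Complex.sqrt (Af α b)) * (sD0 b α J ξ γ).co k b := by
  refine ⟨?_, fun k => rob_rhs k
    (((hasD_sub (hasD_sub (h.hasD_B hab) hγ) (hasD_alg _ _ _)).smul _) k b rfl)⟩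
  have := dir 0
  rw [pt_zero] at this
  rw [sD0, rD0, ← this]; simp

theorem Base.sol_of_fix (H : Base a b α ε d σ ω)
    (hγ : HasD {b} (fun w => Complex.sqrt (Af α w)) γ γ1) (h : Ph a b α J f ξ γ γ1 = J) :
    Sol a b α J f ξ γ := by
  have hj : Jet a b (Af α) J := h ▸ H.coef.jet_Gr
  have he := H.coef.eq_Gr (g := f - NN a b α J + Cor a b (-2) (Af α) (Af' α) (J 0 - J 2)) (ξ := ξ)
    (D0 := sD0 b α J ξ γ) (D1 := sD1 b α J γ1)
  have hd := H.coef.dir_Gr (g := f - NN a b α J + Cor a b (-2) (Af α) (Af' α) (J 0 - J 2)) (ξ := ξ)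
    (D0 := sD0 b α J ξ γ) (D1 := sD1 b α J γ1)
  have hr := H.coef.rob_Gr (g := f - NN a b α J + Cor a b (-2) (Af α) (Af' α) (J 0 - J 2)) (ξ := ξ)
    (D0 := sD0 b α J ξ γ) (D1 := sD1 b α J γ1)
  rw [← Ph, h] at he hd hr
  obtain ⟨e1, e2⟩ := rob_data H.le hj hd hγ
  refine ⟨hj, fun k w hw => ?_, hd, bc_iff.2 fun k w hw => ?_⟩
  · have := he k w hw
    simp only [add_sub_cancel_right, co_sub, BoundedContinuousFunction.sub_apply] at this
    simp [EE, this]
  · obtain rfl : w = b := hw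
    have := hr k
    rw [e2 k, e1] at this
    exact mul_left_cancel₀ (rob_ne k (H.coef.re w H.hb)) this

theorem Base.fix_of_sol (H : Base a b α ε d σ ω)
    (O : GB a b (-2) (Af α) (pt a b (-2)) ρ d σ ω C) (hε : 10000000 * C * ε ≤ 1)
    (hγ : HasD {b} (fun w => Complex.sqrt (Af α w)) γ γ1) (h : Sol a b α J f ξ γ) (i : Fin 6) :
    WEq (Icc a b) (Ph a b α J f ξ γ γ1 i) (J i) := by
  have he := H.coef.eq_Gr (g := f - NN a b α J + Cor a b (-2) (Af α) (Af' α) (J 0 - J 2)) (ξ := ξ)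
    (D0 := sD0 b α J ξ γ) (D1 := sD1 b α J γ1)
  have hd := H.coef.dir_Gr (g := f - NN a b α J + Cor a b (-2) (Af α) (Af' α) (J 0 - J 2)) (ξ := ξ)
    (D0 := sD0 b α J ξ γ) (D1 := sD1 b α J γ1)
  have hr := H.coef.rob_Gr (g := f - NN a b α J + Cor a b (-2) (Af α) (Af' α) (J 0 - J 2)) (ξ := ξ)
    (D0 := sD0 b α J ξ γ) (D1 := sD1 b α J γ1)
  rw [← Ph] at he hd hr
  have hj : Jet a b (Af α) (Ph a b α J f ξ γ γ1) := H.coef.jet_Gr
  generalize Ph a b α J f ξ γ γ1 = X at he hd hr hj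
  obtain ⟨e1, e2⟩ := rob_data H.le h.jet h.dir hγ
  have := H.coef.fact_unique O (by nlinarith [mul_nonneg (zero_le_one.trans O.one) H.sys.e0])
    (hj.sub h.jet) (fun k w hw => ?_) (fun k => ?_) (fun k => ?_) i
  · exact fun k w hw => sub_eq_zero.1 (this k w hw)
  · have h1 := he k w hw
    have h2 := h.eq k w hw
    simp only [Lm_sub, EE, co_sub, co_add, co_neg, BoundedContinuousFunction.sub_apply,
      BoundedContinuousFunction.add_apply, BoundedContinuousFunction.neg_apply, Pi.sub_apply,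
      H.coef.co_Cor' (Or.inl rfl) _ k hw] at h1 h2 ⊢
    linear_combination h1 - h2
  · exact sub_eq_zero.2 (mul_left_cancel₀ (one_add_sq_ne k) ((hd k).trans (h.dir k).symm))
  · have h1 := hr k
    rw [e2 k, e1, ← bc_iff.1 h.bc k b rfl] at h1
    have h2 := mul_left_cancel₀ (rob_ne k (H.coef.re b H.hb)) h1
    simp only [co_sub, BoundedContinuousFunction.sub_apply, Pi.sub_apply] at h2 ⊢
    linear_combination h2

theorem Base.bd_Ph (H : Base a b α ε d σ ω) (O : GB a b (-2) (Af α) (pt a b (-2)) ρ d σ ω C)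
    (hρ : ρ 0 ≤ σ b) {c : ℝ} (hJ : ∀ i, Bd (Icc a b) σ ω (J i) 1)
    (bf : Bd (Icc a b) σ (fun w => d w * ω w) f c) (bξ : BdX (pt a b (-2)) ρ ξ c)
    (b0 : Bd {b} σ ω γ c) (b1 : Bd {b} σ ω γ1 c) (i : Fin 6) :
    Bd (Icc a b) σ ω (Ph a b α J f ξ γ γ1 i) (10 * C * (4 * c + 17000 * ε)) := by
  have e0 := H.sys.e0
  have x0 := bξ.nonneg
  have x1 : ‖ξ.co 0 b‖ ≤ c * σ b := by
    obtain ⟨c, h0, h1, h2, h3⟩ := bξ
    have h5 := h3 0
    rw [pt_zero] at h5
    exact h5.trans (mul_le_mul ((h1.le_tsum 0 fun j _ => h0 j).trans h2) hρ (O.rho 0) x0)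
  have hb := H.bd_B fun i => (hJ i).subset H.sub
  have hl : Bd {b} σ ω (algebraMap ℂ WA (lf b α (J 0) + 2 * (J 0).co 0 b - 2 * ξ.co 0 b))
      (40 * ε + 2 * c) := Bd.alg (by positivity) fun w hw => by
    have h1 := (H.lf_le ((hJ 0).subset H.sub)).1
    have h2 := norm_sub_le (lf b α (J 0) + 2 * (J 0).co 0 b) (2 * ξ.co 0 b)
    rw [norm_mul, norm_ofNat] at h2
    rw [mem_singleton_iff.1 hw]
    linarith
  refine (H.coef.bd_Gr O ((bf.sub (H.bd_NN hJ)).add (H.coef.bd_Cor O ((hJ 0).sub (hJ 2)))) bξ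
    (((hb.1.sub b0).sub hl).smul (1 / 2)) (((hb.2.sub b1).sub (Bd.zero _ _ _)).smul (1 / 2))
    i).mono ?_
  rw [norm_half]
  nlinarith [mul_nonneg (zero_le_one.trans O.one) e0]

theorem Base.norm_inv_le (H : Base a b α ε d σ ω) {w : ℝ} (hw : w ∈ Icc a b) :
    ‖(Af α w)⁻¹‖ ≤ 16 * b ^ 2 := by
  have w0 := H.pos.trans_le hw.1
  have e : (Af α w)⁻¹ = 16 * w ^ 2 * ef α w := by
    have := H.ne hw
    rw [Af, inv_inv, ef]; field_simp; ring
  have h1 : ‖ef α w‖ ≤ 1 := by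
    nlinarith [H.he w hw, (H.sig_le hw).1, H.sys.e0, H.sys.e1, H.sys.s0 w hw]
  rw [e, norm_mul, norm_mul, norm_pow, norm_real, norm_ofNat, Real.norm_of_nonneg w0.le]
  nlinarith [pow_le_pow_left₀ w0.le hw.2 2, sq_nonneg w]

end

section
variable {E : Type*} [NormedAddCommGroup E] [NormedSpace ℂ E] {U : Set E} {a b ε : ℝ}
  {al : E → ℂ} {d σ ω : E → ℝ → ℝ}

theorem differentiableOn_ef (hal : DifferentiableOn ℂ al U) (w : ℝ) :
    DifferentiableOn ℂ (fun z => ef (al z) w) U :=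
  ((hal.mul_const (w : ℂ)).const_sub 1).mul_const (8 * w : ℂ)⁻¹

theorem fam (hU : IsOpen U) (hab : a ≤ b) (hal : DifferentiableOn ℂ al U)
    (H : ∀ P ∈ U, Base a b (al P) ε (d P) (σ P) (ω P)) :
    Fam U a b (fun z => Af (al z)) (fun z => Af' (al z)) ε (16 * b ^ 2) := by
  have dA : ∀ w ∈ Icc a b, DifferentiableOn ℂ (fun z => Af (al z) w) U := fun w hw =>
    (((hal.mul_const (w : ℂ)).const_sub 1).const_mul (2 * w : ℂ)).inv fun z hz e => by
      simpa [Af, e] using (H z hz).coef.A0 hw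
  exact ⟨hU, hab, fun z hz => (H z hz).coef, dA,
    fun w hw => (((dA w hw).pow 2).const_mul 2).sub ((dA w hw).const_mul _),
    fun z hz w hw => (H z hz).norm_inv_le hw⟩

theorem differentiableOn_alg {c : E → ℂ} (h : DifferentiableOn ℂ c U) :
    DifferentiableOn ℂ (fun z => algebraMap ℂ WA (c z)) U := by
  simpa only [Algebra.algebraMap_eq_smul_one] using h.smul_const (1 : WA)

theorem differentiableOn_NN (hU : IsOpen U) (hab : a ≤ b) (hal : DifferentiableOn ℂ al U)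
    (H : ∀ P ∈ U, Base a b (al P) ε (d P) (σ P) (ω P)) {J : E → Fin 6 → WA}
    (hJ : DifferentiableOn ℂ J U) : DifferentiableOn ℂ (fun z => NN a b (al z) (J z)) U := by
  have F := fam hU hab hal H
  have s : ∀ {c : E → CB}, DifferentiableOn ℂ c U → DifferentiableOn ℂ (fun z => sc (c z)) U :=
    fun h => (single 0).differentiable.comp_differentiableOn h
  refine Ex.differentiableOn_ev (fun i => ?_) _
  fin_cases i
  iterate 6 exact differentiableOn_pi.1 hJ _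
  · exact s F.d_A
  · exact differentiableOn_const _
  · refine s (differentiableOn_mkB (M := 1) hab hU (fun z hz => (H z hz).cont_e)
      (fun z hz w hw => ?_) fun w _ => differentiableOn_ef hal w)
    have h := H z hz
    nlinarith [h.he w hw, (h.sig_le hw).1, h.sys.e0, h.sys.e1, h.sys.s0 w hw]
  · exact s F.d_sqrt

theorem differentiableOn_lf (hU : IsOpen U) (hab : a ≤ b) (hal : DifferentiableOn ℂ al U)
    (H : ∀ P ∈ U, Base a b (al P) ε (d P) (σ P) (ω P)) {η : E → WA}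
    (hη : DifferentiableOn ℂ η U) (h : ∀ z ∈ U, ‖η z‖ ≤ 1 / 100) :
    DifferentiableOn ℂ (fun z => lf b (al z) (η z)) U := by
  refine (differentiableOn_L2 ((fam hU hab hal H).dA b (right_mem_Icc.2 hab))
    (differentiableOn_ef hal b) (differentiableOn_amean hal hη (fun z hz => (H z hz).ef_le'.1)
      fun z hz => (h z hz).trans (by norm_num)) (fun z hz => (H z hz).ef_le'.2)
    (fun z hz => (H z hz).ef_le'.1) fun z hz => ?_).sub_const 1
  have h0 := h z hz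
  have h1 : ∀ θ, ‖1 + (η z).ev b θ‖ ≤ 11 / 10 := fun θ => by
    linarith [norm_add_le 1 ((η z).ev b θ), norm_one (α := ℂ), (η z).norm_ev_le b θ]
  have h2 := norm_mean_le fun θ => ph_le (H z hz).ef_le'.1 (h1 θ)
  have h3 := ((η z * η z).norm_co_apply_le 0 b).trans (norm_mul_le _ _)
  rw [amean_eq (H z hz).ef_le'.1 h1, show ∀ x y z : ℂ, 1 + x + y - z - 1 = x + y - z from
    fun _ _ _ => by ring]
  refine (norm_sub_le _ _).trans ((add_le_add_left (norm_add_le _ _) _).trans ?_)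
  rw [norm_mul 2, norm_mul (ef _ _), norm_ofNat]
  nlinarith [(η z).norm_co_apply_le 0 b, norm_nonneg (η z),
    mul_le_mul (H z hz).ef_le'.1 h2 (norm_nonneg _) (by norm_num)]

theorem differentiableOn_vB (hU : IsOpen U) (hab : a ≤ b) (hal : DifferentiableOn ℂ al U)
    (H : ∀ P ∈ U, Base a b (al P) ε (d P) (σ P) (ω P)) {J : E → Fin 6 → WA}
    (hJ : DifferentiableOn ℂ J U) (h : ∀ z ∈ U, ‖J z 0‖ ≤ 1 / 100) (e : Ex 8) :
    DifferentiableOn ℂ (fun z => e.ev (vB b (al z) (J z))) U := by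
  have hb := right_mem_Icc.2 hab
  refine Ex.differentiableOn_ev (fun i => ?_) _
  fin_cases i
  iterate 5 exact differentiableOn_pi.1 hJ _
  · exact differentiableOn_alg (differentiableOn_ef hal b)
  · exact differentiableOn_alg ((differentiableOn_lf hU hab hal H (differentiableOn_pi.1 hJ 0)
      h).mul_const (4 : ℂ)⁻¹)
  · exact differentiableOn_alg (differentiableOn_csqrt ((fam hU hab hal H).dA b hb)
      fun z hz => (H z hz).coef.re b hb)

theorem differentiableOn_Ph (hU : IsOpen U) (hab : a ≤ b) (hal : DifferentiableOn ℂ al U)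
    (H : ∀ P ∈ U, Base a b (al P) ε (d P) (σ P) (ω P)) {J : E → Fin 6 → WA} {f ξ γ γ1 : E → WA}
    (hJ : DifferentiableOn ℂ J U) (h : ∀ z ∈ U, ‖J z 0‖ ≤ 1 / 100) (df : DifferentiableOn ℂ f U)
    (dξ : DifferentiableOn ℂ ξ U) (dγ : DifferentiableOn ℂ γ U) (dγ1 : DifferentiableOn ℂ γ1 U) :
    DifferentiableOn ℂ (fun z => Ph a b (al z) (J z) (f z) (ξ z) (γ z) (γ1 z)) U := by
  have F := fam hU hab hal H
  have j := differentiableOn_pi.1 hJ
  exact F.d_Gr ((df.sub (differentiableOn_NN hU hab hal H hJ)).add (F.d_Cor ((j 0).sub (j 2)))) dξ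
    ((((differentiableOn_vB hU hab hal H hJ h _).sub dγ).sub (differentiableOn_alg
      (((differentiableOn_lf hU hab hal H (j 0) h).add ((differentiableOn_CB_apply
        (Fam.d_co (j 0) 0) b).const_mul 2)).sub ((differentiableOn_CB_apply
        (Fam.d_co dξ 0) b).const_mul 2)))).const_smul (1 / 2 : ℂ))
    ((((differentiableOn_vB hU hab hal H hJ h _).sub dγ1).sub_const 0).const_smul (1 / 2 : ℂ))

/-- existence, holomorphy, uniqueness -/
theorem solve (hU : IsOpen U) {C : ℝ} {ρ : E → ℤ → ℝ}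
    (hal : DifferentiableOn ℂ al U) (H : ∀ P ∈ U, Base a b (al P) ε (d P) (σ P) (ω P))
    (O : ∀ P ∈ U, GB a b (-2) (Af (al P)) (pt a b (-2)) (ρ P) (d P) (σ P) (ω P) C)
    (hρ : ∀ P ∈ U, ρ P 0 ≤ σ P b) (e0 : 0 < ε) (hε : 10000000 * C * ε ≤ 1)
    {F : E × (Fin 6 → WA) → WA} (hF : DifferentiableOn ℂ F (U ×ˢ ball 0 (3 * ε)))
    {ξ γ γ1 : E → WA} (dξ : DifferentiableOn ℂ ξ U) (dγ : DifferentiableOn ℂ γ U)
    (dγ1 : DifferentiableOn ℂ γ1 U)
    (hγ : ∀ P ∈ U, HasD {b} (fun w => Complex.sqrt (Af (al P) w)) (γ P) (γ1 P))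
    (bF : ∀ P ∈ U, ∀ J, Clamp a b J → (∀ i, Bd (Icc a b) (σ P) (ω P) (J i) 1) →
      Bd (Icc a b) (σ P) (fun w => d P w * ω P w) (F (P, J)) (1000 * C)⁻¹)
    (bξ : ∀ P ∈ U, BdX (pt a b (-2)) (ρ P) (ξ P) (1000 * C)⁻¹)
    (b0 : ∀ P ∈ U, Bd {b} (σ P) (ω P) (γ P) (1000 * C)⁻¹)
    (b1 : ∀ P ∈ U, Bd {b} (σ P) (ω P) (γ1 P) (1000 * C)⁻¹) :
    ∃ J : E → Fin 6 → WA, DifferentiableOn ℂ J U ∧ ∀ P ∈ U, Clamp a b (J P) ∧
      (∀ i, Bd (Icc a b) (σ P) (ω P) (J P i) (1 / 8)) ∧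
      Sol a b (al P) (J P) (F (P, J P)) (ξ P) (γ P) ∧
      ∀ J', Clamp a b J' → (∀ i, Bd (Icc a b) (σ P) (ω P) (J' i) 1) →
        Sol a b (al P) J' (F (P, J')) (ξ P) (γ P) → J' = J P := by
  rcases U.eq_empty_or_nonempty with rfl | ⟨P0, h0⟩
  · exact ⟨0, differentiableOn_empty, fun _ h => h.elim⟩
  have hab := (H P0 h0).le
  have e1 := (H P0 h0).coef.e1
  have C1 := (O P0 h0).one
  have : ∀ P, ∃ T : WA →L[ℂ] WA, P ∈ U → ∀ x B, ‖T x‖ ≤ B ↔ Bd (Icc a b) (σ P) (ω P) x B :=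
    fun P => by
      by_cases h : P ∈ U
      · exact (exists_T hab (O P h).pos (O P h).cont).imp fun T hT _ => hT
      · exact ⟨0, fun h' => (h h').elim⟩
  choose T hT using this
  let T2 : E → (Fin 6 → WA) →L[ℂ] (Fin 6 → WA) × (Fin 6 → WA) := fun P =>
    (((2 * ε : ℝ) : ℂ) • ContinuousLinearMap.pi fun i =>
      (T P).comp (ContinuousLinearMap.proj i)).prod ((2 : ℂ) • (.id ℂ _ - cX a b))
  have nT : ∀ P x, ‖T2 P x‖ = max (2 * ε * ‖fun i => T P (x i)‖) (2 * ‖x - cX a b x‖) :=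
    fun P x => by
      change max ‖((2 * ε : ℝ) : ℂ) • fun i => T P (x i)‖ ‖(2 : ℂ) • (x - cX a b x)‖ = _
      rw [norm_smul, norm_smul, norm_real, Real.norm_of_nonneg (by positivity), norm_ofNat]
  have nT1 : ∀ P ∈ U, ∀ x B, ‖T2 P x‖ ≤ 2 * ε * B → ∀ i, Bd (Icc a b) (σ P) (ω P) (x i) B :=
    fun P hP x B h i => (hT P hP _ _).1 ((norm_le_pi_norm (fun i => T P (x i)) i).trans
      (le_of_mul_le_mul_left (((le_max_left _ _).trans_eq (nT P x).symm).trans h) (by positivity)))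
  have nT2 : ∀ P ∈ U, ∀ x B, Clamp a b x → (∀ i, Bd (Icc a b) (σ P) (ω P) (x i) B) →
      ‖T2 P x‖ ≤ 2 * ε * B := fun P hP x B hx h => by
    have B0 := (h 0).nonneg
    rw [nT, show cX a b x = x from funext hx, sub_self, norm_zero, mul_zero]
    refine max_le ?_ (by positivity)
    gcongr
    exact (pi_norm_le_iff_of_nonneg B0).2 fun i => (hT P hP _ _).2 (h i)
  have dX : DifferentiableOn ℂ (fun z : E × (Fin 6 → WA) => cX a b z.2) (U ×ˢ ball 0 (3 * ε)) :=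
    (cX a b).differentiable.comp_differentiableOn differentiableOn_snd
  have mX : ∀ z ∈ U ×ˢ ball (0 : Fin 6 → WA) (3 * ε), ‖cX a b z.2‖ < 3 * ε := fun z hz =>
    (norm_cX_le _ _ _).trans_lt (mem_ball_zero_iff.1 hz.2)
  have m1 : MapsTo Prod.fst (U ×ˢ ball (0 : Fin 6 → WA) (3 * ε)) U := fun _ h => h.1
  obtain ⟨S, dS, hS⟩ := exists_fix hU T2 (fun z => Ph a b (al z.1) (cX a b z.2)
    (F (z.1, cX a b z.2)) (ξ z.1) (γ z.1) (γ1 z.1)) (R := 2 * ε) (R0 := 3 * ε) (by positivity)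
    (by linarith) (fun P hP x => by
      have h1 : ‖cX a b x‖ ≤ ε * ‖fun i => T P (x i)‖ :=
        (pi_norm_le_iff_of_nonneg (by positivity)).2 fun i => Bd.norm_comp_cl_le (σ := 1) (ω := 1)
          hab (((hT P hP _ _).1 (norm_le_pi_norm (fun i => T P (x i)) i)).weaken e0.le
            (fun w hw => by simpa using ((H P hP).sig_le hw).1)
            fun w hw => by simpa using ((H P hP).sig_le hw).2) fun _ _ => ⟨le_rfl, le_rfl⟩
      have h2 := norm_add_le (x - cX a b x) (cX a b x)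
      rw [sub_add_cancel] at h2
      rw [nT]
      linarith [le_max_left (2 * ε * ‖fun i => T P (x i)‖) (2 * ‖x - cX a b x‖),
        le_max_right (2 * ε * ‖fun i => T P (x i)‖) (2 * ‖x - cX a b x‖)])
    (differentiableOn_Ph (E := E × (Fin 6 → WA)) (d := fun z => d z.1) (σ := fun z => σ z.1)
      (ω := fun z => ω z.1) (al := fun z => al z.1)
      (hU.prod isOpen_ball) hab (hal.comp differentiableOn_fst m1) (fun z hz => H z.1 hz.1) dX
      (fun z hz => by linarith [norm_le_pi_norm (cX a b z.2) 0, mX z hz])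
      (hF.comp (differentiableOn_fst.prodMk dX) fun z hz => ⟨hz.1, mem_ball_zero_iff.2 (mX z hz)⟩)
      (dξ.comp differentiableOn_fst m1) (dγ.comp differentiableOn_fst m1)
      (dγ1.comp differentiableOn_fst m1))
    fun P hP x hx => by
      have h1 : ∀ i, Bd (Icc a b) (σ P) (ω P) (cX a b x i) 1 := fun i =>
        (nT1 P hP x 1 (by linarith) i).congr (wEq_comp_cl _)
      refine (nT2 P hP _ (1 / 8) (fun i => (H P hP).coef.comp_Gr i) fun i =>
        ((H P hP).bd_Ph (O P hP) (hρ P hP) h1 (bF P hP _ (Clamp.comp hab x) h1) (bξ P hP)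
          (b0 P hP) (b1 P hP) i).mono ?_).trans_eq (by ring)
      have : C * (1000 * C)⁻¹ = 1 / 1000 := by field_simp
      nlinarith
  refine ⟨S, dS, fun P hP => ?_⟩
  obtain ⟨s1, s2, s3⟩ := hS P hP
  have hc : Clamp a b (S P) := s1 ▸ fun i => (H P hP).coef.comp_Gr i
  rw [show cX a b (S P) = S P from funext hc] at s1
  refine ⟨hc, nT1 P hP _ _ (by linarith), (H P hP).sol_of_fix (hγ P hP) s1, fun J' c' b' s' =>
    s3 J' (by simpa using nT2 P hP J' 1 c' b') ?_⟩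
  simp only [show cX a b J' = J' from funext c']
  exact Clamp.eq hab (fun i => (H P hP).coef.comp_Gr i) c'
    ((H P hP).fix_of_sol (O P hP) hε (hγ P hP) s')

end

end Vale.Agent.P218EN
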