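import Vale.Agent.P218EN.Mode2

/-! Jets in the Wiener algebra, the model operator, boundary conditions, linear estimates. -/

namespace Vale.Agent.P218EN
open Filter Topology Set Complex WA

/-- equality of the coefficients on `S` -/
def WEq (S : Set ℝ) (x y : WA) : Prop := ∀ k, ∀ w ∈ S, x.co k w = y.co k w

theorem wEq_iff {S : Set ℝ} {x y : WA} : WEq S x y ↔ ∀ w ∈ S, ∀ θ, x.ev w θ = y.ev w θ := by
  refine ⟨fun h w hw θ => tsum_congr fun k => by rw [h k w hw], fun h k w hw => ?_⟩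
  have h1 := x.integral_ev w k
  simp only [h w hw, integral_ev] at h1
  have : (2 * Real.pi : ℂ) ≠ 0 := mul_ne_zero two_ne_zero (by exact_mod_cast Real.pi_ne_zero)
  exact (mul_left_cancel₀ this h1).symm

/-- `J = (η, η_θ, η_θθ, η_w / A, η_ww / A, η_wθ / √A)` on `[a, b]` -/
structure Jet (a b : ℝ) (A : ℝ → ℂ) (J : Fin 6 → WA) : Prop where
  d0 : ∀ k, ∀ w ∈ Icc a b, HasDerivWithinAt ((J 0).co k) (A w * (J 3).co k w) (Icc a b) w
  d3 : ∀ k, ∀ w ∈ Icc a b,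
    HasDerivWithinAt (fun u => A u * (J 3).co k u) (A w * (J 4).co k w) (Icc a b) w
  t1 : HasD (Icc a b) 1 (J 0) (J 1)
  t2 : HasD (Icc a b) 1 (J 1) (J 2)
  t5 : HasD (Icc a b) (fun w => Complex.sqrt (A w)) (J 3) (J 5)

theorem Jet.t2' {a b : ℝ} {A : ℝ → ℂ} {J : Fin 6 → WA} (h : Jet a b A J) (k : ℤ) {w : ℝ}
    (hw : w ∈ Icc a b) : (J 2).co k w = -(k : ℂ) ^ 2 * (J 0).co k w := by
  rw [h.t2 k w hw, h.t1 k w hw]
  simp only [Pi.one_apply]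
  linear_combination (k : ℂ) ^ 2 * (J 0).co k w * I_sq

theorem Jet.sub {a b : ℝ} {A : ℝ → ℂ} {J J' : Fin 6 → WA} (h : Jet a b A J) (h' : Jet a b A J') :
    Jet a b A (J - J') := by
  refine ⟨fun k w hw => ((h.d0 k w hw).sub (h'.d0 k w hw)).congr_deriv ?_, fun k w hw => ?_,
    ?_, ?_, ?_⟩
  · simp [mul_sub]
  · simpa [mul_sub] using (h.d3 k w hw).fun_sub (h'.d3 k w hw)
  · simpa [sub_eq_add_neg] using h.t1.add h'.t1.neg
  · simpa [sub_eq_add_neg] using h.t2.add h'.t2.neg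
  · simpa [sub_eq_add_neg] using h.t5.add h'.t5.neg

theorem Jet.mono {a b a' b' : ℝ} {A : ℝ → ℂ} {J : Fin 6 → WA} (h : Jet a b A J)
    (hs : Icc a' b' ⊆ Icc a b) : Jet a' b' A J :=
  ⟨fun k w hw => (h.d0 k w (hs hw)).mono hs, fun k w hw => (h.d3 k w (hs hw)).mono hs,
    fun k w hw => h.t1 k w (hs hw), fun k w hw => h.t2 k w (hs hw),
    fun k w hw => h.t5 k w (hs hw)⟩

theorem Jet.congr {a b : ℝ} {A : ℝ → ℂ} {J J' : Fin 6 → WA} (h : Jet a b A J)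
    (e : ∀ i, WEq (Icc a b) (J' i) (J i)) : Jet a b A J' := by
  refine ⟨fun k w hw => ?_, fun k w hw => ?_, fun k w hw => ?_, fun k w hw => ?_,
    fun k w hw => ?_⟩
  · rw [e 3 k w hw]
    exact (h.d0 k w hw).congr (e 0 k) (e 0 k w hw)
  · rw [e 4 k w hw]
    exact (h.d3 k w hw).congr (fun u hu => by rw [e 3 k u hu]) (by rw [e 3 k w hw])
  · rw [e 1 k w hw, e 0 k w hw]; exact h.t1 k w hw
  · rw [e 2 k w hw, e 1 k w hw]; exact h.t2 k w hw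
  · rw [e 5 k w hw, e 3 k w hw]; exact h.t5 k w hw

/-- the model operator `(η_ww - η_w) / A + η_θθ - s η` -/
noncomputable def Lm (s : ℝ) (J : Fin 6 → WA) : WA := J 4 - J 3 + J 2 - (s : ℂ) • J 0

theorem Jet.mEq {a b s ε : ℝ} {A A' : ℝ → ℂ} {J : Fin 6 → WA} {f : WA} (h : Jet a b A J)
    (H : Coef a b A A' ε) (hf : WEq (Icc a b) (Lm s J) f) (k : ℤ) :
    MEq a b A (kp s k) ((J 0).co k) ((J 3).co k)
      fun w => f.co k w + cc (kp s k) (A w) (A' w) * (J 0).co k w := by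
  refine ⟨h.d0 k, fun w hw => ((h.d3 k w hw).add
    ((H.hasDeriv_nn _ hw).mul (h.d0 k w hw))).congr_deriv ?_⟩
  have h1 := hf k w hw
  have h0 : A w ≠ 0 := norm_pos_iff.1 (H.A0 hw)
  simp only [Lm, co_sub, co_add, co_smul, BoundedContinuousFunction.sub_apply,
    BoundedContinuousFunction.add_apply, BoundedContinuousFunction.smul_apply, smul_eq_mul,
    h.t2' k hw] at h1
  rw [← h1, cc]
  simp only [kp]
  push_cast
  field_simp
  ring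

/-- the end point at which the value of the mode `k` is prescribed -/
noncomputable def pt (a b s : ℝ) (k : ℤ) : ℝ := if 2 ≤ kp s k then a else b

theorem pt_mem {a b : ℝ} (hab : a ≤ b) (s : ℝ) (k : ℤ) : pt a b s k ∈ Icc a b := by
  unfold pt; split_ifs
  · exact left_mem_Icc.2 hab
  · exact right_mem_Icc.2 hab

/-- boundary conditions -/
structure BC (a b s : ℝ) (A : ℝ → ℂ) (J : Fin 6 → WA) (ξ D0 D1 : WA) : Prop where
  dir : ∀ k : ℤ, (1 + (k : ℂ) ^ 2) * (J 0).co k (pt a b s k) = ξ.co k (pt a b s k)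
  rob : ∀ k : ℤ, (1 + |k| * Complex.sqrt (A b)) * ((J 3).co k b - (J 0).co k b) =
    D0.co k b - I * k.sign * D1.co k b

theorem norm_rob_ge (k : ℤ) {A : ℂ} (hA : 0 < A.re) :
    1 + rk k A ≤ 2 * ‖1 + (|k| : ℤ) * Complex.sqrt A‖ := by
  have h1 := re_le_norm (1 + (|k| : ℤ) * Complex.sqrt A)
  have h2 := congrArg Complex.re (csqrt_sq A)
  have h3 := norm_sq_parts (Complex.sqrt A)
  have h4 := csqrt_re_nonneg A
  simp only [sq, mul_re] at h2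
  have h5 : ‖Complex.sqrt A‖ ≤ 2 * (Complex.sqrt A).re :=
    (abs_le_of_sq_le_sq' (by nlinarith) (by positivity)).2
  simp only [add_re, one_re, mul_re, intCast_re, intCast_im, zero_mul, sub_zero,
    Int.cast_abs] at h1
  have h6 := mul_le_mul_of_nonneg_left h5 (abs_nonneg (k : ℝ))
  have h7 : (1 + (|k| : ℤ) * Complex.sqrt A : ℂ) = 1 + |(k : ℝ)| * Complex.sqrt A := by
    rw [← Int.cast_abs]; norm_cast
  have h8 := re_le_norm (1 + |(k : ℝ)| * Complex.sqrt A : ℂ)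
  simp only [add_re, one_re, mul_re, ofReal_re, ofReal_im, zero_mul, sub_zero] at h8
  rw [h7, rk]
  linarith

theorem rob_ne (k : ℤ) {A : ℂ} (hA : 0 < A.re) : (1 + (|k| : ℤ) * Complex.sqrt A : ℂ) ≠ 0 := by
  rw [← norm_pos_iff]
  linarith [norm_rob_ge k hA, rk_nonneg k A]

theorem rob_rhs {t x y : ℂ} (k : ℤ) (h : y = t * (k * I) * x) :
    x - I * k.sign * y = (1 + (|k| : ℤ) * t) * x := by
  rw [h, ← Int.sign_mul_self_eq_abs]
  push_cast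
  linear_combination (-(k.sign : ℂ) * t * k * x) * I_sq

theorem rob_est {k : ℤ} {A d x y : ℂ} (hA : 0 < A.re)
    (h : (1 + (|k| : ℤ) * Complex.sqrt A) * d = x - I * k.sign * y) :
    (1 + rk k A) * ‖d‖ ≤ 2 * (‖x‖ + ‖y‖) := by
  have h1 : ‖I * k.sign * y‖ ≤ ‖y‖ := by
    rw [norm_mul, norm_mul, norm_I, one_mul, norm_intCast]
    refine mul_le_of_le_one_left (norm_nonneg _) ?_
    rcases lt_trichotomy k 0 with h | h | h
    · simp [Int.sign_eq_neg_one_of_neg h]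
    · simp [h]
    · simp [Int.sign_eq_one_of_pos h]
  have h2 := norm_sub_le x (I * k.sign * y)
  rw [← h, norm_mul] at h2
  nlinarith [mul_le_mul_of_nonneg_right (norm_rob_ge k hA) (norm_nonneg d)]

/-- admissible pair of weights -/
def Wts (a b s : ℝ) (A : ℝ → ℂ) (σ ω : ℝ → ℝ) : Prop :=
  (∃ ω', AdmO a b A ω ω') ∧
    ((s = -2 ∧ ∃ σ', AdmS a b A σ σ') ∨ (s = 2 ∧ σ = ω ∧ ∀ w ∈ Icc a b, dl A w = 1))

theorem Wts.hs {a b s : ℝ} {A : ℝ → ℂ} {σ ω : ℝ → ℝ} (h : Wts a b s A σ ω) : s = -2 ∨ s = 2 :=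
  h.2.imp And.left And.left

theorem Wts.pos {a b s : ℝ} {A : ℝ → ℂ} {σ ω : ℝ → ℝ} (h : Wts a b s A σ ω) {w : ℝ}
    (hw : w ∈ Icc a b) : 0 < σ w ∧ 0 < ω w := by
  obtain ⟨⟨ω', O⟩, ⟨-, σ', S⟩ | ⟨-, rfl, -⟩⟩ := h
  · exact ⟨S.pos w hw, O.pos w hw⟩
  · exact ⟨O.pos w hw, O.pos w hw⟩

theorem Wts.cont {a b s : ℝ} {A : ℝ → ℂ} {σ ω : ℝ → ℝ} (h : Wts a b s A σ ω) :
    ContinuousOn σ (Icc a b) ∧ ContinuousOn ω (Icc a b) := by
  obtain ⟨⟨ω', O⟩, ⟨-, σ', S⟩ | ⟨-, rfl, -⟩⟩ := h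
  · exact ⟨fun w hw => (S.hd w hw).continuousWithinAt, fun w hw => (O.hd w hw).continuousWithinAt⟩
  · exact ⟨fun w hw => (O.hd w hw).continuousWithinAt, fun w hw => (O.hd w hw).continuousWithinAt⟩

theorem Coef.mode_all {a b ε s c : ℝ} {A A' y p g : ℝ → ℂ} {k : ℤ} {σ ω : ℝ → ℝ}
    (H : Coef a b A A' ε) (O : Wts a b s A σ ω) (h : MEq a b A (kp s k) y p g) (hc : 0 ≤ c)
    (hg : ∀ w ∈ Icc a b, ‖g w‖ ≤ c * wt σ (fun w => dl A w * ω w) k w)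
    (ha : (1 + (k : ℝ) ^ 2) * ‖y (pt a b s k)‖ ≤ c * wt σ ω k (pt a b s k))
    (hd : (1 + rk k (A b)) * ‖p b - y b‖ ≤ c * wt σ ω k b) : ∀ w ∈ Icc a b,
    (1 + (k : ℝ) ^ 2) * ‖y w‖ ≤ 3000000 * c * wt σ ω k w ∧
      (1 + rk k (A w)) * ‖p w‖ ≤ 3000000 * c * wt σ ω k w := by
  have hs := O.hs
  obtain ⟨⟨ω', O⟩, ⟨rfl, σ', S⟩ | ⟨rfl, rfl, h1⟩⟩ := O
  · rcases kp_cases hs k with hk | ⟨-, rfl⟩ | ⟨-, hk⟩
    · have k0 : k ≠ 0 := by rintro rfl; norm_num [kp] at hk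
      rw [pt, if_pos hk] at ha
      rw [wt_ne _ _ k0] at *
      exact H.mode_high hs hk O h hc hg ha hd
    · rw [pt, if_neg (by norm_num [kp])] at ha
      rw [wt_zero] at *
      exact H.mode_zero S h hc hg ha hd
    · have k0 : k ≠ 0 := by omega
      rw [pt, if_neg (by rcases hk with rfl | rfl <;> norm_num [kp])] at ha
      rw [wt_ne _ _ k0] at *
      exact H.mode_one hk O h hc hg ha hd
  · have hk : 2 ≤ kp 2 k := by unfold kp; nlinarith [sq_nonneg (k : ℝ)]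
    have e : wt σ σ k = σ := by unfold wt; split_ifs <;> rfl
    rw [pt, if_pos hk] at ha
    rw [e] at ha hd ⊢
    refine H.mode_high hs hk O h hc (fun w hw => (hg w hw).trans_eq ?_) ha hd
    unfold wt; split_ifs <;> simp [h1 w hw]

/-- bound for data prescribed at the points `τ k` -/
def BdX (τ ρ : ℤ → ℝ) (ξ : WA) (B : ℝ) : Prop :=
  ∃ c : ℤ → ℝ, (∀ k, 0 ≤ c k) ∧ Summable c ∧ ∑' k, c k ≤ B ∧ ∀ k, ‖ξ.co k (τ k)‖ ≤ c k * ρ k

theorem Bd.bdX {S : Set ℝ} {τ : ℤ → ℝ} (hτ : ∀ k, τ k ∈ S) {σ ω : ℝ → ℝ} {ξ : WA} {B : ℝ}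
    (h : Bd S σ ω ξ B) : BdX τ (fun k => wt σ ω k (τ k)) ξ B := by
  obtain ⟨c, h0, h1, h2, h3⟩ := h
  exact ⟨c, h0, h1, h2, fun k => h3 k _ (hτ k)⟩

theorem BdX.nonneg {τ ρ : ℤ → ℝ} {ξ : WA} {B : ℝ} (h : BdX τ ρ ξ B) : 0 ≤ B := by
  obtain ⟨c, h0, -, h2, -⟩ := h
  exact (tsum_nonneg h0).trans h2

theorem BdX.mono {τ ρ : ℤ → ℝ} {ξ : WA} {B B' : ℝ} (h : BdX τ ρ ξ B) (hB : B ≤ B') :
    BdX τ ρ ξ B' := by
  obtain ⟨c, h0, h1, h2, h3⟩ := h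
  exact ⟨c, h0, h1, h2.trans hB, h3⟩

theorem BdX.of_zero {τ ρ : ℤ → ℝ} {ξ : WA} (h : ∀ k, ξ.co k (τ k) = 0) : BdX τ ρ ξ 0 :=
  ⟨0, fun _ => le_rfl, summable_zero, by simp, fun k => by simp [h k]⟩

theorem BdX.add {τ ρ : ℤ → ℝ} {x y : WA} {B B' : ℝ} (h : BdX τ ρ x B) (h' : BdX τ ρ y B') :
    BdX τ ρ (x + y) (B + B') := by
  obtain ⟨c, h0, h1, h2, h3⟩ := h
  obtain ⟨c', h0', h1', h2', h3'⟩ := h'
  refine ⟨fun k => c k + c' k, fun k => add_nonneg (h0 k) (h0' k), h1.add h1', ?_, fun k => ?_⟩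
  · rw [h1.tsum_add h1']; exact add_le_add h2 h2'
  · rw [co_add, BoundedContinuousFunction.add_apply, add_mul]
    exact (norm_add_le _ _).trans (add_le_add (h3 k) (h3' k))

/-- A weight system in which the model operator can be inverted with constant `C`: values
prescribed at `τ k` (weight `ρ k`), Robin condition at `b`, solutions in the class `(σ, ω)`,
sources in the class `(σ, d ω)`. -/
structure GB (a b s : ℝ) (A : ℝ → ℂ) (τ ρ : ℤ → ℝ) (d σ ω : ℝ → ℝ) (C : ℝ) : Prop where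
  hs : s = -2 ∨ s = 2
  one : 1 ≤ C
  rho : ∀ k, 0 ≤ ρ k
  pos : ∀ w ∈ Icc a b, 0 < σ w ∧ 0 < ω w
  cont : ContinuousOn σ (Icc a b) ∧ ContinuousOn ω (Icc a b)
  dlo : ∀ w ∈ Icc a b, dl A w ≤ d w
  dhi : ∀ w ∈ Icc a b, d w ≤ 1
  est : ∀ (k : ℤ) (y p g : ℝ → ℂ) (c : ℝ), MEq a b A (kp s k) y p g → 0 ≤ c →
    (∀ w ∈ Icc a b, ‖g w‖ ≤ c * wt σ (fun w => d w * ω w) k w) →
    (1 + (k : ℝ) ^ 2) * ‖y (τ k)‖ ≤ c * ρ k →
    (1 + rk k (A b)) * ‖p b - y b‖ ≤ c * wt σ ω k b → ∀ w ∈ Icc a b,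
    (1 + (k : ℝ) ^ 2) * ‖y w‖ ≤ C * c * wt σ ω k w ∧ (1 + rk k (A w)) * ‖p w‖ ≤ C * c * wt σ ω k w

theorem GB.wt_pos {a b s : ℝ} {A : ℝ → ℂ} {τ ρ : ℤ → ℝ} {d σ ω : ℝ → ℝ} {C : ℝ}
    (O : GB a b s A τ ρ d σ ω C) (k : ℤ) {w : ℝ} (hw : w ∈ Icc a b) : 0 < wt σ ω k w := by
  unfold wt; split_ifs
  · exact (O.pos w hw).1
  · exact (O.pos w hw).2

theorem Coef.gb {a b ε s : ℝ} {A A' : ℝ → ℂ} {σ ω : ℝ → ℝ} (H : Coef a b A A' ε)
    (O : Wts a b s A σ ω) :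
    GB a b s A (pt a b s) (fun k => wt σ ω k (pt a b s k)) (dl A) σ ω 3000000 := by
  refine ⟨O.hs, by norm_num, fun k => ?_, fun w hw => O.pos hw, O.cont, fun _ _ => le_rfl,
    fun w hw => H.dl_le hw, fun k y p g c h hc hg ha hd => H.mode_all O h hc hg ha hd⟩
  have := O.pos (pt_mem H.le s k)
  unfold wt; split_ifs
  · exact this.1.le
  · exact this.2.le

theorem Coef.gb_exp {a b ε s : ℝ} {A A' : ℝ → ℂ} (H : Coef a b A A' ε) (hs : s = -2 ∨ s = 2)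
    (t : ℝ) : GB a b s A (fun _ => a) (fun _ => Real.exp ((a - t) / 4)) 1
      (fun w => Real.exp ((w - t) / 4)) (fun w => Real.exp ((w - t) / 4)) 3000000 := by
  have e : ∀ (f : ℝ → ℝ) k, wt f f k = f := fun f k => by unfold wt; split_ifs <;> rfl
  refine ⟨hs, by norm_num, fun _ => (Real.exp_pos _).le,
    fun _ _ => ⟨Real.exp_pos _, Real.exp_pos _⟩, ⟨by fun_prop, by fun_prop⟩,
    fun w hw => H.dl_le hw, fun _ _ => le_rfl, fun k y p g c h hc hg ha hd => ?_⟩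
  simp only [Pi.one_apply, one_mul, e] at hg hd ⊢
  exact H.mode_exp hs h hc hg ha hd

theorem six_bound {s : ℝ} (hs : s = -2 ∨ s = 2) (k : ℤ) {A y p g cf : ℂ} {c W C : ℝ} (hC : 1 ≤ C)
    (hcf : ‖cf‖ ≤ max 1 (kp s k) / 100) (hg : ‖g‖ ≤ c * W)
    (h : (1 + (k : ℝ) ^ 2) * ‖y‖ ≤ C * c * W ∧ (1 + rk k A) * ‖p‖ ≤ C * c * W)
    (j : Fin 6 → ℂ) (h0 : j 0 = y) (h1 : j 1 = k * I * y) (h2 : j 2 = -(k : ℂ) ^ 2 * y)
    (h3 : j 3 = p) (h4 : j 4 = p + g + (kp s k - cf) * y)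
    (h5 : j 5 = Complex.sqrt A * (k * I) * p) (i : Fin 6) : ‖j i‖ ≤ 5 * C * c * W := by
  obtain ⟨-, m2, m3⟩ := kp_max hs k
  have y0 := norm_nonneg y
  have p0 := norm_nonneg p
  have r0 := rk_nonneg k A
  have k2 := sq_nonneg (k : ℝ)
  have cW : 0 ≤ c * W := (norm_nonneg _).trans hg
  have cW' : c * W ≤ C * c * W := by nlinarith
  have ka : |(k : ℝ)| ≤ 1 + (k : ℝ) ^ 2 := by nlinarith [sq_abs (k : ℝ), abs_nonneg (k : ℝ)]
  have e5 : 5 * C * c * W = 5 * (C * c * W) := by ring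
  rw [e5]
  fin_cases i
  · simp only [Fin.zero_eta, h0]; nlinarith [h.1]
  · simp only [Fin.mk_one, h1, norm_mul, norm_I, norm_intCast, mul_one]
    nlinarith [h.1, mul_le_mul_of_nonneg_right ka y0]
  · simp only [Fin.reduceFinMk, h2, norm_mul, norm_neg, norm_pow, norm_intCast, sq_abs]
    nlinarith [h.1]
  · simp only [Fin.reduceFinMk, h3]; nlinarith [h.2]
  · simp only [Fin.reduceFinMk, h4]
    have e1 := norm_add₃_le (a := p) (b := g) (c := (kp s k - cf) * y)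
    have e2 := norm_sub_le (kp s k : ℂ) cf
    rw [norm_real, Real.norm_eq_abs] at e2
    rw [norm_mul] at e1
    have e3 : ‖(kp s k : ℂ) - cf‖ * ‖y‖ ≤ 3 * (1 + (k : ℝ) ^ 2) * ‖y‖ := by gcongr; linarith
    nlinarith [h.1, h.2, mul_nonneg r0 p0]
  · simp only [Fin.reduceFinMk, h5, norm_mul, norm_I, norm_intCast, mul_one]
    have : ‖Complex.sqrt A‖ * |(k : ℝ)| = rk k A := by rw [rk, mul_comm]
    rw [this]
    nlinarith [h.2]

theorem Coef.cc_le' {a b ε s : ℝ} {A A' : ℝ → ℂ} (H : Coef a b A A' ε) (hs : s = -2 ∨ s = 2)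
    (k : ℤ) {w : ℝ} (hw : w ∈ Icc a b) :
    ‖cc (kp s k) (A w) (A' w)‖ ≤ max 1 (kp s k) / 100 := by
  have h1 := H.cc_le (kp_ge hs k) hw
  have h2 : ε * dl A w ≤ 1 / 1000 := by nlinarith [H.dl_le hw, H.dl_pos hw, H.e0, H.e1]
  nlinarith [le_max_left 1 (kp s k)]

/-- estimate for sequences of modes -/
theorem Coef.seq_est {a b ε s C : ℝ} {A A' : ℝ → ℂ} {τ ρ : ℤ → ℝ} {d σ ω : ℝ → ℝ}
    (H : Coef a b A A' ε) (O : GB a b s A τ ρ d σ ω C) {j : ℤ → Fin 6 → ℝ → ℂ}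
    {g ξ D0 D1 : WA} {Bg Bξ B0 B1 : ℝ}
    (hm : ∀ k, MEq a b A (kp s k) (j k 0) (j k 3) (g.co k))
    (h1 : ∀ k, ∀ w ∈ Icc a b, j k 1 w = k * I * j k 0 w)
    (h2 : ∀ k, ∀ w ∈ Icc a b, j k 2 w = -(k : ℂ) ^ 2 * j k 0 w)
    (h4 : ∀ k, ∀ w ∈ Icc a b,
      j k 4 w = j k 3 w + g.co k w + (kp s k - cc (kp s k) (A w) (A' w)) * j k 0 w)
    (h5 : ∀ k, ∀ w ∈ Icc a b, j k 5 w = Complex.sqrt (A w) * (k * I) * j k 3 w)
    (dir : ∀ k : ℤ, (1 + (k : ℂ) ^ 2) * j k 0 (τ k) = ξ.co k (τ k))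
    (rob : ∀ k : ℤ, (1 + |k| * Complex.sqrt (A b)) * (j k 3 b - j k 0 b) =
      D0.co k b - I * k.sign * D1.co k b)
    (hg : Bd (Icc a b) σ (fun w => d w * ω w) g Bg) (hξ : BdX τ ρ ξ Bξ)
    (hD0 : Bd {b} σ ω D0 B0) (hD1 : Bd {b} σ ω D1 B1) :
    ∃ c : ℤ → ℝ, (∀ k, 0 ≤ c k) ∧ Summable c ∧ ∑' k, c k ≤ 10 * C * (Bg + Bξ + B0 + B1) ∧
      ∀ i k, ∀ w ∈ Icc a b, ‖j k i w‖ ≤ c k * wt σ ω k w := by
  have p1 := hg.nonneg
  have p2 := hξ.nonneg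
  obtain ⟨c1, a0, a1, a2, a3⟩ := hg
  obtain ⟨c2, b0, b1, b2, b3⟩ := hξ
  obtain ⟨c3, d0, d1, d2, d3⟩ := hD0
  obtain ⟨c4, e0, e1, e2, e3⟩ := hD1
  have hb : b ∈ Icc a b := right_mem_Icc.2 H.le
  have wq : ∀ k, ∀ w ∈ Icc a b, 0 ≤ wt σ (fun w => d w * ω w) k w ∧
      wt σ (fun w => d w * ω w) k w ≤ wt σ ω k w := fun k w hw => by
    unfold wt; split_ifs
    · exact ⟨(O.pos w hw).1.le, le_rfl⟩
    · exact ⟨(mul_pos ((H.dl_pos hw).trans_le (O.dlo w hw)) (O.pos w hw).2).le,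
        mul_le_of_le_one_left (O.pos w hw).2.le (O.dhi w hw)⟩
  have s1 := (a1.add b1).add ((d1.add e1).mul_left 2)
  have C0 : 0 ≤ C := zero_le_one.trans O.one
  refine ⟨fun k => 5 * C * (c1 k + c2 k + 2 * (c3 k + c4 k)), fun k => by
    have := a0 k; have := b0 k; have := d0 k; have := e0 k; positivity, s1.mul_left _, ?_,
    fun i k w hw => ?_⟩
  · rw [tsum_mul_left, (a1.add b1).tsum_add ((d1.add e1).mul_left 2), a1.tsum_add b1,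
      tsum_mul_left, d1.tsum_add e1]
    nlinarith
  have q1 := a0 k
  have q2 := b0 k
  have q3 := d0 k
  have q4 := e0 k
  have hg' : ∀ w ∈ Icc a b, ‖g.co k w‖ ≤ (c1 k + c2 k + 2 * (c3 k + c4 k)) *
      wt σ (fun w => d w * ω w) k w := fun w hw =>
    (a3 k w hw).trans (mul_le_mul_of_nonneg_right (by linarith) (wq k w hw).1)
  have key := O.est k _ _ _ (c1 k + c2 k + 2 * (c3 k + c4 k)) (hm k) (by positivity) hg'
    (by
      have e : ‖(1 + (k : ℂ) ^ 2)‖ = 1 + (k : ℝ) ^ 2 := by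
        rw [← Real.norm_of_nonneg (by positivity : 0 ≤ 1 + (k : ℝ) ^ 2), ← norm_real]
        push_cast; rfl
      rw [← e, ← norm_mul, dir]
      exact (b3 k).trans (mul_le_mul_of_nonneg_right (by linarith) (O.rho k)))
    (by
      refine (rob_est (H.re b hb) (rob k)).trans ?_
      nlinarith [d3 k b rfl, e3 k b rfl, O.wt_pos k hb]) w hw
  exact six_bound O.hs k O.one (H.cc_le' O.hs k hw) ((hg' w hw).trans
    (mul_le_mul_of_nonneg_left (wq k w hw).2 (by positivity))) key (fun i => j k i w) rfl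
    (h1 k w hw) (h2 k w hw) rfl (h4 k w hw) (h5 k w hw) i

end Vale.Agent.P218EN
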