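import Vale.Agent.P218EN.Ex
import Vale.Agent.P218EN.Lin

/-! The shrinker equation on a cylindrical end and the natural boundary condition.

`X = 2 √w (2 τ e(θ), 1 - τ²) / (1 + τ²)`, `τ² = ε (1 + η)²`, `ε = (1 - α w) / (8 w)`,
`A = 1 / (2 w (1 - α w))`, `x = 1 / (2 w)`, `r = √A`, and the normalised jets are
`η, t = η_θ, u = η_θθ, p = η_w / A, q = η_ww / A, s = η_wθ / r`. -/

namespace Vale.Agent.P218EN
open Set Complex WA

section
variable {R : Type*} [CommRing R]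

/-- coefficient of `q` -/
def pa11 (ε η t : R) : R := (1 + ε * (1 + η) ^ 2) ^ 2 * ((1 + η) ^ 2 + t ^ 2) * (1 + η)

/-- coefficient of `s` -/
def pa12 (ε r η t p : R) : R := -(2 * (1 + ε * (1 + η) ^ 2) ^ 2 * (p - (1 + η)) * t * (1 + η) * r)

/-- coefficient of `u` -/
def pa22 (A ε η p : R) : R :=
  (1 + ε * (1 + η) ^ 2) ^ 2 * ((1 + ε * (1 + η) ^ 2) ^ 2 + A * (p - (1 + η)) ^ 2) * (1 + η)

/-- first order part, in terms of `h = 1 + η`, `l = 1 + ε h²`, `v = p - h` -/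
def pb0 (A x h l v t p : R) : R :=
  l ^ 2 * ((h ^ 2 + t ^ 2) * (-(A * p ^ 2) - (2 * A - 4 * x) * h ^ 2) - (l ^ 2 + A * v ^ 2) * t ^ 2 +
      2 * v * t ^ 2 * A * p) +
    (l ^ 2 * (h ^ 2 + t ^ 2) + A * h ^ 2 * v ^ 2) * (l * (l - 2) - h * v) -
    (l - 2) * l * A * h ^ 2 * v ^ 2 + 2 * x * h * v * (2 * l ^ 2 * (h ^ 2 + t ^ 2) + A * h ^ 2 * v ^ 2)

/-- first order part -/
def pb (A x ε η t p : R) : R := pb0 A x (1 + η) (1 + ε * (1 + η) ^ 2) (p - (1 + η)) t p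

/-- the shrinker equation is `pE = 0` -/
def pE (A x ε r η t u p q s : R) : R :=
  pa11 ε η t * q + pa12 ε r η t p * s + pa22 A ε η p * u + pb A x ε η t p

/-- the natural boundary condition is `pB = 0`, with `l = Λ² - 1` -/
def pB (ε l η t p : R) : R :=
  (1 + η) ^ 2 * (1 + η - p) ^ 2 - (1 + l) * (1 + ε * (1 + η) ^ 2) ^ 2 * ((1 + η) ^ 2 + t ^ 2)

end

namespace Ex

/-- the nonlinear part in terms of `h = 1 + η`, `m = ε h²`, `l = 1 + m`, `G = h² + t²`,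
`y = p - h` -/
def mkN {n : ℕ} (η t u p q s A x r h m l G y : Ex n) : Ex n :=
  (m * (l + 1) * G * h + η * (h ^ 2 + h + 1) + t ^ 2 * h) * q - 2 * l ^ 2 * y * t * h * r * s +
    (m * (l + 1) * (l ^ 2 + 1) * h + η + l ^ 2 * A * y ^ 2 * h) * u +
    l ^ 2 * (G * (-(A * p ^ 2) - (2 * A - 4 * x) * h ^ 2) - (l ^ 2 + A * y ^ 2) * t ^ 2 +
      2 * y * t ^ 2 * A * p) + A * h ^ 2 * y ^ 2 * (l * (l - 2) - h * y) -
    (l - 2) * l * A * h ^ 2 * y ^ 2 + 2 * x * h * y * (2 * l ^ 2 * G + A * h ^ 2 * y ^ 2) +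
    (m * (l + 1) * G + η * (h + 1) + t ^ 2) * (2 * η - p) + l ^ 2 * G * (η ^ 2 - η * p + m ^ 2)

/-- the nonlinear part, variables `η, t, u, p, q, s, A, x, ε, r` -/
def exN : Ex 10 :=
  mkN (v 0) (v 1) (v 2) (v 3) (v 4) (v 5) (v 6) (v 7) (v 9) (1 + v 0) (v 8 * (1 + v 0) ^ 2)
    (1 + v 8 * (1 + v 0) ^ 2) ((1 + v 0) ^ 2 + v 1 ^ 2) (v 3 - (1 + v 0))

/-- `2 (p - η) + pB`, variables `η, t, p, ε, l` -/
def exD : Ex 5 :=
  let η : Ex 5 := v 0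
  let t : Ex 5 := v 1
  let p : Ex 5 := v 2
  let h := 1 + η
  let m := v 3 * h ^ 2
  let l := 1 + m
  let G := h ^ 2 + t ^ 2
  2 * η ^ 2 * (h + 1) + h ^ 2 * η ^ 2 - 2 * p * η * (h ^ 2 + h + 1) + h ^ 2 * p ^ 2 - t ^ 2 -
    m * (l + 1) * G - v 4 * l ^ 2 * G

/-- orders of smallness of the variables of `exN` -/
def gN : Fin 10 → ℕ := ![1, 1, 1, 1, 1, 1, 2, 2, 2, 0]

/-- orders of smallness of the variables of `exD` -/
def gD : Fin 5 → ℕ := ![1, 1, 1, 2, 2]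

theorem gr_exN : exN.gr gN = 2 := by decide
theorem gr_exD : exD.gr gD = 2 := by decide

theorem ev_exN {R : Type*} [CommRing R] (V : Fin 10 → R) :
    exN.ev V = pE (V 6) (V 7) (V 8) (V 9) (V 0) (V 1) (V 2) (V 3) (V 4) (V 5) -
      (V 4 - V 3 + V 2 + 2 * V 0) := by
  simp only [exN, mkN, ev_add, ev_sub, ev_mul, ev_neg, ev_pow, ev_v, ev_1, ev_2, ev_4, pE, pa11,
    pa12, pa22, pb, pb0]
  ring

theorem ev_exD {R : Type*} [CommRing R] (V : Fin 5 → R) :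
    exD.ev V = 2 * (V 2 - V 0) + pB (V 3) (V 4) (V 0) (V 1) (V 2) := by
  simp only [exD, ev_add, ev_sub, ev_mul, ev_pow, ev_v, ev_1, ev_2, pB]
  ring

end Ex

/-- `A = 1 / (2 w (1 - α w))` -/
noncomputable def Af (α : ℂ) (w : ℝ) : ℂ := (2 * w * (1 - α * w))⁻¹

/-- `x = 1 / (2 w)` -/
noncomputable def xf (w : ℝ) : ℂ := (2 * w : ℂ)⁻¹

/-- `ε = (1 - α w) / (8 w)` -/
noncomputable def ef (α : ℂ) (w : ℝ) : ℂ := (1 - α * w) / (8 * w)

/-- the derivative of `A` -/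
noncomputable def Af' (α : ℂ) (w : ℝ) : ℂ := 2 * Af α w ^ 2 - 4 * xf w * Af α w

/-- variables of `exN` -/
noncomputable def vN (a b : ℝ) (α : ℂ) (J : Fin 6 → WA) : Fin 10 → WA :=
  ![J 0, J 1, J 2, J 3, J 4, J 5, sc (mkB a b (Af α)), sc (mkB a b xf), sc (mkB a b (ef α)),
    sc (mkB a b fun w => Complex.sqrt (Af α w))]

/-- the nonlinear part of the equation -/
noncomputable def NN (a b : ℝ) (α : ℂ) (J : Fin 6 → WA) : WA := Ex.exN.ev (vN a b α J)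

/-- the shrinker operator -/
noncomputable def EE (a b : ℝ) (α : ℂ) (J : Fin 6 → WA) : WA := Lm (-2) J + NN a b α J

/-- the normalised area `mean (h² / (1 + ε h²))` enclosed by the boundary curve -/
noncomputable def amean (b : ℝ) (α : ℂ) (η : WA) : ℂ :=
  (2 * Real.pi : ℂ)⁻¹ *
    ∫ θ in (0 : ℝ)..2 * Real.pi, (1 + η.ev b θ) ^ 2 / (1 + ef α b * (1 + η.ev b θ) ^ 2)

/-- the function `Λ²` of the normalised area -/
noncomputable def L2 (A ε m : ℂ) : ℂ :=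
  (1 - 2 * ε * m) ^ 2 * (1 + A * (m * (1 - ε * m))⁻¹ / 2) ^ 2 * (m * (1 - ε * m))⁻¹ /
    (1 - (1 - 2 * ε * m) ^ 2 * (1 + A * (m * (1 - ε * m))⁻¹ / 2) ^ 2 * (A * (m * (1 - ε * m))⁻¹))

/-- variables of `exD` -/
noncomputable def vD (ε l : ℂ) (J : Fin 6 → WA) : Fin 5 → WA :=
  ![J 0, J 1, J 3, algebraMap ℂ WA ε, algebraMap ℂ WA l]

/-- their `θ`-derivatives, multiplied by `r` -/
noncomputable def zD (r : ℂ) (J : Fin 6 → WA) : Fin 5 → WA := ![r • J 1, r • J 2, J 5, 0, 0]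

/-- the boundary operator (only its value at `w = b` matters) -/
noncomputable def BB (b : ℝ) (α : ℂ) (J : Fin 6 → WA) : WA :=
  pB (algebraMap ℂ WA (ef α b))
    (algebraMap ℂ WA (L2 (Af α b) (ef α b) (amean b α (J 0)) - 1)) (J 0) (J 1) (J 3)

/-- solutions of the end problem on `[a, b]`: interior source `f`, Dirichlet data and pins `ξ`,
boundary inhomogeneity `γ` -/
structure Sol (a b : ℝ) (α : ℂ) (J : Fin 6 → WA) (f ξ γ : WA) : Prop where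
  jet : Jet a b (Af α) J
  eq : WEq (Icc a b) (EE a b α J) f
  dir : ∀ k : ℤ, (1 + (k : ℂ) ^ 2) * (J 0).co k (pt a b (-2) k) = ξ.co k (pt a b (-2) k)
  bc : WEq {b} (BB b α J) γ

theorem ev_sub (x y : WA) (w θ : ℝ) : (x - y).ev w θ = x.ev w θ - y.ev w θ := map_sub (evA w θ) x y

theorem ev_EE {a b : ℝ} {α : ℂ} (hA : ContinuousOn (Af α) (Icc a b))
    (hx : ContinuousOn xf (Icc a b)) (he : ContinuousOn (ef α) (Icc a b))
    (hr : ContinuousOn (fun w => Complex.sqrt (Af α w)) (Icc a b)) (J : Fin 6 → WA) {w : ℝ}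
    (hw : w ∈ Icc a b) (θ : ℝ) : (EE a b α J).ev w θ =
      pE (Af α w) (xf w) (ef α w) (Complex.sqrt (Af α w)) ((J 0).ev w θ) ((J 1).ev w θ)
        ((J 2).ev w θ) ((J 3).ev w θ) ((J 4).ev w θ) ((J 5).ev w θ) := by
  have h := Ex.map_ev (vN a b α J) (evA w θ) Ex.exN
  rw [Ex.ev_exN (fun i => evA w θ (vN a b α J i))] at h
  rw [EE, ev_add, NN, ← evA_apply w θ (Ex.ev _ _), h, Lm, ev_sub, ev_add, ev_sub, ev_smul]
  simp [vN, ev_sc, mkB_of_mem hA hw, mkB_of_mem hx hw, mkB_of_mem he hw, mkB_of_mem hr hw]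

theorem ev_BB (b : ℝ) (α : ℂ) (J : Fin 6 → WA) (w θ : ℝ) : (BB b α J).ev w θ =
    pB (ef α b) (L2 (Af α b) (ef α b) (amean b α (J 0)) - 1) ((J 0).ev w θ) ((J 1).ev w θ)
      ((J 3).ev w θ) := by
  rw [← evA_apply]
  simp only [BB, pB, map_sub, map_add, map_mul, map_pow, map_one, AlgHom.commutes, evA_apply,
    Algebra.algebraMap_self, RingHom.id_apply]

end Vale.Agent.P218EN
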