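import Vale.Agent.P218EN.Green
import Vale.Agent.P218EN.Poly

/-! Coefficients and weights on a cylindrical end. -/

namespace Vale.Agent.P218EN
open Set Complex WA Metric

/-- the elements are constant outside `[a, b]` -/
def Clamp (a b : ℝ) (J : Fin 6 → WA) : Prop := ∀ i, comp (cl a b) (J i) = J i

/-- the weight system `(σ, ω)` (sources: `(σ, d ω)`) can serve as base class for the profile `α` -/
structure Base (a b : ℝ) (α : ℂ) (ε : ℝ) (d σ ω : ℝ → ℝ) : Prop where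
  pos : 0 < a
  coef : Coef a b (Af α) (Af' α) ε
  sys : WSys (Icc a b) ε d σ ω σ ω
  hA : ∀ w ∈ Icc a b, ‖Af α w‖ ≤ ε * σ w
  hx : ∀ w ∈ Icc a b, ‖xf w‖ ≤ ε * σ w
  he : ∀ w ∈ Icc a b, ‖ef α w‖ ≤ ε * σ w
  he' : ‖ef α b‖ ≤ ω b

/-- `τ = |1 / w - α|` -/
noncomputable def tau (α : ℂ) (w : ℝ) : ℝ := ‖(w : ℂ)⁻¹ - α‖

/-- `μ = (Re (1 / A))^(-1/2)` -/
noncomputable def mu (α : ℂ) (w : ℝ) : ℝ := (√(2 * w * (1 - α * w).re))⁻¹

/-- standard weight of the modes `k ≠ 0` -/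
noncomputable def om (a0 : ℝ) (α : ℂ) (w : ℝ) : ℝ := (√a0)⁻¹ * (a0 * tau α w) ^ (7 / 8 : ℝ)

/-- standard weight of the mode `0` -/
noncomputable def sg (a0 : ℝ) (α : ℂ) (w : ℝ) : ℝ := dl (Af α) w * (om a0 α w + mu α w)

/-- standard small parameter -/
noncomputable def ep (a0 : ℝ) : ℝ := 10 / √a0

/-- admissible regime at one level -/
structure Pt (a0 : ℝ) (α : ℂ) (w : ℝ) : Prop where
  big : 10 ^ 30 ≤ a0
  le : a0 ≤ w
  re : ‖1 - α * w‖ ^ 2 / 8 + a0 / (8 * w) ≤ (1 - α * w).re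

/-- admissible regime -/
structure Rg (a0 a b : ℝ) (α : ℂ) : Prop where
  big : 10 ^ 30 ≤ a0
  le0 : a0 ≤ a
  le : a ≤ b
  re : ∀ w ∈ Icc a b, ‖1 - α * w‖ ^ 2 / 8 + a0 / (8 * w) ≤ (1 - α * w).re

theorem hasDerivAt_Af {α : ℂ} {w : ℝ} (hw : w ≠ 0) (hv : 1 - α * w ≠ 0) :
    HasDerivAt (Af α) (Af' α w) w := by
  have hw' : (w : ℂ) ≠ 0 := ofReal_ne_zero.2 hw
  have h0 : HasDerivAt (fun u : ℝ => (u : ℂ)) 1 w := ofRealCLM.hasDerivAt
  have h1 := ((h0.const_mul 2).mul ((h0.const_mul α).const_sub 1)).fun_inv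
    (mul_ne_zero (mul_ne_zero two_ne_zero hw') hv)
  refine h1.congr_deriv ?_
  simp only [Af', Af, xf, Pi.mul_apply]
  field_simp
  ring

theorem ep_pos {a0 : ℝ} (h : 0 < a0) : 0 < ep a0 := div_pos (by norm_num) (Real.sqrt_pos.2 h)

namespace Pt
variable {a0 w : ℝ} {α : ℂ}

theorem a0_pos (h : Pt a0 α w) : 0 < a0 := lt_of_lt_of_le (by norm_num) h.big
theorem w_pos (h : Pt a0 α w) : 0 < w := h.a0_pos.trans_le h.le
theorem re_pos (h : Pt a0 α w) : 0 < (1 - α * w).re :=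
  lt_of_lt_of_le (by have := h.a0_pos; have := h.w_pos; positivity) h.re
theorem ne (h : Pt a0 α w) : 1 - α * w ≠ 0 := fun e => by simpa [e] using h.re_pos
theorem n_pos (h : Pt a0 α w) : 0 < ‖1 - α * w‖ := norm_pos_iff.2 h.ne
theorem re_ge (h : Pt a0 α w) : a0 ≤ 8 * w * (1 - α * w).re := by
  have h1 : a0 / (8 * w) ≤ (1 - α * w).re := le_trans (le_add_of_nonneg_left (by positivity)) h.re
  rwa [div_le_iff₀' (by have := h.w_pos; positivity)] at h1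
theorem sq_le (h : Pt a0 α w) : ‖1 - α * w‖ ^ 2 ≤ 8 * (1 - α * w).re := by
  have : 0 ≤ a0 / (8 * w) := by have := h.a0_pos; have := h.w_pos; positivity
  linarith [h.re]
theorem n_le (h : Pt a0 α w) : ‖1 - α * w‖ ≤ 8 := by
  nlinarith [h.sq_le, re_le_norm (1 - α * w), h.n_pos]
theorem s_ge (h : Pt a0 α w) : 10 ^ 15 ≤ √a0 :=
  Real.le_sqrt_of_sq_le (le_trans (by norm_num) h.big)
theorem s_pos (h : Pt a0 α w) : 0 < √a0 := Real.sqrt_pos.2 h.a0_pos

theorem norm_Af (h : Pt a0 α w) : ‖Af α w‖ = (2 * w * ‖1 - α * w‖)⁻¹ := by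
  simp [Af, abs_of_pos h.w_pos]

theorem re_Af (h : Pt a0 α w) : (Af α w).re = (1 - α * w).re / (2 * w * ‖1 - α * w‖ ^ 2) := by
  have e : (2 * w * (1 - α * w) : ℂ) = ((2 * w : ℝ) : ℂ) * (1 - α * w) := by push_cast; ring
  have := h.w_pos
  have := h.n_pos
  rw [Af, inv_re, normSq_eq_norm_sq, e, re_ofReal_mul, norm_mul, norm_real,
    Real.norm_of_nonneg (by positivity)]
  field_simp

theorem dl_eq (h : Pt a0 α w) : dl (Af α) w = (1 - α * w).re / ‖1 - α * w‖ := by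
  have := h.w_pos
  have := h.n_pos
  rw [dl, h.re_Af, h.norm_Af]; field_simp

theorem dl_pos (h : Pt a0 α w) : 0 < dl (Af α) w := h.dl_eq ▸ div_pos h.re_pos h.n_pos
theorem dl_le (h : Pt a0 α w) : dl (Af α) w ≤ 1 :=
  h.dl_eq ▸ (div_le_one h.n_pos).2 (re_le_norm _)

theorem tau_eq (h : Pt a0 α w) : tau α w = ‖1 - α * w‖ / w := by
  have hw : (w : ℂ) ≠ 0 := ofReal_ne_zero.2 h.w_pos.ne'
  have e : (w : ℂ)⁻¹ - α = (1 - α * w) / w := by field_simp
  rw [tau, e, norm_div, norm_real, Real.norm_of_nonneg h.w_pos.le]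

theorem tau_pos (h : Pt a0 α w) : 0 < tau α w := h.tau_eq ▸ div_pos h.n_pos h.w_pos

theorem mu_pos (h : Pt a0 α w) : 0 < mu α w :=
  inv_pos.2 (Real.sqrt_pos.2 (by have := h.w_pos; have := h.re_pos; positivity))

theorem mu_sq (h : Pt a0 α w) : mu α w ^ 2 = (2 * w * (1 - α * w).re)⁻¹ := by
  rw [mu, inv_pow, Real.sq_sqrt (by have := h.w_pos; have := h.re_pos; positivity)]

theorem mu_le (h : Pt a0 α w) : mu α w ≤ 2 / √a0 := by
  have := h.a0_pos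
  have := h.w_pos
  have := h.re_pos
  refine le_of_sq_le_sq ?_ (by positivity)
  rw [h.mu_sq, div_pow, Real.sq_sqrt h.a0_pos.le, inv_eq_one_div,
    div_le_div_iff₀ (by positivity) h.a0_pos]
  linarith [h.re_ge]

theorem mu_small (h : Pt a0 α w) : mu α w ≤ 1 / 1000 :=
  h.mu_le.trans (by rw [div_le_iff₀ h.s_pos]; linarith [h.s_ge])

theorem norm_Af' (h : Pt a0 α w) : ‖Af α w‖ = dl (Af α) w * mu α w ^ 2 := by
  have := h.w_pos
  have := h.n_pos
  have := h.re_pos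
  rw [h.norm_Af, h.dl_eq, h.mu_sq]; field_simp

theorem re_Af' (h : Pt a0 α w) : (Af α w).re = dl (Af α) w ^ 2 * mu α w ^ 2 := by
  have := h.w_pos
  have := h.n_pos
  have := h.re_pos
  rw [h.re_Af, h.dl_eq, h.mu_sq]; field_simp

theorem re_Af_pos (h : Pt a0 α w) : 0 < (Af α w).re := by
  have := h.dl_pos
  have := h.mu_pos
  rw [h.re_Af']; positivity

theorem om_pos (h : Pt a0 α w) : 0 < om a0 α w :=
  mul_pos (inv_pos.2 h.s_pos) (Real.rpow_pos_of_pos (mul_pos h.a0_pos h.tau_pos) _)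

theorem pow_rpow {z : ℝ} (hz : 0 ≤ z) (n : ℕ) : (z ^ (7 / 8 : ℝ)) ^ (8 * n) = z ^ (7 * n) := by
  rw [← Real.rpow_natCast, ← Real.rpow_mul hz, ← Real.rpow_natCast]
  congr 1; push_cast; ring

theorem om_le (h : Pt a0 α w) : om a0 α w ≤ 8 / √a0 * dl (Af α) w := by
  have hw := h.w_pos
  have hr := h.n_pos
  have ha := h.a0_pos
  have hd := h.dl_pos
  have e : 8 * dl (Af α) w * ‖1 - α * w‖ = 8 * (1 - α * w).re := by rw [h.dl_eq]; field_simp
  have h1 : ‖1 - α * w‖ ≤ 8 * dl (Af α) w := le_of_mul_le_mul_right (by nlinarith [h.sq_le]) hr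
  have h2 : a0 / w ≤ 8 * dl (Af α) w * ‖1 - α * w‖ := by
    rw [e, div_le_iff₀ hw]; linarith [h.re_ge]
  have h3 : a0 / w ≤ 1 := (div_le_one hw).2 h.le
  have key : (a0 * tau α w) ^ (7 / 8 : ℝ) ≤ 8 * dl (Af α) w := by
    refine le_of_pow_le_pow_left₀ (n := 8 * 2) (by norm_num) (by positivity) ?_
    rw [pow_rpow (mul_pos ha h.tau_pos).le, h.tau_eq]
    calc (a0 * (‖1 - α * w‖ / w)) ^ (7 * 2) = (a0 / w) ^ 13 * (a0 / w) * ‖1 - α * w‖ ^ 14 := by ring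
      _ ≤ 1 * (8 * dl (Af α) w * ‖1 - α * w‖) * ‖1 - α * w‖ ^ 14 := by
        gcongr; exact pow_le_one₀ (by positivity) h3
      _ = 8 * dl (Af α) w * ‖1 - α * w‖ ^ 15 := by ring
      _ ≤ 8 * dl (Af α) w * (8 * dl (Af α) w) ^ 15 := by gcongr
      _ = _ := by ring
  calc om a0 α w ≤ (√a0)⁻¹ * (8 * dl (Af α) w) := by unfold om; gcongr
    _ = _ := by ring

theorem om_le' (h : Pt a0 α w) : om a0 α w ≤ ep a0 * dl (Af α) w :=
  h.om_le.trans (by have := h.dl_pos; unfold ep; gcongr; norm_num)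

theorem om_add_le (h : Pt a0 α w) : om a0 α w + mu α w ≤ ep a0 := by
  have h1 := h.om_le.trans (mul_le_of_le_one_right (by positivity) h.dl_le)
  have e : ep a0 = 8 / √a0 + 2 / √a0 := by unfold ep; ring
  linarith [h.mu_le]

theorem sg_pos (h : Pt a0 α w) : 0 < sg a0 α w := mul_pos h.dl_pos (add_pos h.om_pos h.mu_pos)

theorem sg_ge (h : Pt a0 α w) : dl (Af α) w * mu α w ≤ sg a0 α w :=
  mul_le_mul_of_nonneg_left (le_add_of_nonneg_left h.om_pos.le) h.dl_pos.le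

theorem inv_le (h : Pt a0 α w) : w⁻¹ ≤ ep a0 * (dl (Af α) w * mu α w) := by
  have hw := h.w_pos
  have hr := h.n_pos
  have ha := h.a0_pos
  have := h.re_pos
  refine le_of_sq_le_sq ?_ (mul_pos (ep_pos ha) (mul_pos h.dl_pos h.mu_pos)).le
  have e : (ep a0 * (dl (Af α) w * mu α w)) ^ 2 =
      50 * (1 - α * w).re / (a0 * w * ‖1 - α * w‖ ^ 2) := by
    rw [mul_pow, mul_pow, h.mu_sq, h.dl_eq, ep, div_pow, Real.sq_sqrt ha.le]
    field_simp; ring
  rw [e, inv_pow, inv_eq_one_div, div_le_div_iff₀ (by positivity) (by positivity)]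
  nlinarith [mul_le_mul h.le h.sq_le (by positivity) hw.le, mul_pos hw (mul_pos hw this)]

theorem norm_xf (h : Pt a0 α w) : ‖xf w‖ = w⁻¹ / 2 := by
  simp [xf, abs_of_pos h.w_pos, div_eq_mul_inv]

theorem norm_ef (h : Pt a0 α w) : ‖ef α w‖ = tau α w / 8 := by
  rw [ef, h.tau_eq, norm_div, norm_mul, norm_real, Real.norm_of_nonneg h.w_pos.le, norm_ofNat]
  ring

theorem tau_le (h : Pt a0 α w) : tau α w ≤ 8 * w⁻¹ := by
  have := h.w_pos
  rw [h.tau_eq, div_eq_mul_inv]; gcongr; exact h.n_le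

theorem ef_le_om (h : Pt a0 α w) : ‖ef α w‖ ≤ om a0 α w := by
  have ha := h.a0_pos
  have hz := mul_pos ha h.tau_pos
  have z8 : a0 * tau α w ≤ 8 := by
    have := mul_le_mul h.le h.tau_le h.tau_pos.le h.w_pos.le
    rwa [mul_left_comm, mul_inv_cancel₀ h.w_pos.ne', mul_one] at this
  have key : a0 * tau α w ≤ 8 * (a0 * tau α w) ^ (7 / 8 : ℝ) := by
    refine le_of_pow_le_pow_left₀ (n := 8 * 1) (by norm_num) (by positivity) ?_
    rw [mul_pow 8, pow_rpow hz.le]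
    rw [mul_one, mul_one, pow_succ' (a0 * tau α w) 7]
    gcongr
    linarith
  have h1 : √a0 ≤ a0 := by nlinarith [Real.sq_sqrt ha.le, h.s_ge]
  rw [h.norm_ef, om, le_inv_mul_iff₀ h.s_pos]
  nlinarith [mul_le_mul_of_nonneg_right h1 h.tau_pos.le]

theorem hasDerivAt_mu (h : Pt a0 α w) :
    HasDerivAt (mu α) ((1 - 2 * (1 - α * w).re) * mu α w ^ 2 * mu α w) w := by
  have hq : 0 < 2 * w * (1 - α * w).re := by have := h.w_pos; have := h.re_pos; positivity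
  have e : ∀ u : ℝ, (1 - α * u).re = 1 - α.re * u := fun u => by simp
  have h1 := ((hasDerivAt_id' w).const_mul 2).fun_mul
    (((hasDerivAt_id' w).const_mul α.re).const_sub 1)
  simp only [← e] at h1
  refine ((h1.sqrt hq.ne').fun_inv (Real.sqrt_pos.2 hq).ne').congr_deriv ?_
  have := Real.sqrt_pos.2 hq
  simp only [mu]
  field_simp
  rw [e]; ring

end Pt

namespace Rg
variable {a0 a b : ℝ} {α : ℂ}

theorem pt (h : Rg a0 a b α) {w : ℝ} (hw : w ∈ Icc a b) : Pt a0 α w :=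
  ⟨h.big, h.le0.trans hw.1, h.re w hw⟩

theorem mono (h : Rg a0 a b α) {a' b' : ℝ} (hab : a' ≤ b') (hs : Icc a' b' ⊆ Icc a b) :
    Rg a0 a' b' α :=
  ⟨h.big, h.le0.trans (hs (left_mem_Icc.2 hab)).1, hab, fun w hw => h.re w (hs hw)⟩

theorem of_disc {W K : ℝ} (h0 : 10 ^ 30 ≤ a0) (ha : a0 ≤ a) (hab : a ≤ b) (hb : b ≤ W)
    (hK : a0 ≤ K) (h : ‖1 - α * W - 4‖ ≤ 4 - K / W) : Rg a0 a b α := by
  refine ⟨h0, ha, hab, fun w hw => ?_⟩
  have a0p : 0 < a0 := lt_of_lt_of_le (by norm_num) h0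
  have hw1 := ha.trans hw.1
  have w0 := a0p.trans_le hw1
  have W0 := w0.trans_le (hw.2.trans hb)
  have hW : (W : ℂ) ≠ 0 := ofReal_ne_zero.2 W0.ne'
  have e : (1 - α * w - 4 : ℂ) =
      ((w / W : ℝ) : ℂ) * (1 - α * W - 4) + ((1 - w / W : ℝ) : ℂ) * (-3) := by
    push_cast; field_simp; ring
  have t0 : 0 < w / W := by positivity
  have t1 : w / W ≤ 1 := (div_le_one W0).2 (hw.2.trans hb)
  have h1 : ‖1 - α * w - 4‖ ≤ 4 - a0 / (4 * w) := by
    rw [e]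
    refine (norm_add_le _ _).trans ?_
    rw [norm_mul, norm_mul, norm_real, norm_real, Real.norm_of_nonneg t0.le,
      Real.norm_of_nonneg (by linarith), norm_neg, norm_ofNat]
    have h2 : a0 / (4 * w) ≤ 1 - w / W + w / W * (K / W) := by
      have e2 : w / W * (K / W) = (w / W) ^ 2 * K / w := by field_simp
      rw [e2, div_le_iff₀ (by positivity)]
      have e3 : (1 - w / W + (w / W) ^ 2 * K / w) * (4 * w) =
          4 * ((1 - w / W) * w + (w / W) ^ 2 * K) := by field_simp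
      rw [e3]
      nlinarith [mul_le_mul_of_nonneg_left hw1 (sub_nonneg.2 t1),
        mul_le_mul_of_nonneg_left hK (sq_nonneg (w / W)), mul_nonneg a0p.le (sq_nonneg (w / W - 1 / 2))]
    nlinarith [mul_le_mul_of_nonneg_left h t0.le]
  set v := 1 - α * w
  have h3 : ‖v - 4‖ ^ 2 ≤ (4 - a0 / (4 * w)) ^ 2 := by gcongr
  have h4 : ‖v - 4‖ ^ 2 = ‖v‖ ^ 2 - 8 * v.re + 16 := by
    rw [norm_sq_parts, norm_sq_parts]; simp; ring
  have h5 : a0 / (4 * w) ≤ 1 := by rw [div_le_one (by positivity)]; linarith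
  have h6 : 0 < a0 / (4 * w) := by positivity
  have h7 : a0 / (8 * w) = a0 / (4 * w) / 2 := by ring
  rw [h7]
  nlinarith

theorem ep_small (h : Rg a0 a b α) : 10000000 * 3000000 * ep a0 ≤ 1 := by
  have p := h.pt (left_mem_Icc.2 h.le)
  rw [ep, ← mul_div_assoc, div_le_one p.s_pos]
  linarith [p.s_ge]

theorem ep_pos (h : Rg a0 a b α) : 0 < ep a0 :=
  P218EN.ep_pos (h.pt (left_mem_Icc.2 h.le)).a0_pos

theorem coef (h : Rg a0 a b α) : Coef a b (Af α) (Af' α) (ep a0) := by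
  have hd : ∀ w ∈ Icc a b, HasDerivAt (Af α) (Af' α w) w := fun w hw =>
    hasDerivAt_Af (h.pt hw).w_pos.ne' (h.pt hw).ne
  have cA : ContinuousOn (Af α) (Icc a b) := fun w hw => (hd w hw).continuousAt.continuousWithinAt
  have cx : ContinuousOn xf (Icc a b) := ContinuousOn.inv₀ (by fun_prop) fun w hw =>
    mul_ne_zero two_ne_zero (ofReal_ne_zero.2 (h.pt hw).w_pos.ne')
  have m : ∀ w ∈ Icc a b, 4 * mu α w ^ 2 ≤ ep a0 := fun w hw => by
    have p := h.pt hw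
    nlinarith [p.om_add_le, p.om_pos, p.mu_small, p.mu_pos]
  refine ⟨h.le, by linarith [h.ep_small], fun w hw => (hd w hw).hasDerivWithinAt,
    (continuousOn_const.mul (cA.pow 2)).sub ((continuousOn_const.mul cx).mul cA),
    fun w hw => (h.pt hw).re_Af_pos, fun w hw => ?_, fun w hw => ?_⟩
  · have p := h.pt hw
    rw [p.norm_Af', p.re_Af']
    nlinarith [mul_le_mul_of_nonneg_right (m w hw) (sq_nonneg (dl (Af α) w * mu α w)),
      sq_nonneg (dl (Af α) w * mu α w ^ 2)]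
  · have p := h.pt hw
    refine (norm_sub_le _ _).trans ?_
    simp only [norm_mul, norm_pow, norm_ofNat, p.norm_xf]
    rw [p.norm_Af', p.re_Af']
    have h1 : 4 * w⁻¹ ≤ ep a0 * dl (Af α) w := by
      nlinarith [p.inv_le, mul_pos h.ep_pos p.dl_pos, p.mu_small]
    nlinarith [mul_le_mul_of_nonneg_right (m w hw) (sq_nonneg (dl (Af α) w * mu α w)),
      mul_le_mul_of_nonneg_right h1 (mul_pos p.dl_pos (pow_pos p.mu_pos 2)).le]

theorem wsys' (h : Rg a0 a b α) {G : ℝ → ℝ} (hG : ∀ w ∈ Icc a b, 0 ≤ G w) :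
    WSys (Icc a b) (ep a0) (dl (Af α)) (sg a0 α) (om a0 α) (fun w => dl (Af α) w * G w) G :=
  ⟨h.ep_pos.le, by linarith [h.ep_small], fun _ hw => (h.pt hw).dl_pos.le,
    fun _ hw => (h.pt hw).dl_le, fun _ hw => (h.pt hw).sg_pos.le, fun _ hw => (h.pt hw).om_pos.le,
    fun w hw => mul_nonneg (h.pt hw).dl_pos.le (hG w hw), hG,
    fun w hw => by rw [mul_comm, sg]; gcongr; exacts [(h.pt hw).dl_pos.le, (h.pt hw).om_add_le],
    fun _ hw => (h.pt hw).om_le',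
    fun w hw => by nlinarith [mul_le_mul_of_nonneg_right (h.pt hw).om_le' (hG w hw)],
    fun w hw => by
      have p := h.pt hw
      nlinarith [mul_le_mul_of_nonneg_right (p.om_add_le) (mul_nonneg p.dl_pos.le (hG w hw)),
        mul_nonneg p.mu_pos.le (mul_nonneg p.dl_pos.le (hG w hw))]⟩

theorem base (h : Rg a0 a b α) : Base a b α (ep a0) (dl (Af α)) (sg a0 α) (om a0 α) := by
  have S := h.wsys' (G := om a0 α) fun _ hw => (h.pt hw).om_pos.le
  have i : ∀ w ∈ Icc a b, w⁻¹ ≤ ep a0 * sg a0 α w := fun w hw =>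
    (h.pt hw).inv_le.trans (mul_le_mul_of_nonneg_left (h.pt hw).sg_ge h.ep_pos.le)
  refine ⟨(h.pt (left_mem_Icc.2 h.le)).w_pos, h.coef, ⟨S.e0, S.e1, S.d0, S.d1, S.s0, S.o0, S.s0,
    S.o0, S.sd, S.od, fun w hw => (S.oo w hw).trans ?_, fun w hw => ?_⟩, fun w hw => ?_,
    fun w hw => ?_, fun w hw => ?_, (h.pt (right_mem_Icc.2 h.le)).ef_le_om⟩
  · have p := h.pt hw
    exact mul_le_mul_of_nonneg_left (mul_le_mul_of_nonneg_left
      (le_add_of_nonneg_right p.mu_pos.le) p.dl_pos.le) S.e0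
  · nlinarith [mul_le_mul_of_nonneg_left (S.sd w hw) (S.o0 w hw)]
  · have p := h.pt hw
    rw [p.norm_Af']
    nlinarith [mul_le_mul p.om_add_le p.sg_ge (mul_pos p.dl_pos p.mu_pos).le S.e0,
      mul_pos p.om_pos (mul_pos p.dl_pos p.mu_pos)]
  · have p := h.pt hw
    linarith [p.norm_xf, i w hw, inv_pos.2 p.w_pos]
  · have p := h.pt hw
    linarith [p.norm_ef, i w hw, p.tau_le]

theorem hasDeriv_tau (h : Rg a0 a b α) {w : ℝ} (hw : w ∈ Icc a b) :
    HasDerivWithinAt (tau α) (-2 * (Af α w).re * tau α w) (Icc a b) w := by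
  have p := h.pt hw
  have hw' : (w : ℂ) ≠ 0 := ofReal_ne_zero.2 p.w_pos.ne'
  have h0 : HasDerivAt (fun u : ℝ => (u : ℂ)) 1 w := ofRealCLM.hasDerivAt
  have e : (w : ℂ)⁻¹ - α = (1 - α * w) * ((w⁻¹ : ℝ) : ℂ) := by push_cast; field_simp
  have h1 := ((h0.fun_inv hw').sub_const α).clog_real
    (Or.inl (by rw [e, re_mul_ofReal]; exact mul_pos p.re_pos (inv_pos.2 p.w_pos)))
  have h2 := (reCLM.hasFDerivAt.comp_hasDerivAt w h1).exp
  have e2 : ∀ u ∈ Icc a b, tau α u = Real.exp (Complex.log ((u : ℂ)⁻¹ - α)).re := fun u hu => by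
    rw [log_re]; exact (Real.exp_log (h.pt hu).tau_pos).symm
  refine (h2.hasDerivWithinAt.congr e2 (e2 w hw)).congr_deriv ?_
  have e3 : -1 / (w : ℂ) ^ 2 / ((w : ℂ)⁻¹ - α) = ((-2 : ℝ) : ℂ) * Af α w := by
    have := p.ne
    rw [e, Af]; push_cast; field_simp
  simp only [Function.comp_apply, reCLM_apply, e3, re_ofReal_mul, ← e2 w hw]
  ring

theorem hasDeriv_dl (h : Rg a0 a b α) {w : ℝ} (hw : w ∈ Icc a b) : HasDerivWithinAt (dl (Af α))
    ((2 * (Af α w).re - 2 * mu α w ^ 2) * dl (Af α) w) (Icc a b) w := by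
  have p := h.pt hw
  have e : ∀ u ∈ Icc a b, dl (Af α) u = (u⁻¹ - α.re) / tau α u := fun u hu => by
    have q := h.pt hu
    have := q.w_pos
    rw [q.dl_eq, q.tau_eq]
    simp only [sub_re, one_re, re_mul_ofReal]
    field_simp
  have h1 := (((hasDerivAt_inv p.w_pos.ne').sub_const α.re).hasDerivWithinAt.fun_div
    (h.hasDeriv_tau hw) p.tau_pos.ne').congr e (e w hw)
  refine h1.congr_deriv ?_
  have e2 : (w ^ 2)⁻¹ = 2 * mu α w ^ 2 * dl (Af α) w * tau α w := by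
    have := p.w_pos
    have := p.n_pos
    have := p.re_pos
    rw [p.mu_sq, p.dl_eq, p.tau_eq]; field_simp
  have := p.tau_pos
  rw [e2, (div_eq_iff this.ne').1 (e w hw).symm]
  field_simp
  ring

theorem admO_tau (h : Rg a0 a b α) {c g : ℝ} (hc : 0 < c) (h1 : -7 / 16 ≤ g) (h2 : g ≤ 7 / 8) :
    AdmO a b (Af α) (fun w => c * tau α w ^ g)
      fun w => -2 * g * (Af α w).re * (c * tau α w ^ g) := by
  have hp : ∀ w ∈ Icc a b, 0 < c * tau α w ^ g := fun w hw =>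
    mul_pos hc (Real.rpow_pos_of_pos (h.pt hw).tau_pos _)
  refine ⟨hp, fun w hw => ?_, fun w hw => ?_, fun w hw => ?_⟩
  · have t0 := (h.pt hw).tau_pos
    refine (((h.hasDeriv_tau hw).rpow_const (Or.inl t0.ne')).const_mul c).congr_deriv ?_
    rw [Real.rpow_sub_one t0.ne']
    field_simp
  · nlinarith [mul_pos (h.pt hw).re_Af_pos (hp w hw)]
  · nlinarith [mul_pos (h.pt hw).re_Af_pos (hp w hw)]

theorem admO_om (h : Rg a0 a b α) :
    AdmO a b (Af α) (om a0 α) fun w => -2 * (7 / 8) * (Af α w).re * om a0 α w := by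
  have p := h.pt (left_mem_Icc.2 h.le)
  have e : om a0 α = fun w => (√a0)⁻¹ * a0 ^ (7 / 8 : ℝ) * tau α w ^ (7 / 8 : ℝ) :=
    funext fun w => by rw [om, Real.mul_rpow (y := tau α w) p.a0_pos.le (norm_nonneg _), mul_assoc]
  rw [e]
  exact h.admO_tau (mul_pos (inv_pos.2 p.s_pos) (Real.rpow_pos_of_pos p.a0_pos _))
    (by norm_num) le_rfl

theorem admS (h : Rg a0 a b α) {ψ ψ' : ℝ → ℝ} (hp : ∀ w ∈ Icc a b, 0 < ψ w)
    (hd : ∀ w ∈ Icc a b, HasDerivWithinAt ψ (ψ' w) (Icc a b) w)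
    (hu : ∀ w ∈ Icc a b, ψ' w ≤ mu α w ^ 2 * ψ w) :
    ∃ σ', AdmS a b (Af α) (fun w => dl (Af α) w * ψ w) σ' := by
  refine ⟨_, fun w hw => mul_pos (h.pt hw).dl_pos (hp w hw),
    fun w hw => (h.hasDeriv_dl hw).fun_mul (hd w hw), fun w hw => ?_⟩
  have p := h.pt hw
  rw [p.norm_Af']
  nlinarith [mul_le_mul_of_nonneg_left (hu w hw) p.dl_pos.le,
    mul_le_mul_of_nonneg_right p.dl_le
      (mul_pos (pow_pos p.mu_pos 2) (mul_pos p.dl_pos (hp w hw))).le]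

theorem re_le_mu (h : Rg a0 a b α) {w : ℝ} (hw : w ∈ Icc a b) : (Af α w).re ≤ mu α w ^ 2 := by
  have p := h.pt hw
  rw [p.re_Af']
  exact mul_le_of_le_one_left (sq_nonneg _) (pow_le_one₀ p.dl_pos.le p.dl_le)

theorem wts (h : Rg a0 a b α) : Wts a b (-2) (Af α) (sg a0 α) (om a0 α) := by
  refine ⟨⟨_, h.admO_om⟩, Or.inl ⟨rfl, h.admS (fun w hw => add_pos (h.pt hw).om_pos (h.pt hw).mu_pos)
    (fun w hw => (h.admO_om.hd w hw).fun_add (h.pt hw).hasDerivAt_mu.hasDerivWithinAt)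
    fun w hw => ?_⟩⟩
  have p := h.pt hw
  nlinarith [mul_pos p.re_Af_pos p.om_pos, mul_pos (pow_pos p.mu_pos 2) p.om_pos,
    mul_pos p.re_pos (mul_pos (pow_pos p.mu_pos 2) p.mu_pos)]

theorem wts' (h : Rg a0 a b α) {G G' : ℝ → ℝ} (O : AdmO a b (Af α) G G') :
    Wts a b (-2) (Af α) (fun w => dl (Af α) w * G w) G := by
  refine ⟨⟨_, O⟩, Or.inl ⟨rfl, h.admS O.pos O.hd fun w hw => (O.up w hw).trans ?_⟩⟩
  nlinarith [mul_le_mul_of_nonneg_right (h.re_le_mu hw) (O.pos w hw).le,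
    mul_pos (h.pt hw).re_Af_pos (O.pos w hw)]

theorem gb (h : Rg a0 a b α) : GB a b (-2) (Af α) (P218EN.pt a b (-2))
    (fun k => wt (sg a0 α) (om a0 α) k (P218EN.pt a b (-2) k)) (dl (Af α)) (sg a0 α) (om a0 α)
    3000000 := h.coef.gb h.wts

end Rg

theorem pt_zero (a b : ℝ) : pt a b (-2) 0 = b := if_neg (by norm_num [kp])

end Vale.Agent.P218EN
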