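import Vale.Agent.P218EN.Stab

/-! Coefficients of a quadratic expansion inherit closed linear properties. -/

namespace Vale.Agent.P218EN
open Set Complex WA Metric Filter Topology

section
variable {X X' : Type*} [NormedAddCommGroup X] [NormedSpace ℂ X] [NormedAddCommGroup X']
  [NormedSpace ℂ X']

/-- `F W = Y 0 + G Y 1 + G² Y 2 + o (W⁻²)` with `W G W → τ` -/
structure Lim3 (G : ℝ → ℝ) (τ : ℝ) (F : ℝ → X) (Y : Fin 3 → X) : Prop where
  hG : Tendsto (fun W => W * G W) atTop (𝓝 τ)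
  he : Tendsto (fun W : ℝ => (W : ℂ) ^ 2 • (F W - (Y 0 + (G W : ℂ) • Y 1 + (G W : ℂ) ^ 2 • Y 2)))
    atTop (𝓝 0)

/-- closed real subspaces -/
structure RSub (R : Set X) : Prop where
  cl : IsClosed R
  sub : ∀ x ∈ R, ∀ y ∈ R, x - y ∈ R
  smul : ∀ t : ℝ, ∀ x ∈ R, (t : ℂ) • x ∈ R

theorem tendsto_inv_C : Tendsto (fun W : ℝ => (W : ℂ)⁻¹) atTop (𝓝 0) := by
  simpa [Function.comp_def] using (continuous_ofReal.tendsto 0).comp tendsto_inv_atTop_zero

theorem tendsto_of_smul {f : ℝ → X} {y : X} (h : Tendsto (fun W : ℝ => (W : ℂ) • f W) atTop (𝓝 y)) :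
    Tendsto f atTop (𝓝 0) := by
  have := tendsto_inv_C.smul h
  rw [zero_smul] at this
  refine this.congr' ((eventually_gt_atTop 0).mono fun W hW => ?_)
  simp only [smul_smul, inv_mul_cancel₀ (ofReal_ne_zero.2 hW.ne'), one_smul]

namespace Lim3
variable {G : ℝ → ℝ} {τ : ℝ} {F F' : ℝ → X} {Y Y' : Fin 3 → X}

theorem hG' (h : Lim3 G τ F Y) : Tendsto (fun W : ℝ => (W : ℂ) * G W) atTop (𝓝 τ) := by
  simpa [Function.comp_def] using (continuous_ofReal.tendsto τ).comp h.hG

theorem t2 (h : Lim3 G τ F Y) : Tendsto (fun W : ℝ => (W : ℂ) • (W : ℂ) •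
    (F W - Y 0 - (G W : ℂ) • Y 1)) atTop (𝓝 ((τ : ℂ) ^ 2 • Y 2)) := by
  have := h.he.add ((h.hG'.pow 2).smul_const (Y 2))
  rw [zero_add] at this
  exact this.congr fun W => by module

theorem t1 (h : Lim3 G τ F Y) :
    Tendsto (fun W : ℝ => (W : ℂ) • (F W - Y 0)) atTop (𝓝 ((τ : ℂ) • Y 1)) := by
  have := (tendsto_of_smul h.t2).add (h.hG'.smul_const (Y 1))
  rw [zero_add] at this
  exact this.congr fun W => by module

theorem t0 (h : Lim3 G τ F Y) : Tendsto F atTop (𝓝 (Y 0)) :=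
  tendsto_sub_nhds_zero_iff.1 (tendsto_of_smul h.t1)

theorem map (h : Lim3 G τ F Y) (T : X →L[ℂ] X') : Lim3 G τ (fun W => T (F W)) fun n => T (Y n) :=
  ⟨h.hG, by simpa [Function.comp_def] using (T.continuous.tendsto 0).comp h.he⟩

theorem sub (h : Lim3 G τ F Y) (h' : Lim3 G τ F' Y') :
    Lim3 G τ (fun W => F W - F' W) fun n => Y n - Y' n :=
  ⟨h.hG, by
    have := h.he.sub h'.he
    rw [sub_zero] at this
    exact this.congr fun W => by module⟩

theorem mem (h : Lim3 G τ F Y) (hτ : τ ≠ 0) {R : Set X} (hR : RSub R) {y : X}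
    (hF : ∀ᶠ W in atTop, F W - y ∈ R) : Y 0 - y ∈ R ∧ Y 1 ∈ R ∧ Y 2 ∈ R := by
  have τ0 : (τ : ℂ) ≠ 0 := ofReal_ne_zero.2 hτ
  have h0 : Y 0 - y ∈ R := hR.cl.mem_of_tendsto (h.t0.sub_const y) hF
  have e : ∀ᶠ W in atTop, F W - Y 0 ∈ R := hF.mono fun W hW => by
    simpa using hR.sub _ hW _ h0
  have h1 : Y 1 ∈ R := by
    have := hR.smul τ⁻¹ _ (hR.cl.mem_of_tendsto h.t1 (e.mono fun W hW => hR.smul W _ hW))
    rwa [smul_smul, ofReal_inv, inv_mul_cancel₀ τ0, one_smul] at this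
  have := hR.smul (τ ^ 2)⁻¹ _ (hR.cl.mem_of_tendsto h.t2
    (e.mono fun W hW => hR.smul W _ (hR.smul W _ (hR.sub _ hW _ (hR.smul _ _ h1)))))
  rw [smul_smul, ofReal_inv, ofReal_pow, inv_mul_cancel₀ (pow_ne_zero 2 τ0), one_smul] at this
  exact ⟨h0, h1, this⟩

theorem mem' (h : Lim3 G τ F Y) (hτ : τ ≠ 0) {R : Set X} (hR : RSub R)
    (hF : ∀ᶠ W in atTop, F W ∈ R) (n : Fin 3) : Y n ∈ R := by
  have := h.mem hτ hR (y := 0) (by simpa using hF)
  rw [sub_zero] at this
  fin_cases n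
  exacts [this.1, this.2.1, this.2.2]

/-- the first coefficient is tangent to the zero set -/
theorem tangent (h : Lim3 G τ F Y) (hτ : τ ≠ 0) {Φ : X → X'} {Φ' : X →L[ℂ] X'}
    (hΦ : HasFDerivAt Φ Φ' (Y 0)) (hF : ∀ᶠ W in atTop, Φ (F W) = 0) :
    Φ (Y 0) = 0 ∧ Φ' (Y 1) = 0 := by
  have h0 : Φ (Y 0) = 0 := tendsto_nhds_unique (hΦ.continuousAt.tendsto.comp h.t0)
    (tendsto_const_nhds.congr' (hF.mono fun W hW => hW.symm))
  have h1 := (hasFDerivWithinAt_univ.2 hΦ).lim (tendsto_of_smul h.t1)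
    (.of_forall fun _ => mem_univ _) h.t1
  have h2 := tendsto_nhds_unique h1 (tendsto_const_nhds.congr' (hF.mono fun W hW => by
    simp only [add_sub_cancel, hW, h0, sub_self, smul_zero]; rfl))
  rw [map_smul, smul_eq_zero_iff_right (ofReal_ne_zero.2 hτ)] at h2
  exact ⟨h0, h2⟩

end Lim3

theorem RSub.fderiv_mem {R : Set X'} (hR : RSub R) {f : X → X'} {f' : X →L[ℂ] X'} {x : X} {y : X'}
    (hf : HasFDerivAt f f' x) (h : ∀ᶠ u in 𝓝 x, f u - y ∈ R) (v : X) : f' v ∈ R := by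
  have h1 : Tendsto (fun W : ℝ => x + (W : ℂ)⁻¹ • v) atTop (𝓝 x) := by
    simpa using (tendsto_inv_C.smul_const v).const_add x
  refine hR.cl.mem_of_tendsto (hf.lim v (c := fun W : ℝ => (W : ℂ)) (l := atTop)
    (by simpa using tendsto_abs_atTop_atTop)) ((h1.eventually h).mono fun W hW => hR.smul W _ ?_)
  simpa using hR.sub _ hW _ h.self_of_nhds

theorem rsub_zero : RSub ({0} : Set X) :=
  ⟨isClosed_singleton, fun x hx y hy => by simp_all, fun t x hx => by simp_all⟩

end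

theorem continuous_cj : Continuous cj :=
  (AddMonoidHomClass.lipschitz_of_bound cjR 1 fun x => by
    rw [one_mul]; exact (Bd.of_norm univ x).cj.norm_le).continuous

theorem rsub_real : RSub {x : Fin 6 → WA | ∀ i, cj (x i) = x i} := by
  refine ⟨?_, fun x hx y hy i => ?_, fun t x hx i => ?_⟩
  · rw [ofPred_forall]
    exact isClosed_iInter fun i => isClosed_eq (continuous_cj.comp (continuous_apply i))
      (continuous_apply i)
  · exact (map_sub cjR (x i) (y i)).trans (congrArg₂ _ (hx i) (hy i))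
  · refine ext'' fun k w => ?_
    have := congrArg (fun z : WA => z.co k w) (hx i)
    simp only [co_cj] at this
    simp only [Pi.smul_apply, co_cj, co_smul, BoundedContinuousFunction.smul_apply, smul_eq_mul,
      map_mul, conj_ofReal, this]

theorem continuous_co (i : Fin 6) (k : ℤ) (w : ℝ) :
    Continuous fun x : Fin 6 → WA => (x i).co k w :=
  (BoundedContinuousFunction.evalCLM ℂ w).continuous.comp
    ((coL k).continuous.comp (continuous_apply i))

theorem rsub_dir (k : ℤ) (w : ℝ) : RSub {x : Fin 6 → WA | (x 0).co k w = 0} :=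
  ⟨isClosed_eq (continuous_co 0 k w) continuous_const, fun x hx y hy => by simp_all,
    fun t x hx => by
      have : (x 0).co k w = 0 := hx
      change ((t : ℂ) • x 0).co k w = 0
      simp only [co_smul, BoundedContinuousFunction.smul_apply, this, smul_zero]⟩

theorem deriv_iff {a b : ℝ} (hab : a ≤ b) {y : ℝ → ℂ} {f : CB} :
    (∀ w ∈ Icc a b, HasDerivWithinAt y (f w) (Icc a b) w) ↔
      ∀ w ∈ Icc a b, y w = y a + prim a b a f w := by
  have ha := left_mem_Icc.2 hab
  refine ⟨fun h w hw => ?_, fun h w hw =>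
    ((hasDeriv_prim a b a f hw).const_add (y a)).congr h (h w hw)⟩
  have := (convex_Icc a b).norm_image_sub_le_of_norm_hasDerivWithin_le (C := 0)
    (fun u hu => (h u hu).sub (hasDeriv_prim a b a f hu)) (fun u _ => by simp) ha hw
  simp only [zero_mul, norm_le_zero_iff, Pi.sub_apply, prim_apply, cl_of_mem ha,
    intervalIntegral.integral_same] at this
  rw [prim_apply]
  linear_combination this

theorem Jet.smul {a b : ℝ} {A : ℝ → ℂ} {J : Fin 6 → WA} (h : Jet a b A J) (c : ℂ) :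
    Jet a b A (c • J) := by
  refine ⟨fun k w hw => ((h.d0 k w hw).const_mul c).congr_deriv (by simp [mul_left_comm]),
    fun k w hw => ?_, h.t1.smul c, h.t2.smul c, h.t5.smul c⟩
  simpa [mul_left_comm] using (h.d3 k w hw).const_mul c

theorem Jet.add {a b : ℝ} {A : ℝ → ℂ} {J J' : Fin 6 → WA} (h : Jet a b A J) (h' : Jet a b A J') :
    Jet a b A (J + J') := by simpa using h.sub (h'.smul (-1))

theorem rsub_jet {a b : ℝ} (hab : a ≤ b) {A : ℝ → ℂ} (hA : ContinuousOn A (Icc a b)) :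
    RSub {J | Jet a b A J} := by
  refine ⟨?_, fun x hx y hy => hx.sub hy, fun t x hx => hx.smul t⟩
  have e : ∀ (J : Fin 6 → WA) i k, ∀ w ∈ Icc a b, (mkB a b A * (J i).co k) w = A w * (J i).co k w :=
    fun J i k w hw => by rw [BoundedContinuousFunction.mul_apply, mkB_of_mem hA hw]
  have key : {J | Jet a b A J} = ⋂ k, ⋂ w ∈ Icc a b,
      {J : Fin 6 → WA | (J 0).co k w = (J 0).co k a + prim a b a (mkB a b A * (J 3).co k) w} ∩
      {J | A w * (J 3).co k w = A a * (J 3).co k a + prim a b a (mkB a b A * (J 4).co k) w} ∩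
      {J | (J 1).co k w = 1 * (k * I) * (J 0).co k w} ∩
      {J | (J 2).co k w = 1 * (k * I) * (J 1).co k w} ∩
      {J | (J 5).co k w = Complex.sqrt (A w) * (k * I) * (J 3).co k w} := by
    ext J
    simp only [mem_iInter, mem_inter_iff, mem_ofPred_eq]
    refine ⟨fun h k w hw => ⟨⟨⟨⟨(deriv_iff hab).1 (fun u hu => e J 3 k u hu ▸ h.d0 k u hu) w hw,
      (deriv_iff hab (y := fun u => A u * (J 3).co k u)).1
        (fun u hu => e J 4 k u hu ▸ h.d3 k u hu) w hw⟩, h.t1 k w hw⟩, h.t2 k w hw⟩, h.t5 k w hw⟩,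
      fun h => ⟨fun k w hw => ?_, fun k w hw => ?_, fun k w hw => (h k w hw).1.1.2,
        fun k w hw => (h k w hw).1.2, fun k w hw => (h k w hw).2⟩⟩
    · exact e J 3 k w hw ▸ (deriv_iff hab).2 (fun u hu => (h k u hu).1.1.1.1) w hw
    · exact e J 4 k w hw ▸ (deriv_iff hab (y := fun u => A u * (J 3).co k u)).2
        (fun u hu => (h k u hu).1.1.1.2) w hw
  have c := continuous_co
  have p : ∀ i k w, Continuous fun J : Fin 6 → WA => prim a b a (mkB a b A * (J i).co k) w :=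
    fun i k w => (BoundedContinuousFunction.evalCLM ℂ w).continuous.comp
      ((prim a b a).continuous.comp (continuous_const.mul
        ((coL k).continuous.comp (continuous_apply i))))
  rw [key]
  exact isClosed_iInter fun k => isClosed_iInter fun w => isClosed_iInter fun _ =>
    ((((isClosed_eq (c 0 k w) ((c 0 k a).add (p 3 k w))).inter
      (isClosed_eq ((c 3 k w).const_mul _) (((c 3 k a).const_mul _).add (p 4 k w)))).inter
      (isClosed_eq (c 1 k w) ((c 0 k w).const_mul _))).inter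
      (isClosed_eq (c 2 k w) ((c 1 k w).const_mul _))).inter
      (isClosed_eq (c 5 k w) ((c 3 k w).const_mul _))

end Vale.Agent.P218EN
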