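import Vale.Agent.P218EN.Grow
import Vale.Agent.P218EN.Lim3
import Vale.Agent.P218CH.CanC

/-! The canonical expansion: properties of the coefficients. -/

namespace Vale.Agent.P218EN
open Set Complex WA Metric Filter Topology Vale.Agent.P218CH
open Vale.Agent.P218TP (GG GG_sub_g0 im_GG)

/-- test values of the parameter -/
noncomputable def aW (t W : ℝ) : ℂ := ((t / W : ℝ) : ℂ)

theorem norm_aW {t W : ℝ} (ht : 0 ≤ t) (hW : 0 < W) : ‖aW t W‖ * W = t := by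
  rw [aW, norm_real, Real.norm_of_nonneg (by positivity), div_mul_cancel₀ _ hW.ne']

theorem aW_zero (W : ℝ) : aW 0 W = 0 := by simp [aW]

theorem ev_big (K : ℝ) : ∀ᶠ W in atTop, Big K W := eventually_atTop.2 (exists_big K)

theorem tendsto_GG {K t : ℝ} (hK : 4000000 ≤ K) (h0 : 0 ≤ t) (h1 : t ≤ 1 / 2) :
    Tendsto (fun W => W * (GG W (aW t W)).re) atTop (𝓝 t) := by
  have a := Real.isLittleO_log_id_atTop.tendsto_div_nhds_zero
  have b : Tendsto (fun W : ℝ => 101 / W) atTop (𝓝 0) := tendsto_const_nhds.div_atTop tendsto_id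
  refine tendsto_sub_nhds_zero_iff.1 (squeeze_zero_norm' ((ev_big K).mono fun W hb => ?_)
    (by simpa using a.add b))
  have W0 := hb.pos
  have e := norm_aW h0 W0
  have hD := hb.mem_D hK (e.trans_le h1)
  have h2 := hb.g0_sub_le (by linarith) (by linarith) hD
  have h3 := GG_sub_g0 W0 hK hD
  have h4 := norm_sub_le_norm_sub_add_norm_sub (GG W (aW t W)) (g0 W (aW t W)) (aW t W)
  have h5 := hb.log_nonneg
  have h6 : ‖aW t W‖ ≤ 1 / 2 / W := by rw [le_div_iff₀ W0]; linarith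
  have h7 : 8 / 7 * ‖aW t W‖ ^ 2 * (Real.log W + 1) ≤ 4 * (1 / 2 / W) ^ 2 * (Real.log W + 1) := by
    gcongr; norm_num
  have h8 : W * (GG W (aW t W)).re - t = W * (GG W (aW t W) - aW t W).re := by
    rw [sub_re, aW, ofReal_re]; field_simp
  rw [h8, norm_mul, Real.norm_of_nonneg W0.le]
  calc _ ≤ W * (100 / W ^ 2 + 4 * (1 / 2 / W) ^ 2 * (Real.log W + 1)) :=
        mul_le_mul_of_nonneg_left ((abs_re_le_norm _).trans (by linarith)) W0.le
    _ = _ := by field_simp; ring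

theorem grow_alg {c α m η d : ℂ} {w : ℝ} (hw : 0 ≤ w) (hc : c * α = 1)
    (hm : m ^ 2 = 1 - α * w) (h1 : ‖m - 1‖ ≤ ‖α * w‖) (h2 : ‖α * w‖ ≤ 1 / 8) (h3 : ‖η‖ ≤ 1 / 16)
    (h4 : ‖η - d‖ ≤ ‖α‖ * (w / 16)) : ‖c * (m * (1 + η) - 1 - d) + w / 2‖ ≤ w / 4 := by
  have n : ‖c‖ * ‖α‖ = 1 := by rw [← norm_mul, hc, norm_one]
  have q : ‖c * (m - 1)‖ ≤ w := by
    rw [norm_mul, norm_real, Real.norm_of_nonneg hw] at h1
    calc _ ≤ ‖c‖ * (‖α‖ * w) := by rw [norm_mul]; gcongr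
      _ = w := by rw [← mul_assoc, n, one_mul]
  have q' : ‖c * (η - d)‖ ≤ w / 16 :=
    calc _ ≤ ‖c‖ * (‖α‖ * (w / 16)) := by rw [norm_mul]; gcongr
      _ = _ := by rw [← mul_assoc, n, one_mul]
  have e : c * (m * (1 + η) - 1 - d) + w / 2
      = c * (m - 1) * (η - 1 / 2 * (m - 1)) + c * (η - d) := by
    linear_combination c / 2 * hm - w / 2 * hc
  have h5 : ‖η - 1 / 2 * (m - 1)‖ ≤ 1 / 8 := by
    have := norm_sub_le η (1 / 2 * (m - 1))
    rw [norm_mul, norm_half] at this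
    linarith
  have h6 : ‖c * (m - 1) * (η - 1 / 2 * (m - 1))‖ ≤ w * (1 / 8) := by rw [norm_mul]; gcongr
  rw [e]
  linarith [norm_add_le (c * (m - 1) * (η - 1 / 2 * (m - 1))) (c * (η - d))]

theorem differentiable_EE (a b : ℝ) (α : ℂ) : Differentiable ℂ (EE a b α) := by
  have h : Differentiable ℂ (NN a b α) := differentiableOn_univ.1
    (Ex.differentiableOn_ev (J := vN a b α) (fun i => by
      fin_cases i
      iterate 6 exact (differentiable_apply _).differentiableOn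
      all_goals exact differentiableOn_const _) _)
  have h' : Differentiable ℂ (Lm (-2)) := by unfold Lm; fun_prop
  exact h'.add h

variable {V : Type*} [NormedAddCommGroup V] [NormedSpace ℂ V] {a s r R K L W t : ℝ} {RV : Set V}
  {Cf : V × (Fin 6 → WA) → WA} {JS : Fin 6 → WA} {J : ℝ → ℂ × V → Fin 6 → WA} {v : V} {α : ℂ}

theorem diff_dfc (I : EndIn a s r R K RV Cf JS) (hv : v ∈ ball (0 : V) r) (y : Fin 6 → WA) :
    DifferentiableAt ℂ (fun q : V × (Fin 6 → WA) => dfc a s L Cf q.1 q.2) (v, y) :=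
  (compL (cl a L)).differentiableAt.comp _
    (((differentiable_EE a L 0).differentiableAt.comp _ differentiableAt_snd).sub
      ((I.holo.differentiableAt ((isOpen_ball.prod isOpen_univ).mem_nhds ⟨hv, mem_univ _⟩)).comp
        (v, y) (differentiableAt_fst.prodMk
          ((clpL a s).differentiableAt.comp _ differentiableAt_snd))))

omit [NormedSpace ℂ V] in
theorem lim3 {Y : Fin 3 → V → Fin 6 → WA} (hK : 4000000 ≤ K)
    (h : ∃ C W1 : ℝ, ∀ W, W1 ≤ W → ∀ q ∈ D W K ×ˢ ball (0 : V) r,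
      ‖ab a L q.1 (J W q) - Yt Y (GG W q.1) q.2‖ ≤ C * W ^ (-(2 + 1 / 8) : ℝ))
    (h0 : 0 ≤ t) (h1 : t ≤ 1 / 2) (hv : v ∈ ball (0 : V) r) :
    Lim3 (fun W => (GG W (aW t W)).re) t (fun W => ab a L (aW t W) (J W (aW t W, v)))
      fun n => Y n v := by
  obtain ⟨C, W1, h⟩ := h
  refine ⟨tendsto_GG hK h0 h1, squeeze_zero_norm' (((ev_big K).and (eventually_ge_atTop W1)).mono
    fun W ⟨hb, hW⟩ => ?_) (by simpa using
      (tendsto_rpow_neg_atTop (by norm_num : (0 : ℝ) < 1 / 8)).const_mul C)⟩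
  have W0 := hb.pos
  have hD := hb.mem_D hK ((norm_aW h0 W0).trans_le h1)
  have e : ((GG W (aW t W)).re : ℂ) = GG W (aW t W) :=
    conj_eq_iff_re.1 (conj_eq_iff_im.2 (im_GG W0 hK hD (ofReal_im _)))
  rw [e, norm_smul, norm_pow, norm_real, Real.norm_of_nonneg W0.le]
  refine (mul_le_mul_of_nonneg_left (h W hW (_, v) ⟨hD, hv⟩) (sq_nonneg W)).trans (le_of_eq ?_)
  rw [mul_left_comm, ← Real.rpow_natCast, ← Real.rpow_add W0]
  norm_num

theorem ev_good (I : EndIn a s r R K RV Cf JS) (hL : a ≤ L) (h0 : 0 ≤ t) (h1 : t ≤ 1 / 2) :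
    ∀ᶠ W in atTop, a ^ 2 ≤ W ∧ L ≤ W ∧ aW t W ∈ D W K ∧ Flat a L (aW t W) := by
  filter_upwards [ev_big K, eventually_ge_atTop (a ^ 2), eventually_ge_atTop (14 * L)]
    with W hb h2 h3
  have hD := hb.mem_D I.K_big ((norm_aW h0 hb.pos).trans_le h1)
  exact ⟨h2, by linarith [I.a_pos], hD, I.flat hL h3 hD⟩

section
variable (I : EndIn a s r R K RV Cf JS) (F : EndFam a s r R K RV Cf JS J) (hW : a ^ 2 ≤ W)
  (hL : L ≤ W) (hα : α ∈ D W K) (hf : Flat a L α) (hv : v ∈ ball (0 : V) r)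
include F hW hL hα hf hv

theorem jet_ab : Jet a L (Af 0) (ab a L α (J W (α, v))) :=
  (jet_rp hf.prof0 hf.prof ((F.sol W hW (α, v) ⟨hα, hv⟩).jet.mono
    (Icc_subset_Icc_right hL))).congr fun _ => wEq_comp_cl _

include I

theorem dfc_ab (hs : s ≤ L) : dfc a s L Cf v (ab a L α (J W (α, v))) = 0 := by
  refine ext'' fun k u => ?_
  have m := cl_mem hf.le u
  have h1 := wEq_EE (a := a) (b := L) (α := 0) (J' := ab a L α (J W (α, v)))
    (fun _ => wEq_comp_cl _) k _ m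
  have h2 := ((I.rg hW hα).base.restrict (F.sol W hW (α, v) ⟨hα, hv⟩) hf.le
    (Icc_subset_Icc_right hL)).eq k _ m
  rw [EE_rp hf.prof0 hf.prof _ k _ m, co_fn_mul (f := fun w => P218CH.mu 0 α w ^ 2)
    ((cmu hf.prof0 hf.prof).pow 2) m, h2] at h1
  rw [dfc, co_comp, co_sub, BoundedContinuousFunction.sub_apply, h1, clp_ab I.le hs hf.prof]
  rcases le_total (cl a L u) s with h | h
  · have g := hf.mono I.le hs
    rw [src, co_fn_mul (f := fun w => P218CH.mu α 0 w ^ 2) ((cmu g.prof g.prof0).pow 2) ⟨m.1, h⟩,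
      ← mul_assoc, ← mul_pow, mul_comm (P218CH.mu 0 α _), hf.m_inv m]
    simp
  · rw [I.src_supp k h, I.supp _ _ k _ h]
    simp

omit hL in
theorem dir_ab {k : ℤ} (hk : 2 ≤ kp (-2) k) :
    ((ab a L α (J W (α, v)) - JS) 0).co k a = 0 := by
  have m := left_mem_Icc.2 hf.le
  have h1 := (F.sol W hW (α, v) ⟨hα, hv⟩).dir k
  have k0 : on k = 0 := if_neg fun h => by subst h; norm_num [kp] at hk
  have k1 : (1 + (k : ℂ) ^ 2) ≠ 0 := by exact_mod_cast (by positivity : (1 + k ^ 2 : ℤ) ≠ 0)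
  rw [pt, if_pos hk, co_xi, if_pos hk, ← (I.jet L hf.le).dir k m, mul_left_comm] at h1
  rw [Pi.sub_apply, co_sub, BoundedContinuousFunction.sub_apply, co_ab, cl_of_mem m,
    co_rp0 hf.prof0 hf.prof _ m, k0, mul_left_cancel₀ k1 h1]
  linear_combination (JS 0).co k a * hf.m_inv m

end

theorem grow_ab (I : EndIn a s r R K RV Cf JS) (F : EndFam a s r R K RV Cf JS J) (hW : a ^ 2 ≤ W)
    (hL : L ≤ W) (hα : aW (1 / 8) W ∈ D W K) (h0 : (0 : ℂ) ∈ D W K) (hf : Flat a L (aW (1 / 8) W))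
    (hv : v ∈ ball (0 : V) r) {w : ℝ} (hw : w ∈ Icc a L)
    (hw' : (32 * (80 * 3000000 * (16 * √a + 24))) ^ 2 ≤ w) (θ : ℝ) :
    ‖8 * W * ((ab a L (aW (1 / 8) W) (J W (aW (1 / 8) W, v)) 0).ev w θ
      - (ab a L 0 (J W (0, v)) 0).ev w θ) + w / 2‖ ≤ w / 4 := by
  have W0 := I.W_pos hW
  have w0 : 0 < w := I.a_pos.trans_le hw.1
  have m : w ∈ Icc a W := ⟨hw.1, hw.2.trans hL⟩
  have e := norm_aW (t := 1 / 8) (by norm_num) W0
  have r1 := I.rg hW hα
  have b0 := sg_zero_le ((I.rg hW h0).pt m)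
  have b1 := r1.base.sig_le m
  have sw := Real.sqrt_pos.2 w0
  rw [ab_zero I.a_pos hf.le, ab, ev_comp, ev_comp, cl_of_mem hw, ev_rp0 hf.prof0 hf.prof _ hw]
  refine grow_alg w0.le ?_ (hf.m_sq hw) (hf.m_sub hw) ?_ ?_ ?_
  · have : (W : ℂ) ≠ 0 := ofReal_ne_zero.2 W0.ne'
    rw [aW]; push_cast; field_simp
  · rw [norm_mul, norm_real, Real.norm_of_nonneg w0.le]
    exact (mul_le_mul_of_nonneg_left m.2 (norm_nonneg _)).trans e.le
  · have := (F.bd_one I hW hα hv 0).ev_le m r1.ep_pos.le b1.1 b1.2 θ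
    linarith [r1.ep_small]
  · rw [← ev_sub]
    refine ((grow_est I F hW hα h0 e.le hv).ev_le (m := w * (2 * (√w)⁻¹)) m (by positivity)
      (mul_le_mul_of_nonneg_left b0.1 w0.le) (mul_le_mul_of_nonneg_left b0.2 w0.le) θ).trans ?_
    have h2 : 80 * 3000000 * (16 * √a + 24) * (2 * (√w)⁻¹) ≤ 1 / 16 := by
      rw [← mul_assoc, ← div_eq_mul_inv, div_le_iff₀ sw]
      linarith [Real.le_sqrt_of_sq_le hw']
    calc _ = ‖aW (1 / 8) W‖ * (w * (80 * 3000000 * (16 * √a + 24) * (2 * (√w)⁻¹))) := by ring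
      _ ≤ ‖aW (1 / 8) W‖ * (w * (1 / 16)) := by gcongr
      _ = _ := by ring

theorem can_of (I : EndIn a s r R K RV Cf JS) (F : EndFam a s r R K RV Cf JS J)
    (Y : ℝ → Fin 3 → V → Fin 6 → WA) {L1 : ℝ}
    (holo : ∀ L, L1 ≤ L → ∀ n, DifferentiableOn ℂ (Y L n) (ball 0 r))
    (bdd : ∀ L, L1 ≤ L → ∃ B : ℝ, ∀ n, ∀ v ∈ ball (0 : V) r, ‖Y L n v‖ ≤ B)
    (can : ∀ L, L1 ≤ L → ∃ C W1 : ℝ, ∀ W, W1 ≤ W → ∀ q ∈ D W K ×ˢ ball (0 : V) r,
      ‖ab a L q.1 (J W q) - Yt (Y L) (GG W q.1) q.2‖ ≤ C * W ^ (-(2 + 1 / 8) : ℝ))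
    (zero : ∀ L, L1 ≤ L → Y L 0 0 = clp a L JS) :
    ∃ L0, L1 ≤ L0 ∧ Can a s r K L0 RV Cf JS J Y := by
  obtain ⟨L0, l1, l2, l3⟩ : ∃ L0, L1 ≤ L0 ∧ s ≤ L0 ∧
      (32 * (80 * 3000000 * (16 * √a + 24))) ^ 2 ≤ L0 :=
    ⟨max L1 (max s _), le_max_left _ _, le_max_of_le_right (le_max_left _ _),
      le_max_of_le_right (le_max_right _ _)⟩
  have t0 : (0 : ℝ) ≤ 1 / 8 := by norm_num
  have t1 : (1 / 8 : ℝ) ≤ 1 / 2 := by norm_num
  have t2 : (1 / 8 : ℝ) ≠ 0 := by norm_num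
  have t3 : (0 : ℝ) ≤ 1 / 2 := by norm_num
  have z : (0 : V) ∈ ball (0 : V) r := mem_ball_self I.pos
  have aL : ∀ {L}, L0 ≤ L → a ≤ L := fun h => I.le.trans (l2.trans h)
  have lim := fun L (hL : L0 ≤ L) v hv => lim3 (v := v) I.K_big (can L (l1.trans hL)) t0 t1 hv
  have lim0 := fun L (hL : L0 ≤ L) v hv => lim3 (v := v) I.K_big (can L (l1.trans hL)) le_rfl t3 hv
  have gd := fun L (hL : L0 ≤ L) => ev_good I (aL hL) t0 t1
  have gd0 := fun L (hL : L0 ≤ L) => ev_good I (aL hL) le_rfl t3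
  simp only [aW_zero] at lim0 gd0
  have rj := fun L (hL : L0 ≤ L) => rsub_jet (aL hL) (Prof.zero I.a_pos).cA
  have d0 : ∀ L, L0 ≤ L → HasFDerivAt (Y L 0) (fderiv ℂ (Y L 0) 0) 0 := fun L hL =>
    ((holo L (l1.trans hL) 0).differentiableAt (isOpen_ball.mem_nhds z)).hasFDerivAt
  have jet : ∀ L, L0 ≤ L → ∀ n, ∀ v ∈ ball (0 : V) r, Jet a L (Af 0) (Y L n v) :=
    fun L hL n v hv => (lim L hL v hv).mem' t2 (rj L hL)
      ((gd L hL).mono fun W ⟨h1, h2, h3, h4⟩ => jet_ab F h1 h2 h3 h4 hv) n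
  have dir := fun L (hL : L0 ≤ L) v hv k hk => (lim L hL v hv).mem t2 (rsub_dir k a)
    ((gd L hL).mono fun W ⟨h1, _, h3, h4⟩ => dir_ab I F h1 h3 h4 hv hk)
  have tan := fun L (hL : L0 ≤ L) v hv => (lim L hL v hv).tangent t2
    ((diff_dfc (L := L) I hv (Y L 0 v)).hasFDerivAt.comp _ (hasFDerivAt_prodMk_right v _))
    ((gd L hL).mono fun W ⟨h1, h2, h3, h4⟩ => dfc_ab I F h1 h2 h3 h4 hv (l2.trans hL))
  refine ⟨L0, l1, l2, fun L hL => holo L (l1.trans hL), fun L hL => bdd L (l1.trans hL),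
    fun L hL => can L (l1.trans hL), fun L L' hL hL' n v hv => ?_, fun L hL n v hv hr => ?_,
    fun L hL => zero L (l1.trans hL), jet, fun L hL v hv => (tan L hL v hv).1,
    fun L hL n v hv k hk => ?_, fun L hL v hv => ?_, fun L hL v hv w hw θ => ?_,
    fun L hL g v => ?_, fun L hL g v k hk => ?_, fun L hL g v => ?_⟩
  · exact sub_eq_zero.1 ((((lim L' (hL.trans hL') v hv).map (clpL a L)).sub (lim L hL v hv)).mem'
      t2 rsub_zero ((gd L' (hL.trans hL')).mono fun W h =>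
        sub_eq_zero.2 (clp_ab (aL hL) hL' h.2.2.2.prof _)) n)
  · refine (lim L hL v hv).mem' t2 rsub_real ((gd L hL).mono fun W ⟨h1, _, h3, h4⟩ i => ?_) n
    have := F.real W h1 (_, v) ⟨h3, hv⟩ (ofReal_im _) hr
    exact (cj_ab h4.le h4.prof _ i).trans (congrArg (fun x => ab a L _ x i) (funext this))
  · obtain ⟨h0, h1, h2⟩ := dir L hL v hv k hk
    fin_cases n
    exacts [sub_eq_zero.1 h0, h1, h2]
  · refine le_of_tendsto (lim0 L hL v hv).t0.norm ((gd0 L hL).mono fun W ⟨h1, h2, h3, h4⟩ => ?_)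
    have hr := I.rg h1 h3
    rw [ab_zero' I.a_pos h4.le, ← mul_one (ep a)]
    exact norm_clp_le h4.le hr.ep_pos.le (fun i => (F.bd_one I h1 h3 hv i).subset
      (Icc_subset_Icc_right h2)) fun w hw => hr.base.sig_le ⟨hw.1, hw.2.trans h2⟩
  · have h1 := (((evL w θ).comp (ContinuousLinearMap.proj 0)).continuous.tendsto _).comp
      (((lim L hL v hv).t1.sub (lim0 L hL v hv).t1).const_smul (8 : ℂ))
    have e : (8 : ℂ) • (((1 / 8 : ℝ) : ℂ) • Y L 1 v - ((0 : ℝ) : ℂ) • Y L 1 v) = Y L 1 v := by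
      push_cast; module
    rw [e] at h1
    refine le_of_tendsto (h1.add_const (w / 2 : ℂ)).norm (((gd L hL).and (gd0 L hL)).mono
      fun W ⟨⟨h2, h3, h4, h5⟩, h6⟩ => ?_)
    refine le_of_eq_of_le (congrArg (fun x => ‖x + (w / 2 : ℂ)‖) ?_)
      (grow_ab I F h2 h3 h4 h6.2.2.1 h5 hv ⟨(aL le_rfl).trans hw.1, hw.2⟩ (l3.trans hw.1) θ)
    rw [Function.comp_apply]
    simp only [map_smul, map_sub, smul_eq_mul, ContinuousLinearMap.comp_apply,
      ContinuousLinearMap.proj_apply, evL_apply]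
    ring
  · exact ((jet L hL 1 0 z).smul g).add ((rj L hL).fderiv_mem (y := 0) (d0 L hL)
      ((isOpen_ball.eventually_mem z).mono fun u hu => by
        rw [sub_zero]; exact jet L hL 0 u hu) v)
  · have h1 : (Y L 1 0 0).co k a = 0 := (dir L hL 0 z k hk).2.1
    have h2 : (fderiv ℂ (Y L 0) 0 v 0).co k a = 0 := (rsub_dir k a).fderiv_mem (d0 L hL)
      ((isOpen_ball.eventually_mem z).mono fun u hu => (dir L hL u hu k hk).1) v
    simp [Yl, h1, h2]
  · have hΦ := (diff_dfc (L := L) I z (Y L 0 0)).hasFDerivAt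
    have h1 := (tan L hL 0 z).2
    have h2 := (hΦ.comp 0 ((hasFDerivAt_id 0).prodMk (d0 L hL))).unique
      ((hasFDerivAt_const 0 0).congr_of_eventuallyEq
        ((isOpen_ball.eventually_mem z).mono fun u hu => (tan L hL u hu).1))
    have h3 : HasDerivAt (fun t : ℂ => (t • v, Y L 0 0 + t • Yl (Y L) g v))
        (g • (0, Y L 1 0) + (v, fderiv ℂ (Y L 0) 0 v)) 0 := by
      simpa [Yl] using ((hasDerivAt_id (0 : ℂ)).smul_const v).prodMk
        (((hasDerivAt_id (0 : ℂ)).smul_const (Yl (Y L) g v)).const_add (Y L 0 0))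
    have h4 := hΦ.comp_hasDerivAt_of_eq 0 h3 (by simp)
    have h5 := DFunLike.congr_fun h2 v
    simp only [ContinuousLinearMap.comp_apply, ContinuousLinearMap.inr_apply,
      ContinuousLinearMap.prod_apply, ContinuousLinearMap.id_apply,
      _root_.zero_apply] at h1 h5
    rw [map_add, map_smul, h1, h5, smul_zero, add_zero] at h4
    rw [← zero L (l1.trans hL)]
    exact h4

/-- the canonical expansion -/
theorem exists_can (I : EndIn a s r R K RV Cf JS) (F : EndFam a s r R K RV Cf JS J)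
    (ha : 10 ^ 34 ≤ a) : ∃ L0 Y, Can a s r K L0 RV Cf JS J Y := by
  obtain ⟨Y, h1, h2, h3, h4⟩ := exists_coef I F ha
  obtain ⟨L0, -, h⟩ := can_of I F Y h1 h2 h3 h4
  exact ⟨L0, Y, h⟩

end Vale.Agent.P218EN
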