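import Vale.Agent.P218EN.Lin

/-! A priori estimate for the model operator. -/

namespace Vale.Agent.P218EN
open Filter Topology Set Complex WA

theorem bd_comp_cl {a b : ℝ} (hab : a ≤ b) {σ ω : ℝ → ℝ} {x : WA} {B : ℝ} :
    Bd univ (σ ∘ cl a b) (ω ∘ cl a b) (comp (cl a b) x) B ↔ Bd (Icc a b) σ ω x B := by
  refine ⟨fun h => ?_, fun h => h.comp _ fun w _ => cl_mem hab w⟩
  obtain ⟨c, h0, h1, h2, h3⟩ := h
  refine ⟨c, h0, h1, h2, fun k w hw => ?_⟩
  have := h3 k w (mem_univ w)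
  have e : wt (σ ∘ cl a b) (ω ∘ cl a b) k w = wt σ ω k (cl a b w) := by
    unfold wt; split_ifs <;> rfl
  rwa [e, co_comp, cl_of_mem hw] at this

theorem isWt_cl {a b : ℝ} (hab : a ≤ b) {σ : ℝ → ℝ} (hp : ∀ w ∈ Icc a b, 0 < σ w)
    (hc : ContinuousOn σ (Icc a b)) : IsWt (σ ∘ cl a b) := by
  obtain ⟨u, hu, h⟩ := isCompact_Icc.exists_isMinOn (nonempty_Icc.2 hab) hc
  exact ⟨hc.comp_continuous (cl a b).continuous (cl_mem hab), σ u, hp u hu,
    fun w => h (cl_mem hab w)⟩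

theorem exists_T {a b : ℝ} (hab : a ≤ b) {σ ω : ℝ → ℝ} (hp : ∀ w ∈ Icc a b, 0 < σ w ∧ 0 < ω w)
    (hc : ContinuousOn σ (Icc a b) ∧ ContinuousOn ω (Icc a b)) :
    ∃ T : WA →L[ℂ] WA, ∀ x B, ‖T x‖ ≤ B ↔ Bd (Icc a b) σ ω x B := by
  obtain ⟨T, hT⟩ := exists_normaliser (isWt_cl hab (fun w hw => (hp w hw).1) hc.1)
    (isWt_cl hab (fun w hw => (hp w hw).2) hc.2)
  exact ⟨T.comp (compL (cl a b)), fun x B => (hT _ B).trans (bd_comp_cl hab)⟩

theorem Bd.norm_comp_cl_le {a b : ℝ} (hab : a ≤ b) {σ ω : ℝ → ℝ} {x : WA} {B : ℝ}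
    (h : Bd (Icc a b) σ ω x B) (h1 : ∀ w ∈ Icc a b, σ w ≤ 1 ∧ ω w ≤ 1) :
    ‖WA.comp (cl a b) x‖ ≤ B :=
  Bd.norm_le (((bd_comp_cl hab).2 h).weaken' (fun w _ => (h1 _ (cl_mem hab w)).1)
    fun w _ => (h1 _ (cl_mem hab w)).2)

theorem Bd.wEq {S : Set ℝ} {σ ω : ℝ → ℝ} {x y : WA} (h : Bd S σ ω (x - y) 0) : WEq S x y := by
  obtain ⟨c, h0, h1, h2, h3⟩ := h
  intro k w hw
  have : c k = 0 := le_antisymm ((h1.le_tsum k fun j _ => h0 j).trans h2) (h0 k)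
  have h4 := h3 k w hw
  rw [this, zero_mul, norm_le_zero_iff] at h4
  exact sub_eq_zero.1 h4

theorem absorb {a b : ℝ} (hab : a ≤ b) {σ ω : ℝ → ℝ} (hp : ∀ w ∈ Icc a b, 0 < σ w ∧ 0 < ω w)
    (hc : ContinuousOn σ (Icc a b) ∧ ContinuousOn ω (Icc a b)) {J : Fin 6 → WA} {c : ℝ}
    (h : ∀ B, (∀ i, Bd (Icc a b) σ ω (J i) B) → ∀ i, Bd (Icc a b) σ ω (J i) (c + B / 2)) (i) :
    Bd (Icc a b) σ ω (J i) (2 * c) := by
  obtain ⟨T, hT⟩ := exists_T hab hp hc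
  have h1 := h ‖fun i => T (J i)‖ fun i => (hT _ _).1 (norm_le_pi_norm (fun i => T (J i)) i)
  have h2 : ‖fun i => T (J i)‖ ≤ c + ‖fun i => T (J i)‖ / 2 :=
    (pi_norm_le_iff_of_nonneg (h1 0).nonneg).2 fun i => (hT _ _).2 (h1 i)
  exact (h1 i).mono (by linarith)

theorem nn_ne {κ : ℝ} {A : ℂ} (hκ : 2 ≤ κ) (hA : 0 < A.re) : 1 + 2 * nn κ A ≠ 0 := by
  intro h
  have := congrArg Complex.re h
  simp only [add_re, one_re, mul_re, re_ofNat, im_ofNat, zero_mul, sub_zero, zero_re] at this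
  linarith [nn_re hκ hA]

theorem norm_one_add_sq (k : ℤ) : ‖(1 + (k : ℂ) ^ 2)‖ = 1 + (k : ℝ) ^ 2 := by
  rw [← Real.norm_of_nonneg (by positivity : 0 ≤ 1 + (k : ℝ) ^ 2), ← norm_real]
  push_cast; rfl

theorem one_add_sq_ne (k : ℤ) : (1 + (k : ℂ) ^ 2) ≠ 0 := by
  rw [← norm_pos_iff, norm_one_add_sq]; positivity

/-- symbol of the correction of the factorisation -/
noncomputable def ccB (a b s : ℝ) (A A' : ℝ → ℂ) (k : ℤ) : CB :=
  mkB a b fun w => cc (kp s k) (A w) (A' w)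

/-- correction of the factorisation -/
noncomputable def Cor (a b s : ℝ) (A A' : ℝ → ℂ) (x : WA) : WA :=
  ofSeq fun k => (1 + (k : ℂ) ^ 2)⁻¹ • (ccB a b s A A' k * x.co k)

namespace Coef
variable {a b ε s C : ℝ} {A A' : ℝ → ℂ} {τ ρ : ℤ → ℝ} {d σ ω : ℝ → ℝ}

theorem cont_nn (H : Coef a b A A' ε) (κ : ℝ) : ContinuousOn (fun w => nn κ (A w)) (Icc a b) :=
  fun _ hw => (H.hasDeriv_nn κ hw).continuousWithinAt

theorem cont_cc (H : Coef a b A A' ε) (κ : ℝ) :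
    ContinuousOn (fun w => cc κ (A w) (A' w)) (Icc a b) := by
  have h1 := H.cont_nn κ
  have h2 : ContinuousOn (fun w => nd κ (A w) (A' w)) (Icc a b) := by
    unfold nd
    split_ifs with h
    · exact (continuousOn_const.mul H.cA').div (continuousOn_const.add (continuousOn_const.mul h1))
        fun w hw => nn_ne h (H.re w hw)
    · exact continuousOn_const.mul H.cA'
  exact continuousOn_const.sub (((h1.add (h1.pow 2)).sub h2).div H.cA
    fun w hw => norm_pos_iff.1 (H.A0 hw))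

theorem cont_sqrt (H : Coef a b A A' ε) : ContinuousOn (fun w => Complex.sqrt (A w)) (Icc a b) :=
  continuousOn_sqrt.comp H.cA fun w hw => Or.inl (H.re w hw)

theorem cc_div_le (H : Coef a b A A' ε) (hs : s = -2 ∨ s = 2) (k : ℤ) {w : ℝ} (hw : w ∈ Icc a b) :
    ‖(1 + (k : ℂ) ^ 2)⁻¹ * cc (kp s k) (A w) (A' w)‖ ≤ 12 * ε * dl A w := by
  rw [norm_mul, norm_inv, norm_one_add_sq, inv_mul_le_iff₀ (by positivity)]
  have h1 := H.cc_le (kp_ge hs k) hw
  have h2 := mul_le_mul_of_nonneg_left (kp_max hs k).2.1 (mul_nonneg H.e0 (H.dl_pos hw).le)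
  nlinarith

theorem norm_ccB_le (H : Coef a b A A' ε) (hs : s = -2 ∨ s = 2) (k : ℤ) (y : CB) :
    ‖(1 + (k : ℂ) ^ 2)⁻¹ • (ccB a b s A A' k * y)‖ ≤ ‖y‖ := by
  refine (BoundedContinuousFunction.norm_le (norm_nonneg _)).2 fun w => ?_
  have hw := cl_mem H.le w
  simp only [BoundedContinuousFunction.smul_apply, BoundedContinuousFunction.mul_apply,
    smul_eq_mul, ccB, mkB_apply H.le (H.cont_cc _)]
  rw [← mul_assoc, norm_mul]
  have h1 := H.cc_div_le hs k hw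
  have h2 : 12 * ε * dl A (cl a b w) ≤ 1 := by nlinarith [H.dl_le hw, H.dl_pos hw, H.e0, H.e1]
  nlinarith [y.norm_coe_le_norm w, norm_nonneg (y w), norm_nonneg y]

theorem co_Cor (H : Coef a b A A' ε) (hs : s = -2 ∨ s = 2) (x : WA) (k : ℤ) :
    (Cor a b s A A' x).co k = (1 + (k : ℂ) ^ 2)⁻¹ • (ccB a b s A A' k * x.co k) :=
  co_ofSeq (Summable.of_nonneg_of_le (fun _ => norm_nonneg _) (fun k => H.norm_ccB_le hs k _)
    x.summable) k

theorem co_Cor' (H : Coef a b A A' ε) (hs : s = -2 ∨ s = 2) (x : WA) (k : ℤ) {w : ℝ}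
    (hw : w ∈ Icc a b) : (Cor a b s A A' x).co k w =
      (1 + (k : ℂ) ^ 2)⁻¹ * cc (kp s k) (A w) (A' w) * x.co k w := by
  simp only [H.co_Cor hs, BoundedContinuousFunction.smul_apply,
    BoundedContinuousFunction.mul_apply, smul_eq_mul, ccB, mkB_of_mem (H.cont_cc _) hw, mul_assoc]

theorem norm_Cor_le (H : Coef a b A A' ε) (hs : s = -2 ∨ s = 2) (x : WA) :
    ‖Cor a b s A A' x‖ ≤ ‖x‖ := by
  rw [x.norm_eq]
  exact norm_le_of x.summable fun k => by rw [H.co_Cor hs]; exact H.norm_ccB_le hs k _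

theorem bd_Cor (H : Coef a b A A' ε) (O : GB a b s A τ ρ d σ ω C) {x : WA} {B : ℝ}
    (h : Bd (Icc a b) σ ω x B) :
    Bd (Icc a b) σ (fun w => d w * ω w) (Cor a b s A A' x) (12 * ε * B) := by
  have e0 := H.e0
  refine h.of_le (by positivity) fun k w hw c hc hx => ?_
  rw [H.co_Cor' O.hs x k hw, norm_mul]
  refine (mul_le_mul (H.cc_div_le O.hs k hw) hx (norm_nonneg _)
    (mul_nonneg (by positivity) (H.dl_pos hw).le)).trans ?_
  have h1 := O.pos w hw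
  have h2 : dl A w * wt σ ω k w ≤ wt σ (fun w => d w * ω w) k w := by
    unfold wt; split_ifs
    · exact mul_le_of_le_one_left h1.1.le (H.dl_le hw)
    · exact mul_le_mul_of_nonneg_right (O.dlo w hw) h1.2.le
  nlinarith [mul_le_mul_of_nonneg_left h2 (mul_nonneg e0 hc)]

theorem co_Cor_jet (H : Coef a b A A' ε) (hs : s = -2 ∨ s = 2) {J : Fin 6 → WA}
    (h : Jet a b A J) (k : ℤ) {w : ℝ} (hw : w ∈ Icc a b) :
    (Cor a b s A A' (J 0 - J 2)).co k w = cc (kp s k) (A w) (A' w) * (J 0).co k w := by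
  rw [H.co_Cor' hs _ k hw, co_sub, BoundedContinuousFunction.sub_apply, h.t2' k hw]
  have := one_add_sq_ne k
  field_simp
  ring

/-- a priori estimate -/
theorem apriori (H : Coef a b A A' ε) (O : GB a b s A τ ρ d σ ω C) (hε : 480 * C * ε ≤ 1)
    {J : Fin 6 → WA} {f ξ D0 D1 : WA} {Bf Bξ B0 B1 : ℝ} (h : Jet a b A J)
    (hf : WEq (Icc a b) (Lm s J) f)
    (dir : ∀ k : ℤ, (1 + (k : ℂ) ^ 2) * (J 0).co k (τ k) = ξ.co k (τ k))
    (rob : ∀ k : ℤ, (1 + |k| * Complex.sqrt (A b)) * ((J 3).co k b - (J 0).co k b) =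
      D0.co k b - I * k.sign * D1.co k b)
    (bf : Bd (Icc a b) σ (fun w => d w * ω w) f Bf) (bξ : BdX τ ρ ξ Bξ)
    (b0 : Bd {b} σ ω D0 B0) (b1 : Bd {b} σ ω D1 B1) (i : Fin 6) :
    Bd (Icc a b) σ ω (J i) (20 * C * (Bf + Bξ + B0 + B1)) := by
  refine (absorb H.le O.pos O.cont (c := 10 * C * (Bf + Bξ + B0 + B1)) (fun B hB i => ?_) i).mono
    (le_of_eq (by ring))
  have hg := bf.add (H.bd_Cor O ((hB 0).sub (hB 2)))
  have e : ∀ k, ∀ w ∈ Icc a b, (f + Cor a b s A A' (J 0 - J 2)).co k w =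
      f.co k w + cc (kp s k) (A w) (A' w) * (J 0).co k w := fun k w hw => by
    rw [co_add, BoundedContinuousFunction.add_apply, H.co_Cor_jet O.hs h k hw]
  obtain ⟨c, c0, c1, c2, c3⟩ := H.seq_est O (j := fun k i => (J i).co k)
    (g := f + Cor a b s A A' (J 0 - J 2))
    (fun k => ⟨h.d0 k, fun w hw => by rw [e k w hw]; exact (h.mEq H hf k).hP w hw⟩)
    (fun k w hw => by simpa using h.t1 k w hw) (fun k w hw => h.t2' k hw)
    (fun k w hw => by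
      have h1 := hf k w hw
      simp only [Lm, co_sub, co_add, co_smul, BoundedContinuousFunction.sub_apply,
        BoundedContinuousFunction.add_apply, BoundedContinuousFunction.smul_apply, smul_eq_mul,
        h.t2' k hw] at h1
      rw [e k w hw, ← h1]
      simp only [kp]; push_cast; ring)
    h.t5 dir rob hg bξ b0 b1
  refine ⟨c, c0, c1, c2.trans ?_, c3 i⟩
  nlinarith [mul_le_mul_of_nonneg_right hε (hB 0).nonneg]

end Coef

theorem Jet.rob {a b : ℝ} (hab : a ≤ b) {A : ℝ → ℂ} {J : Fin 6 → WA} (h : Jet a b A J) (k : ℤ) :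
    (1 + |k| * Complex.sqrt (A b)) * ((J 3).co k b - (J 0).co k b) =
      (J 3 - J 0).co k b - I * k.sign * (J 5 - Complex.sqrt (A b) • J 1).co k b := by
  have hb := right_mem_Icc.2 hab
  rw [rob_rhs (t := Complex.sqrt (A b)) k]
  · rfl
  · simp only [co_sub, co_smul, BoundedContinuousFunction.sub_apply,
      BoundedContinuousFunction.smul_apply, smul_eq_mul, h.t5 k b hb, h.t1 k b hb, Pi.one_apply]
    ring

end Vale.Agent.P218EN
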