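import Mathlib

/-! The Wiener algebra `l^1(Z; BC(R, C))` under convolution. -/

namespace Vale.Agent.P218EN
open Filter Topology Set Complex

abbrev CB := BoundedContinuousFunction ℝ ℂ

/-- absolutely summable Fourier series in `θ` with bounded continuous coefficients in `w` -/
def WA : Type := lp (fun _ : ℤ => CB) 1

noncomputable instance : NormedAddCommGroup WA :=
  inferInstanceAs (NormedAddCommGroup (lp (fun _ : ℤ => CB) 1))
noncomputable instance : NormedSpace ℂ WA :=
  inferInstanceAs (NormedSpace ℂ (lp (fun _ : ℤ => CB) 1))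
instance : CompleteSpace WA := inferInstanceAs (CompleteSpace (lp (fun _ : ℤ => CB) 1))

theorem conv_facts {R : Type*} [NormedRing R] [CompleteSpace R] {a b : ℤ → R}
    (ha : Summable fun k => ‖a k‖) (hb : Summable fun k => ‖b k‖) :
    (∀ k, Summable fun j => a j * b (k - j)) ∧ (Summable fun k => ∑' j, a j * b (k - j)) ∧
      ∑' k, ∑' j, a j * b (k - j) = (∑' k, a k) * ∑' k, b k := by
  let e : ℤ × ℤ ≃ ℤ × ℤ :=
    ⟨fun z => (z.2, z.1 - z.2), fun z => (z.1 + z.2, z.1), fun z => by simp, fun z => by simp⟩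
  have h1 : Summable fun z : ℤ × ℤ => a z.1 * b z.2 := summable_mul_of_summable_norm ha hb
  have h2 : Summable fun z : ℤ × ℤ => a z.2 * b (z.1 - z.2) := (e.summable_iff).2 h1
  refine ⟨fun k => h2.prod_factor k, h2.prod, ?_⟩
  rw [tsum_mul_tsum_of_summable_norm ha hb, ← e.tsum_eq]
  exact h2.tsum_prod.symm

namespace WA

/-- the `k`-th coefficient -/
def co (x : WA) (k : ℤ) : CB := (show lp (fun _ : ℤ => CB) 1 from x) k

theorem summable (x : WA) : Summable fun k => ‖x.co k‖ := by
  have := (lp.memℓp (show lp (fun _ : ℤ => CB) 1 from x)).summable (by norm_num)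
  simp only [ENNReal.toReal_one, Real.rpow_one] at this
  exact this

theorem norm_eq (x : WA) : ‖x‖ = ∑' k, ‖x.co k‖ := by
  have := lp.norm_eq_tsum_rpow (by norm_num) (show lp (fun _ : ℤ => CB) 1 from x)
  simp only [ENNReal.toReal_one, Real.rpow_one, div_one] at this
  exact this

theorem ext' {x y : WA} (h : ∀ k, x.co k = y.co k) : x = y := lp.ext (funext h)

theorem ext'' {x y : WA} (h : ∀ k w, x.co k w = y.co k w) : x = y :=
  ext' fun k => BoundedContinuousFunction.ext (h k)

/-- constructor -/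
def mk (f : ℤ → CB) (h : Summable fun k => ‖f k‖) : WA :=
  (⟨f, memℓp_gen (by simpa using h)⟩ : lp (fun _ : ℤ => CB) 1)

@[simp] theorem co_mk (f : ℤ → CB) (h : Summable fun k => ‖f k‖) (k : ℤ) : (mk f h).co k = f k :=
  rfl

open Classical in
/-- constructor without side condition -/
noncomputable def ofSeq (f : ℤ → CB) : WA := if h : Summable fun k => ‖f k‖ then mk f h else 0

theorem co_ofSeq {f : ℤ → CB} (h : Summable fun k => ‖f k‖) (k : ℤ) : (ofSeq f).co k = f k := by
  rw [ofSeq, dif_pos h, co_mk]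

@[simp] theorem co_add (x y : WA) (k : ℤ) : (x + y).co k = x.co k + y.co k := rfl
@[simp] theorem co_sub (x y : WA) (k : ℤ) : (x - y).co k = x.co k - y.co k := rfl
@[simp] theorem co_neg (x : WA) (k : ℤ) : (-x).co k = -x.co k := rfl
@[simp] theorem co_zero (k : ℤ) : (0 : WA).co k = 0 := rfl
@[simp] theorem co_smul (c : ℂ) (x : WA) (k : ℤ) : (c • x).co k = c • x.co k := rfl

theorem norm_co_le (x : WA) (k : ℤ) : ‖x.co k‖ ≤ ‖x‖ := lp.norm_apply_le_norm (by norm_num) _ k

theorem norm_co_apply_le (x : WA) (k : ℤ) (w : ℝ) : ‖x.co k w‖ ≤ ‖x‖ :=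
  ((x.co k).norm_coe_le_norm w).trans (x.norm_co_le k)

/-- coefficient as a bounded linear map -/
noncomputable def coL (k : ℤ) : WA →L[ℂ] CB :=
  LinearMap.mkContinuous ⟨⟨fun x => x.co k, fun _ _ => rfl⟩, fun _ _ => rfl⟩ 1 fun x => by
    rw [one_mul]; exact x.norm_co_le k

@[simp] theorem coL_apply (k : ℤ) (x : WA) : coL k x = x.co k := rfl

theorem norm_le_of {x : WA} {c : ℤ → ℝ} (hc : Summable c) (h : ∀ k, ‖x.co k‖ ≤ c k) :
    ‖x‖ ≤ ∑' k, c k := by
  rw [norm_eq]; exact x.summable.tsum_le_tsum h hc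

/-- one mode -/
noncomputable def single (k : ℤ) : CB →L[ℂ] WA :=
  lp.singleContinuousLinearMap ℂ (fun _ : ℤ => CB) 1 k

theorem co_single (k j : ℤ) (c : CB) : (single k c).co j = if j = k then c else 0 := by
  change (Pi.single k c : ℤ → CB) j = _
  rw [Pi.single_apply]

theorem norm_single (k : ℤ) (c : CB) : ‖single k c‖ = ‖c‖ :=
  lp.norm_single (E := fun _ : ℤ => CB) (by norm_num) k c

theorem hasSum_single (x : WA) : HasSum (fun k => single k (x.co k)) x :=
  lp.hasSum_single (E := fun _ : ℤ => CB) (by norm_num) x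

/-- the character `exp (i k θ)` -/
noncomputable def ch (k : ℤ) (θ : ℝ) : ℂ := exp (k * θ * I)

theorem norm_ch (k : ℤ) (θ : ℝ) : ‖ch k θ‖ = 1 := by
  have : (k : ℂ) * θ * I = ((k * θ : ℝ) : ℂ) * I := by push_cast; ring
  rw [ch, this, norm_exp_ofReal_mul_I]

theorem ch_add (k j : ℤ) (θ : ℝ) : ch (k + j) θ = ch k θ * ch j θ := by
  rw [ch, ch, ch, ← exp_add]; congr 1; push_cast; ring

@[simp] theorem ch_zero (θ : ℝ) : ch 0 θ = 1 := by simp [ch]

theorem continuous_ch (k : ℤ) : Continuous (ch k) := by unfold ch; fun_prop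

theorem integral_ch (k : ℤ) :
    ∫ θ in (0 : ℝ)..2 * Real.pi, ch k θ = if k = 0 then (2 * Real.pi : ℂ) else 0 := by
  split_ifs with h
  · subst h; simp
  · have hk : (k : ℂ) * I ≠ 0 := mul_ne_zero (by exact_mod_cast h) I_ne_zero
    have : ∀ θ : ℝ, ch k θ = exp (k * I * θ) := fun θ => by rw [ch]; congr 1; ring
    simp only [this]
    rw [integral_exp_mul_complex hk]
    have e : (k : ℂ) * I * ((2 * Real.pi : ℝ) : ℂ) = k * (2 * Real.pi * I) := by push_cast; ring
    rw [e, exp_int_mul_two_pi_mul_I]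
    simp

theorem summable_ev (x : WA) (w θ : ℝ) : Summable fun k => ‖x.co k w * ch k θ‖ :=
  Summable.of_nonneg_of_le (fun _ => norm_nonneg _)
    (fun k => by rw [norm_mul, norm_ch, mul_one]; exact (x.co k).norm_coe_le_norm w) x.summable

/-- the function of `(w, θ)` represented by `x` -/
noncomputable def ev (x : WA) (w θ : ℝ) : ℂ := ∑' k, x.co k w * ch k θ

theorem hasSum_ev (x : WA) (w θ : ℝ) : HasSum (fun k => x.co k w * ch k θ) (x.ev w θ) :=
  (x.summable_ev w θ).of_norm.hasSum

theorem norm_ev_le (x : WA) (w θ : ℝ) : ‖x.ev w θ‖ ≤ ‖x‖ := by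
  rw [norm_eq]
  exact tsum_of_norm_bounded x.summable.hasSum fun k => by
    rw [norm_mul, norm_ch, mul_one]; exact (x.co k).norm_coe_le_norm w

theorem continuous_ev (x : WA) : Continuous fun z : ℝ × ℝ => x.ev z.1 z.2 := by
  refine continuous_tsum (fun k => ?_) x.summable fun k z => ?_
  · exact ((x.co k).continuous.comp continuous_fst).mul ((continuous_ch k).comp continuous_snd)
  · rw [norm_mul, norm_ch, mul_one]; exact (x.co k).norm_coe_le_norm _

theorem integral_ev (x : WA) (w : ℝ) (k : ℤ) :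
    ∫ θ in (0 : ℝ)..2 * Real.pi, x.ev w θ * ch (-k) θ = 2 * Real.pi * x.co k w := by
  have h := intervalIntegral.hasSum_integral_of_dominated_convergence (μ := MeasureTheory.volume)
    (a := 0) (b := 2 * Real.pi) (F := fun j θ => x.co j w * ch (j - k) θ)
    (f := fun θ => x.ev w θ * ch (-k) θ) (fun j _ => ‖x.co j‖)
    (fun j => (continuous_const.mul (continuous_ch _)).aestronglyMeasurable)
    (fun j => Eventually.of_forall fun θ _ => by
      rw [norm_mul, norm_ch, mul_one]; exact (x.co j).norm_coe_le_norm w)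
    (Eventually.of_forall fun _ _ => x.summable) intervalIntegrable_const
    (Eventually.of_forall fun θ _ => by
      simpa only [sub_eq_add_neg, ch_add, mul_assoc] using (x.hasSum_ev w θ).mul_right (ch (-k) θ))
  simp only [intervalIntegral.integral_const_mul, integral_ch, sub_eq_zero] at h
  rw [← h.tsum_eq, tsum_eq_single k fun j hj => by simp [hj]]
  simp [mul_comm]

theorem ev_inj {x y : WA} (h : ∀ w θ, x.ev w θ = y.ev w θ) : x = y := by
  refine ext'' fun k w => ?_
  have h1 := x.integral_ev w k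
  simp only [h, integral_ev] at h1
  have : (2 * Real.pi : ℂ) ≠ 0 := by
    have := Real.pi_ne_zero
    exact mul_ne_zero two_ne_zero (by exact_mod_cast this)
  exact (mul_left_cancel₀ this h1).symm

theorem ev_add (x y : WA) (w θ : ℝ) : (x + y).ev w θ = x.ev w θ + y.ev w θ := by
  refine HasSum.tsum_eq ?_
  simpa [add_mul] using (x.hasSum_ev w θ).add (y.hasSum_ev w θ)

theorem ev_smul (c : ℂ) (x : WA) (w θ : ℝ) : (c • x).ev w θ = c * x.ev w θ := by
  refine HasSum.tsum_eq ?_
  simpa [mul_assoc] using (x.hasSum_ev w θ).mul_left c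

theorem ev_single (k : ℤ) (c : CB) (w θ : ℝ) : (single k c).ev w θ = c w * ch k θ := by
  rw [ev, tsum_eq_single k fun j hj => by simp [co_single, hj]]
  simp [co_single]

theorem norm_conv_le (x y : WA) (k : ℤ) :
    ‖∑' j, x.co j * y.co (k - j)‖ ≤ ∑' j, ‖x.co j‖ * ‖y.co (k - j)‖ :=
  tsum_of_norm_bounded ((conv_facts (a := fun j => ‖x.co j‖) (b := fun j => ‖y.co j‖)
    (by simpa using x.summable) (by simpa using y.summable)).1 k).hasSum fun _ => norm_mul_le _ _

noncomputable instance : Mul WA := ⟨fun x y => mk (fun k => ∑' j, x.co j * y.co (k - j))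
  (Summable.of_nonneg_of_le (fun _ => norm_nonneg _) (norm_conv_le x y)
    (conv_facts (a := fun j => ‖x.co j‖) (b := fun j => ‖y.co j‖)
      (by simpa using x.summable) (by simpa using y.summable)).2.1)⟩

noncomputable instance : One WA := ⟨single 0 1⟩

theorem co_mul (x y : WA) (k : ℤ) : (x * y).co k = ∑' j, x.co j * y.co (k - j) := rfl

theorem hasSum_co_mul (x y : WA) (k : ℤ) (w : ℝ) :
    HasSum (fun j => x.co j w * y.co (k - j) w) ((x * y).co k w) :=
  ((conv_facts x.summable y.summable).1 k).hasSum.mapL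
    (BoundedContinuousFunction.evalCLM ℂ w : CB →L[ℂ] ℂ)

theorem ev_mul (x y : WA) (w θ : ℝ) : (x * y).ev w θ = x.ev w θ * y.ev w θ := by
  rw [ev, ev, ev, ← (conv_facts (x.summable_ev w θ) (y.summable_ev w θ)).2.2]
  refine tsum_congr fun k => ?_
  rw [← (hasSum_co_mul x y k w).tsum_eq, ← tsum_mul_right]
  refine tsum_congr fun j => ?_
  have : ch k θ = ch j θ * ch (k - j) θ := by rw [← ch_add]; congr 1; ring
  rw [this]; ring

theorem ev_one (w θ : ℝ) : (1 : WA).ev w θ = 1 := by
  change (single 0 1).ev w θ = 1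
  simp [ev_single]

theorem ev_zero (w θ : ℝ) : (0 : WA).ev w θ = 0 := by simp [ev]

theorem norm_mul_le' (x y : WA) : ‖x * y‖ ≤ ‖x‖ * ‖y‖ := by
  have h := conv_facts (a := fun j => ‖x.co j‖) (b := fun j => ‖y.co j‖)
    (by simpa using x.summable) (by simpa using y.summable)
  rw [x.norm_eq, y.norm_eq, ← h.2.2]
  exact norm_le_of h.2.1 (norm_conv_le x y)

noncomputable instance : NormedCommRing WA :=
  { (inferInstance : NormedAddCommGroup WA), (inferInstance : Mul WA), (inferInstance : One WA) with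
    left_distrib := fun a b c => ev_inj fun w θ => by simp only [ev_mul, ev_add]; ring
    right_distrib := fun a b c => ev_inj fun w θ => by simp only [ev_mul, ev_add]; ring
    zero_mul := fun a => ev_inj fun w θ => by simp only [ev_mul, ev_zero]; ring
    mul_zero := fun a => ev_inj fun w θ => by simp only [ev_mul, ev_zero]; ring
    mul_assoc := fun a b c => ev_inj fun w θ => by simp only [ev_mul]; ring
    one_mul := fun a => ev_inj fun w θ => by simp only [ev_mul, ev_one]; ring
    mul_one := fun a => ev_inj fun w θ => by simp only [ev_mul, ev_one]; ring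
    mul_comm := fun a b => ev_inj fun w θ => by simp only [ev_mul]; ring
    norm_mul_le := norm_mul_le' }

noncomputable instance : Algebra ℂ WA :=
  Algebra.ofModule (fun r x y => ev_inj fun w θ => by simp only [ev_mul, ev_smul]; ring)
    (fun r x y => ev_inj fun w θ => by simp only [ev_mul, ev_smul]; ring)

noncomputable instance : NormedAlgebra ℂ WA := ⟨fun c x => (norm_smul c x).le⟩

instance : NormOneClass WA := ⟨by
  change ‖single 0 1‖ = 1
  rw [norm_single, norm_one]⟩

/-- evaluation as an algebra homomorphism -/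
noncomputable def evA (w θ : ℝ) : WA →ₐ[ℂ] ℂ :=
  AlgHom.mk' ⟨⟨⟨fun x => x.ev w θ, ev_one w θ⟩, fun x y => ev_mul x y w θ⟩, ev_zero w θ,
    fun x y => ev_add x y w θ⟩ fun c x => ev_smul c x w θ

@[simp] theorem evA_apply (w θ : ℝ) (x : WA) : evA w θ x = x.ev w θ := rfl

/-- evaluation as a bounded linear map -/
noncomputable def evL (w θ : ℝ) : WA →L[ℂ] ℂ :=
  (evA w θ).toLinearMap.mkContinuous 1 fun x => by simpa using x.norm_ev_le w θ

@[simp] theorem evL_apply (w θ : ℝ) (x : WA) : evL w θ x = x.ev w θ := rfl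

/-- functions of `w` only -/
noncomputable def sc (c : CB) : WA := single 0 c

theorem ev_sc (c : CB) (w θ : ℝ) : (sc c).ev w θ = c w := by simp [sc, ev_single]

theorem co_sc (c : CB) (k : ℤ) : (sc c).co k = if k = 0 then c else 0 := co_single 0 k c

theorem co_sc_mul (c : CB) (x : WA) (k : ℤ) (w : ℝ) : (sc c * x).co k w = c w * x.co k w := by
  rw [← (hasSum_co_mul (sc c) x k w).tsum_eq, tsum_eq_single 0 fun j hj => by simp [co_sc, hj]]
  simp [co_sc]

theorem co_one (k : ℤ) : (1 : WA).co k = if k = 0 then 1 else 0 := co_single 0 k 1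

/-- holomorphy of `WA`-valued maps is tested on the coefficients -/
theorem tendsto_trunc (x : WA) :
    Tendsto (fun s : Finset ℤ => ∑ k ∈ s, single k (x.co k)) atTop (𝓝 x) := x.hasSum_single

theorem norm_trunc_le (x : WA) (s : Finset ℤ) : ‖∑ k ∈ s, single k (x.co k)‖ ≤ ‖x‖ := by
  refine (norm_sum_le _ _).trans ?_
  simp only [norm_single]
  rw [norm_eq]
  exact x.summable.sum_le_tsum s fun _ _ => norm_nonneg _

end WA
end Vale.Agent.P218EN
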