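import Mathlib

/-! Holomorphy tools in complex Banach spaces: remainder bound, Vitali, norming families. -/

namespace Vale.Agent.P218EN
open Metric Filter Topology Set Asymptotics

variable {E F : Type*} [NormedAddCommGroup E] [NormedSpace ℂ E] [NormedAddCommGroup F]
  [NormedSpace ℂ F]

omit [NormedSpace ℂ E] [NormedSpace ℂ F] in
theorem mapsTo_of_bound {f : E → F} {x : E} {r M : ℝ} (hr : 0 < r)
    (hM : ∀ y ∈ ball x r, ‖f y‖ ≤ M) : MapsTo f (ball x r) (closedBall (f x) (2 * M)) := by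
  intro y hy
  rw [mem_closedBall, dist_eq_norm]
  have := norm_sub_le (f y) (f x)
  linarith [hM y hy, hM x (mem_ball_self hr)]

theorem lip_le {f : E → F} {x : E} {r M : ℝ} (hd : DifferentiableOn ℂ f (ball x r))
    (hM : ∀ y ∈ ball x r, ‖f y‖ ≤ M) {z : E} (hz : z ∈ ball x r) :
    ‖f z - f x‖ ≤ 2 * M / r * ‖z - x‖ := by
  have hr : 0 < r := nonempty_ball.1 ⟨z, hz⟩
  simpa [dist_eq_norm] using
    Complex.dist_le_div_mul_dist_of_mapsTo_ball hd (mapsTo_of_bound hr hM) hz

theorem fderiv_le {f : E → F} {x : E} {r M : ℝ} (hr : 0 < r)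
    (hd : DifferentiableOn ℂ f (ball x r)) (hM : ∀ y ∈ ball x r, ‖f y‖ ≤ M) :
    ‖fderiv ℂ f x‖ ≤ 2 * M / r :=
  Complex.norm_fderiv_le_div_of_mapsTo_ball hd (mapsTo_of_bound hr hM) hr

theorem rem_le {f : E → F} {x : E} {r M : ℝ} (hd : DifferentiableOn ℂ f (ball x r))
    (hM : ∀ y ∈ ball x r, ‖f y‖ ≤ M) {v : E} (hv : ‖v‖ < r) :
    ‖f (x + v) - f x - fderiv ℂ f x v‖ ≤ 4 * M / r ^ 2 * ‖v‖ ^ 2 := by
  have hr : 0 < r := (norm_nonneg v).trans_lt hv
  have hM0 : 0 ≤ M := (norm_nonneg _).trans (hM x (mem_ball_self hr))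
  set L := fderiv ℂ f x with hL
  have hLn : ‖L‖ ≤ 2 * M / r := fderiv_le hr hd hM
  have hdx : HasFDerivAt f L x := (hd.differentiableAt (ball_mem_nhds x hr)).hasFDerivAt
  have hg : DifferentiableOn ℂ (fun y => f y - L (y - x)) (ball x r) := by fun_prop
  have hmaps : MapsTo (fun y => f y - L (y - x)) (ball x r)
      (closedBall ((fun y => f y - L (y - x)) x) (4 * M)) := by
    intro y hy
    have h1 := mapsTo_of_bound hr hM hy
    rw [mem_closedBall, dist_eq_norm] at h1 ⊢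
    have h2 : ‖L (y - x)‖ ≤ 2 * M := by
      have hy' : ‖y - x‖ ≤ r := by rw [← dist_eq_norm]; exact (mem_ball.1 hy).le
      calc ‖L (y - x)‖ ≤ ‖L‖ * ‖y - x‖ := L.le_opNorm _
        _ ≤ (2 * M / r) * r := by gcongr
        _ = 2 * M := by field_simp
    have h3 : f y - L (y - x) - (f x - L (x - x)) = (f y - f x) - L (y - x) := by
      simp only [sub_self, map_zero]; abel
    rw [h3]
    linarith [norm_sub_le (f y - f x) (L (y - x))]
  have hn : ((fun y => f y - L (y - x)) · - (fun y => f y - L (y - x)) x) =o[𝓝 x]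
      (fun w => ‖w - x‖ ^ 1) := by
    have := hdx.isLittleO
    simp only [pow_one, isLittleO_norm_right]
    refine this.congr_left fun y => ?_
    simp only [sub_self, map_zero]; abel
  have hz : x + v ∈ ball x r := by simpa using hv
  have := Complex.dist_le_mul_div_pow_of_mapsTo_ball_of_isLittleO hg hmaps hn hz
  simp only [dist_eq_norm, add_sub_cancel_left, sub_self, map_zero, sub_zero] at this
  calc _ = ‖f (x + v) - L v - f x‖ := by congr 1; abel
    _ ≤ _ := this
    _ = _ := by rw [show (1 + 1 : ℕ) = 2 from rfl]; field_simp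

/-- quasi-linearity of the increments at `x` -/
structure QL (f : E → F) (x : E) (r C : ℝ) : Prop where
  lip : ∀ v, ‖v‖ < r → ‖f (x + v) - f x‖ ≤ C * ‖v‖
  hom : ∀ (c : ℂ) v, ‖c‖ ≤ 1 → ‖v‖ < r →
    ‖f (x + c • v) - f x - c • (f (x + v) - f x)‖ ≤ C * ‖c‖ * ‖v‖ ^ 2
  add : ∀ u v, ‖u‖ + ‖v‖ < r →
    ‖f (x + (u + v)) - f x - (f (x + u) - f x) - (f (x + v) - f x)‖ ≤ C * (‖u‖ + ‖v‖) ^ 2

theorem ql_of_diff {f : E → F} {x : E} {r M : ℝ} (hr : 0 < r)
    (hd : DifferentiableOn ℂ f (ball x r)) (hM : ∀ y ∈ ball x r, ‖f y‖ ≤ M) :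
    QL f x r (2 * M / r + 12 * M / r ^ 2) := by
  have hM0 : 0 ≤ M := (norm_nonneg _).trans (hM x (mem_ball_self hr))
  have h1 : 0 ≤ 2 * M / r := by positivity
  have h2 : 0 ≤ M / r ^ 2 := by positivity
  have e4 : 4 * M / r ^ 2 = 4 * (M / r ^ 2) := by ring
  have e12 : 12 * M / r ^ 2 = 12 * (M / r ^ 2) := by ring
  refine ⟨fun v hv => ?_, fun c v hc hv => ?_, fun u v huv => ?_⟩
  · have := lip_le hd hM (z := x + v) (by simpa using hv)
    rw [add_sub_cancel_left] at this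
    rw [e12]
    nlinarith [norm_nonneg v]
  · have hcv : ‖c • v‖ < r := by
      rw [norm_smul]; nlinarith [norm_nonneg v, norm_nonneg c]
    have a1 := rem_le hd hM hcv
    have a2 := rem_le hd hM hv
    have e : f (x + c • v) - f x - c • (f (x + v) - f x) =
        (f (x + c • v) - f x - fderiv ℂ f x (c • v)) -
          c • (f (x + v) - f x - fderiv ℂ f x v) := by
      simp only [map_smul, smul_sub]; abel
    rw [e]
    refine (norm_sub_le _ _).trans ?_
    rw [norm_smul]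
    rw [norm_smul, e4] at a1
    rw [e4] at a2
    rw [e12]
    have hc0 := norm_nonneg c
    have b1 : ‖c‖ * ‖f (x + v) - f x - fderiv ℂ f x v‖ ≤ ‖c‖ * (4 * (M / r ^ 2) * ‖v‖ ^ 2) := by
      gcongr
    have b2 : (‖c‖ * ‖v‖) ^ 2 ≤ ‖c‖ * ‖v‖ ^ 2 := by
      rw [mul_pow]; gcongr; nlinarith
    have b3 : 0 ≤ ‖c‖ * ‖v‖ ^ 2 := by positivity
    nlinarith [mul_le_mul_of_nonneg_left b2 h2, mul_nonneg h1 b3, mul_nonneg h2 b3]
  · have hu : ‖u‖ < r := by linarith [norm_nonneg v]
    have hv : ‖v‖ < r := by linarith [norm_nonneg u]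
    have hs : ‖u + v‖ < r := (norm_add_le _ _).trans_lt huv
    have a1 := rem_le hd hM hu
    have a2 := rem_le hd hM hv
    have a3 := rem_le hd hM hs
    have e : f (x + (u + v)) - f x - (f (x + u) - f x) - (f (x + v) - f x) =
        (f (x + (u + v)) - f x - fderiv ℂ f x (u + v)) - (f (x + u) - f x - fderiv ℂ f x u) -
          (f (x + v) - f x - fderiv ℂ f x v) := by
      simp only [map_add]; abel
    rw [e]
    refine (norm_sub_le _ _).trans ((add_le_add_left (norm_sub_le _ _) _).trans ?_)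
    rw [e4] at a1 a2 a3
    rw [e12]
    have b1 : ‖u‖ ^ 2 ≤ (‖u‖ + ‖v‖) ^ 2 := by gcongr; linarith [norm_nonneg v]
    have b2 : ‖v‖ ^ 2 ≤ (‖u‖ + ‖v‖) ^ 2 := by gcongr; linarith [norm_nonneg u]
    have b3 : ‖u + v‖ ^ 2 ≤ (‖u‖ + ‖v‖) ^ 2 := by gcongr; exact norm_add_le _ _
    have b4 : 0 ≤ (‖u‖ + ‖v‖) ^ 2 := by positivity
    nlinarith [mul_le_mul_of_nonneg_left b1 h2, mul_le_mul_of_nonneg_left b2 h2,
      mul_le_mul_of_nonneg_left b3 h2, mul_nonneg h1 b4]

theorem QL.differentiableAt [CompleteSpace F] {f : E → F} {x : E} {r C : ℝ} (hr : 0 < r)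
    (h : QL f x r C) : DifferentiableAt ℂ f x := by
  have hC : ∀ v : E, ‖v‖ < r → 0 ≤ C * ‖v‖ := fun v hv => (norm_nonneg _).trans (h.lip v hv)
  set t : ℕ → ℂ := fun n => ((n : ℂ) + 1)⁻¹ with ht
  have htn : ∀ n, ‖t n‖ = 1 / ((n : ℝ) + 1) := fun n => by
    simp only [ht]; rw [norm_inv, one_div]; congr 1; exact_mod_cast Complex.norm_natCast (n + 1)
  have ht0 : ∀ n, t n ≠ 0 := fun n => by
    rw [← norm_pos_iff, htn]; positivity
  have htt : Tendsto (fun n => ‖t n‖) atTop (𝓝 0) := by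
    simp only [htn]; exact tendsto_one_div_add_atTop_nhds_zero_nat
  set q : ℕ → E → F := fun n v => (t n)⁻¹ • (f (x + t n • v) - f x) with hq
  have hsm : ∀ a : ℝ, ∀ᶠ n in atTop, ‖t n‖ * a < r := fun a => by
    have := htt.mul_const a
    rw [zero_mul] at this
    exact this.eventually (gt_mem_nhds hr)
  -- comparison of `q n v` with the increment at scale `s`
  have key : ∀ (s : ℂ) (v : E) n, s ≠ 0 → ‖t n‖ ≤ ‖s‖ → ‖s‖ * ‖v‖ < r →
      ‖q n v - s⁻¹ • (f (x + s • v) - f x)‖ ≤ C * ‖s‖ * ‖v‖ ^ 2 := by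
    intro s v n hs hts hsv
    have hs' : 0 < ‖s‖ := norm_pos_iff.2 hs
    have ht' : 0 < ‖t n‖ := norm_pos_iff.2 (ht0 n)
    have a := h.hom (t n / s) (s • v) (by rw [norm_div]; exact (div_le_one hs').2 hts)
      (by rwa [norm_smul])
    rw [smul_smul, div_mul_cancel₀ _ hs] at a
    have e : q n v - s⁻¹ • (f (x + s • v) - f x) =
        (t n)⁻¹ • (f (x + t n • v) - f x - (t n / s) • (f (x + s • v) - f x)) := by
      simp only [hq]
      rw [smul_sub (t n)⁻¹ (f (x + t n • v) - f x), smul_smul]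
      congr 2
      have := ht0 n
      field_simp
    rw [e, norm_smul, norm_inv]
    calc _ ≤ ‖t n‖⁻¹ * (C * ‖t n / s‖ * ‖s • v‖ ^ 2) := by gcongr
      _ = _ := by rw [norm_div, norm_smul]; field_simp
  have hcau : ∀ v, CauchySeq (fun n => q n v) := by
    intro v
    rw [Metric.cauchySeq_iff']
    intro ε hε
    have h1 : Tendsto (fun n => C * ‖t n‖ * ‖v‖ ^ 2) atTop (𝓝 0) := by
      simpa using (htt.const_mul C).mul_const (‖v‖ ^ 2)
    obtain ⟨N, hN1, hN2⟩ := ((hsm ‖v‖).and (h1.eventually (gt_mem_nhds hε))).exists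
    refine ⟨N, fun n hn => ?_⟩
    rw [dist_eq_norm]
    refine (key (t N) v n (ht0 N) ?_ hN1).trans_lt hN2
    rw [htn, htn]
    gcongr
  choose L hL using fun v => cauchySeq_tendsto_of_complete (hcau v)
  have hlim : ∀ (s : ℂ) (v : E), s ≠ 0 → ‖s‖ * ‖v‖ < r →
      ‖L v - s⁻¹ • (f (x + s • v) - f x)‖ ≤ C * ‖s‖ * ‖v‖ ^ 2 := by
    intro s v hs hsv
    refine le_of_tendsto ((hL v).sub_const _).norm ?_
    filter_upwards [htt.eventually (ge_mem_nhds (norm_pos_iff.2 hs))] with n hn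
    exact key s v n hs hn hsv
  have hadd : ∀ u v, L (u + v) = L u + L v := by
    intro u v
    have h1 : Tendsto (fun n => q n (u + v) - q n u - q n v) atTop (𝓝 (L (u + v) - L u - L v)) :=
      ((hL _).sub (hL _)).sub (hL _)
    have h2 : Tendsto (fun n => q n (u + v) - q n u - q n v) atTop (𝓝 0) := by
      have h3 : Tendsto (fun n => C * ‖t n‖ * (‖u‖ + ‖v‖) ^ 2) atTop (𝓝 0) := by
        simpa using (htt.const_mul C).mul_const ((‖u‖ + ‖v‖) ^ 2)
      refine squeeze_zero_norm' ?_ h3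
      filter_upwards [hsm (‖u‖ + ‖v‖)] with n hn
      have a := h.add (t n • u) (t n • v) (by rw [norm_smul, norm_smul]; linarith)
      have ht' : 0 < ‖t n‖ := norm_pos_iff.2 (ht0 n)
      simp only [hq]
      rw [← smul_sub, ← smul_sub, norm_smul, norm_inv, smul_add]
      calc _ ≤ ‖t n‖⁻¹ * (C * (‖t n • u‖ + ‖t n • v‖) ^ 2) := by gcongr
        _ = _ := by rw [norm_smul, norm_smul]; field_simp
    have := tendsto_nhds_unique h1 h2
    rw [sub_sub, sub_eq_zero] at this
    exact this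
  have hsmul : ∀ (c : ℂ) v, L (c • v) = c • L v := by
    intro c v
    rcases eq_or_ne c 0 with rfl | hc
    · have := hadd 0 0
      simp only [add_zero, left_eq_add] at this
      simp [this]
    have h1 : Tendsto (fun n => c • L v - q n (c • v)) atTop (𝓝 (c • L v - L (c • v))) :=
      (hL _).const_sub _
    have h2 : Tendsto (fun n => c • L v - q n (c • v)) atTop (𝓝 0) := by
      have h3 : Tendsto (fun n => ‖c‖ * (C * (‖t n‖ * ‖c‖) * ‖v‖ ^ 2)) atTop (𝓝 0) := by
        simpa using (((htt.mul_const ‖c‖).const_mul C).mul_const (‖v‖ ^ 2)).const_mul ‖c‖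
      refine squeeze_zero_norm' ?_ h3
      filter_upwards [hsm (‖c‖ * ‖v‖)] with n hn
      have a := hlim (t n * c) v (mul_ne_zero (ht0 n) hc) (by rw [norm_mul]; linarith)
      have e : c • L v - q n (c • v) =
          c • (L v - (t n * c)⁻¹ • (f (x + (t n * c) • v) - f x)) := by
        simp only [hq]
        rw [smul_sub c, smul_smul, smul_smul]
        congr 2
        have := ht0 n
        field_simp
      rw [e, norm_smul]
      rw [norm_mul] at a
      gcongr
    have := tendsto_nhds_unique h1 h2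
    rw [sub_eq_zero] at this
    exact this.symm
  have hbd : ∀ v, ‖L v‖ ≤ C * ‖v‖ := by
    intro v
    refine le_of_tendsto (hL v).norm ?_
    filter_upwards [hsm ‖v‖] with n hn
    have ht' : 0 < ‖t n‖ := norm_pos_iff.2 (ht0 n)
    have a := h.lip (t n • v) (by rwa [norm_smul])
    simp only [hq]
    rw [norm_smul, norm_inv]
    calc _ ≤ ‖t n‖⁻¹ * (C * ‖t n • v‖) := by gcongr
      _ = _ := by rw [norm_smul]; field_simp
  let L' : E →L[ℂ] F := LinearMap.mkContinuous ⟨⟨L, hadd⟩, hsmul⟩ C hbd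
  refine ⟨L', ?_⟩
  rw [hasFDerivAt_iff_isLittleO_nhds_zero]
  have hb : (fun v : E => f (x + v) - f x - L' v) =O[𝓝 0] (fun v => ‖v‖ ^ 2) := by
    refine IsBigO.of_bound C ?_
    filter_upwards [ball_mem_nhds (0 : E) hr] with v hv
    have a := hlim 1 v one_ne_zero (by simpa using hv)
    simp only [inv_one, one_smul, norm_one, mul_one] at a
    rw [norm_sub_rev, Real.norm_of_nonneg (by positivity)]
    exact a
  exact hb.trans_isLittleO (isLittleO_norm_pow_id one_lt_two)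

/-- Vitali: a pointwise limit of uniformly bounded holomorphic maps is holomorphic -/
theorem differentiableOn_of_tendsto [CompleteSpace F] {ι : Type*} {l : Filter ι} [l.NeBot]
    {g : ι → E → F} {f : E → F} {U : Set E}
    (hb : ∀ x ∈ U, ∃ r M, 0 < r ∧ ball x r ⊆ U ∧
      ∀ᶠ i in l, DifferentiableOn ℂ (g i) (ball x r) ∧ ∀ y ∈ ball x r, ‖g i y‖ ≤ M)
    (ht : ∀ x ∈ U, Tendsto (fun i => g i x) l (𝓝 (f x))) : DifferentiableOn ℂ f U := by
  intro x hx
  obtain ⟨r, M, hr, hsub, hev⟩ := hb x hx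
  have hq : ∀ᶠ i in l, QL (g i) x r (2 * M / r + 12 * M / r ^ 2) :=
    hev.mono fun i hi => ql_of_diff hr hi.1 hi.2
  have hin : ∀ v, ‖v‖ < r → Tendsto (fun i => g i (x + v) - g i x) l (𝓝 (f (x + v) - f x)) :=
    fun v hv => (ht _ (hsub (by simpa using hv))).sub (ht x hx)
  refine (QL.differentiableAt hr (C := 2 * M / r + 12 * M / r ^ 2) ⟨fun v hv => ?_,
    fun c v hc hv => ?_, fun u v huv => ?_⟩).differentiableWithinAt
  · exact le_of_tendsto (hin v hv).norm (hq.mono fun i hi => hi.lip v hv)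
  · have hcv : ‖c • v‖ < r := by
      rw [norm_smul]; nlinarith [norm_nonneg v, norm_nonneg c]
    exact le_of_tendsto ((hin _ hcv).sub ((hin v hv).const_smul c)).norm
      (hq.mono fun i hi => hi.hom c v hc hv)
  · have hu : ‖u‖ < r := by linarith [norm_nonneg v]
    have hv : ‖v‖ < r := by linarith [norm_nonneg u]
    have hs : ‖u + v‖ < r := (norm_add_le _ _).trans_lt huv
    exact le_of_tendsto (((hin _ hs).sub (hin u hu)).sub (hin v hv)).norm
      (hq.mono fun i hi => hi.add u v huv)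

/-- holomorphy can be tested on a norming family of bounded linear maps -/
theorem differentiableOn_of_norming [CompleteSpace F] {ι : Type*} {G : ι → Type*}
    [∀ i, NormedAddCommGroup (G i)] [∀ i, NormedSpace ℂ (G i)] (π : ∀ i, F →L[ℂ] G i)
    (hπ : ∀ i y, ‖π i y‖ ≤ ‖y‖) (hn : ∀ y B, 0 ≤ B → (∀ i, ‖π i y‖ ≤ B) → ‖y‖ ≤ B)
    {f : E → F} {U : Set E}
    (hb : ∀ x ∈ U, ∃ r M, 0 < r ∧ ball x r ⊆ U ∧ ∀ y ∈ ball x r, ‖f y‖ ≤ M)
    (hd : ∀ i, DifferentiableOn ℂ (fun z => π i (f z)) U) : DifferentiableOn ℂ f U := by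
  intro x hx
  obtain ⟨r, M, hr, hsub, hM⟩ := hb x hx
  have hM0 : 0 ≤ M := (norm_nonneg _).trans (hM x (mem_ball_self hr))
  have hq : ∀ i, QL (fun z => π i (f z)) x r (2 * M / r + 12 * M / r ^ 2) := fun i =>
    ql_of_diff hr ((hd i).mono hsub) fun y hy => (hπ i _).trans (hM y hy)
  refine (QL.differentiableAt hr (C := 2 * M / r + 12 * M / r ^ 2) ⟨fun v hv => ?_,
    fun c v hc hv => ?_, fun u v huv => ?_⟩).differentiableWithinAt
  · exact hn _ _ (by positivity) fun i => by simpa using (hq i).lip v hv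
  · exact hn _ _ (by positivity) fun i => by simpa using (hq i).hom c v hc hv
  · exact hn _ _ (by positivity) fun i => by simpa using (hq i).add u v huv

/-- Fixed point with parameter (Earle-Hamilton type). `T P` normalises the weights. -/
theorem exists_fix {X Y : Type*} [NormedAddCommGroup X] [NormedSpace ℂ X] [CompleteSpace X]
    [NormedAddCommGroup Y] [NormedSpace ℂ Y] {U : Set E} (hU : IsOpen U)
    (T : E → X →L[ℂ] Y) (Ψ : E × X → X) {R R0 : ℝ} (hR : 0 < R) (hR0 : R < R0)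
    (hT : ∀ P ∈ U, ∀ x, ‖x‖ ≤ ‖T P x‖)
    (hd : DifferentiableOn ℂ Ψ (U ×ˢ ball 0 R0))
    (hb : ∀ P ∈ U, ∀ x, ‖T P x‖ ≤ R → ‖T P (Ψ (P, x))‖ ≤ R / 8) :
    ∃ S : E → X, DifferentiableOn ℂ S U ∧ ∀ P ∈ U, Ψ (P, S P) = S P ∧ ‖T P (S P)‖ ≤ R / 8 ∧
      ∀ x, ‖T P x‖ ≤ R → Ψ (P, x) = x → x = S P := by
  have lip : ∀ P ∈ U, ∀ x y, ‖T P x‖ ≤ R / 2 → ‖T P y‖ ≤ R / 2 →
      ‖T P (Ψ (P, y) - Ψ (P, x))‖ ≤ 1 / 2 * ‖T P (y - x)‖ ∨ R / 2 ≤ ‖T P (y - x)‖ := by
    intro P hP x y hx hy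
    set d := ‖T P (y - x)‖ with hdd
    rcases le_or_gt (R / 2) d with h | h
    · exact Or.inr h
    left
    rcases (norm_nonneg (T P (y - x))).eq_or_lt with h0 | h0
    · have : y - x = 0 := norm_le_zero_iff.1 ((hT P hP _).trans h0.ge)
      rw [sub_eq_zero.1 this]
      simp only [sub_self, map_zero, norm_zero]
      positivity
    have hin : ∀ t : ℂ, t ∈ ball (0 : ℂ) (R / 2 / d) → ‖T P (x + t • (y - x))‖ ≤ R := by
      intro t ht
      rw [mem_ball_zero_iff, lt_div_iff₀ h0] at ht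
      rw [map_add, map_smul]
      refine (norm_add_le _ _).trans ?_
      rw [norm_smul]
      linarith
    have hdf : DifferentiableOn ℂ (fun t : ℂ => T P (Ψ (P, x + t • (y - x))))
        (ball 0 (R / 2 / d)) := by
      refine (T P).differentiable.comp_differentiableOn (hd.comp (by fun_prop) fun t ht => ?_)
      exact ⟨hP, mem_ball_zero_iff.2 (((hT P hP _).trans (hin t ht)).trans_lt hR0)⟩
    have h1 : (1 : ℂ) ∈ ball (0 : ℂ) (R / 2 / d) := by
      rw [mem_ball_zero_iff, norm_one, lt_div_iff₀ h0]; linarith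
    have := lip_le hdf (fun t ht => hb P hP _ (hin t ht)) h1
    simp only [one_smul, add_sub_cancel, zero_smul, add_zero, sub_zero, norm_one, mul_one] at this
    rw [map_sub]
    refine this.trans_eq ?_
    field_simp
    ring
  have small : ∀ P ∈ U, ∀ x y, ‖T P x‖ ≤ R / 8 → ‖T P y‖ ≤ R / 8 →
      ‖T P (Ψ (P, y) - Ψ (P, x))‖ ≤ 1 / 2 * ‖T P (y - x)‖ := by
    intro P hP x y hx hy
    refine (lip P hP x y (by linarith) (by linarith)).resolve_right (not_le.2 ?_)
    rw [map_sub]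
    linarith [norm_sub_le (T P y) (T P x)]
  let it : ℕ → E → X := fun n => Nat.rec (fun _ => 0) (fun _ g P => Ψ (P, g P)) n
  have it0 : ∀ P, it 0 P = 0 := fun _ => rfl
  have its : ∀ n P, it (n + 1) P = Ψ (P, it n P) := fun _ _ => rfl
  have hbd : ∀ n, ∀ P ∈ U, ‖T P (it n P)‖ ≤ R / 8 := by
    intro n P hP
    induction n with
    | zero => rw [it0, map_zero, norm_zero]; positivity
    | succ n ih => rw [its]; exact hb P hP _ (by linarith)
  have hball : ∀ n, ∀ P ∈ U, ‖it n P‖ ≤ R := fun n P hP => by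
    linarith [hT P hP (it n P), hbd n P hP]
  have hdi : ∀ n, DifferentiableOn ℂ (it n) U := by
    intro n
    induction n with
    | zero => exact differentiableOn_const 0
    | succ n ih =>
      exact hd.comp (differentiableOn_id.prodMk ih) fun P hP =>
        ⟨hP, mem_ball_zero_iff.2 ((hball n P hP).trans_lt hR0)⟩
  have hstep : ∀ P ∈ U, ∀ n, ‖T P (it (n + 1) P - it n P)‖ ≤ R * (1 / 2) ^ n := by
    intro P hP n
    induction n with
    | zero => rw [it0, sub_zero]; linarith [hbd (0 + 1) P hP]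
    | succ n ih =>
      have := small P hP _ _ (hbd n P hP) (hbd (n + 1) P hP)
      rw [← its n P, ← its (n + 1) P] at this
      rw [pow_succ]
      linarith
  have hlim : ∀ P, ∃ s, P ∈ U → Tendsto (fun n => it n P) atTop (𝓝 s) := by
    intro P
    by_cases hP : P ∈ U
    · have : CauchySeq fun n => it n P :=
        cauchySeq_of_le_geometric (1 / 2) R (by norm_num) fun n => by
          rw [dist_comm, dist_eq_norm]; exact (hT P hP _).trans (hstep P hP n)
      obtain ⟨s, hs⟩ := cauchySeq_tendsto_of_complete this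
      exact ⟨s, fun _ => hs⟩
    · exact ⟨0, fun h => absurd h hP⟩
  choose S hS using hlim
  have hSb : ∀ P ∈ U, ‖T P (S P)‖ ≤ R / 8 := fun P hP =>
    le_of_tendsto' (((T P).continuous.tendsto _).comp (hS P hP)).norm fun n => hbd n P hP
  have hfix : ∀ P ∈ U, Ψ (P, S P) = S P := by
    intro P hP
    have h1 : Tendsto (fun n => it (n + 1) P) atTop (𝓝 (S P)) :=
      (hS P hP).comp (tendsto_add_atTop_nat 1)
    have h2 : Tendsto (fun n => it (n + 1) P) atTop (𝓝 (Ψ (P, S P))) := by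
      rw [tendsto_iff_norm_sub_tendsto_zero]
      have h3 : Tendsto (fun n => 1 / 2 * ‖T P (it n P - S P)‖) atTop (𝓝 0) := by
        have := (((T P).continuous.tendsto _).comp ((hS P hP).sub_const (S P))).norm.const_mul
          (1 / 2)
        simpa using this
      refine squeeze_zero (fun n => norm_nonneg _) (fun n => ?_) h3
      rw [its]
      exact (hT P hP _).trans (small P hP _ _ (hSb P hP) (hbd n P hP))
    exact tendsto_nhds_unique h2 h1
  refine ⟨S, ?_, fun P hP => ⟨hfix P hP, hSb P hP, fun x hx hfx => ?_⟩⟩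
  · refine differentiableOn_of_tendsto (l := atTop) (g := it) (fun P hP => ?_) hS
    obtain ⟨r, hr, hsub⟩ := Metric.isOpen_iff.1 hU P hP
    exact ⟨r, R, hr, hsub, Eventually.of_forall fun n =>
      ⟨(hdi n).mono hsub, fun y hy => hball n y (hsub hy)⟩⟩
  · have hx8 : ‖T P x‖ ≤ R / 8 := by
      rw [← hfx]; exact hb P hP x hx
    have := small P hP _ _ (hSb P hP) hx8
    rw [hfx, hfix P hP] at this
    have h0 : ‖x - S P‖ ≤ 0 := by linarith [hT P hP (x - S P), norm_nonneg (T P (x - S P))]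
    exact sub_eq_zero.1 (norm_le_zero_iff.1 h0)

end Vale.Agent.P218EN
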