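import Vale.Agent.P218EN.Cyl

/-! The boundary condition: polynomial part and the scalar `Λ²`. -/

namespace Vale.Agent.P218EN
open Set Complex WA Metric

namespace Ex

/-- quadratic part of the boundary operator, variables `η, t, u, p, s, ε, l / 4, r` -/
def exB0 : Ex 8 :=
  let η : Ex 8 := v 0
  let t : Ex 8 := v 1
  let p : Ex 8 := v 3
  let h := 1 + η
  let m := v 5 * h ^ 2
  let G := h ^ 2 + t ^ 2
  2 * η ^ 2 * (h + 1) + h ^ 2 * η ^ 2 - 2 * p * η * (h ^ 2 + h + 1) + h ^ 2 * p ^ 2 - t ^ 2 -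
    (1 + 4 * v 6) * (m * (m + 2) * G) - 4 * v 6 * (η * (h + 1) + t ^ 2)

/-- its `θ`-derivative, multiplied by `r` -/
def exB1 : Ex 8 :=
  let η : Ex 8 := v 0
  let t : Ex 8 := v 1
  let p : Ex 8 := v 3
  let η1 : Ex 8 := v 7 * v 1
  let t1 : Ex 8 := v 7 * v 2
  let p1 : Ex 8 := v 4
  let h := 1 + η
  let m := v 5 * h ^ 2
  let m1 := 2 * v 5 * h * η1
  let G := h ^ 2 + t ^ 2
  let G1 := 2 * h * η1 + 2 * t * t1
  4 * η * η1 * (h + 1) + 2 * η ^ 2 * η1 + 2 * h * η1 * η ^ 2 + 2 * h ^ 2 * η * η1 -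
    2 * (p1 * η + p * η1) * (h ^ 2 + h + 1) - 2 * p * η * (2 * h + 1) * η1 + 2 * h * η1 * p ^ 2 +
    2 * h ^ 2 * p * p1 - 2 * t * t1 -
    (1 + 4 * v 6) * (2 * m1 * (m + 1) * G + m * (m + 2) * G1) - 4 * v 6 * G1

/-- orders of smallness of the boundary variables -/
def gB : Fin 8 → ℕ := ![1, 1, 1, 1, 1, 2, 1, 0]

theorem gr_exB0 : exB0.gr gB = 2 := by decide
theorem gr_exB1 : exB1.gr gB = 2 := by decide
theorem bd_exN : exN.bd = 15163 := by decide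
theorem bd'_exN : exN.bd' = 103755 := by decide
theorem bd_exB0 : exB0.bd = 645 := by decide
theorem bd'_exB0 : exB0.bd' = 3318 := by decide
theorem bd_exB1 : exB1.bd = 1822 := by decide
theorem bd'_exB1 : exB1.bd' = 12364 := by decide

section
variable {R : Type*} [CommRing R] {n : ℕ} (J J' Z : Fin n → R) (a b : Ex n)
theorem dv_v (i : Fin n) : dv J J' Z (v i) = Z i := rfl
theorem dv_add : dv J J' Z (a + b) = dv J J' Z a + dv J J' Z b := rfl
theorem dv_mul : dv J J' Z (a * b) = dv J J' Z a * ev J b + ev J' a * dv J J' Z b := rfl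
theorem dv_sub : dv J J' Z (a - b) = dv J J' Z a - dv J J' Z b := (sub_eq_add_neg _ _).symm
theorem dv_1 : dv J J' Z (1 : Ex n) = 0 := rfl
theorem dv_2 : dv J J' Z (2 : Ex n) = 0 := rfl
theorem dv_sq : dv J J Z (a ^ 2) = 2 * ev J a * dv J J Z a := by
  change dv J J Z (c 1 * a * a) = _
  simp only [dv, ev]; push_cast; ring

theorem ev_exB0 (V : Fin 8 → R) : exB0.ev V =
    2 * (V 3 - V 0) + pB (V 5) (4 * V 6) (V 0) (V 1) (V 3) + 4 * V 6 := by
  simp only [exB0, ev_add, ev_sub, ev_mul, ev_pow, ev_v, ev_1, ev_2, ev_4, pB]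
  ring

theorem ev_exB1 (V : Fin 8 → R) : exB1.ev V = exD.dv ![V 0, V 1, V 3, V 5, 4 * V 6]
    ![V 0, V 1, V 3, V 5, 4 * V 6] ![V 7 * V 1, V 7 * V 2, V 4, 0, 0] := by
  simp only [exB1, exD, ev_add, ev_sub, ev_mul, ev_pow, ev_v, ev_1, ev_2, ev_4, dv_v, dv_add,
    dv_sub, dv_mul, dv_1, dv_2, dv_sq]
  simp
  ring

end
end Ex

theorem alg_eq (c : ℂ) : algebraMap ℂ WA c = sc (BoundedContinuousFunction.const ℝ c) :=
  ev_inj fun w θ => by rw [← evA_apply, AlgHom.commutes, ev_sc]; rfl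

theorem co_alg (c : ℂ) (k : ℤ) (w : ℝ) : (algebraMap ℂ WA c).co k w = if k = 0 then c else 0 := by
  rw [alg_eq, co_sc]; split_ifs <;> rfl

theorem Bd.alg {S : Set ℝ} {a b : ℝ → ℝ} {c : ℂ} {t : ℝ} (ht : 0 ≤ t) (h : ∀ w ∈ S, ‖c‖ ≤ t * a w) :
    Bd S a b (algebraMap ℂ WA c) t := alg_eq c ▸ Bd.sc ht h

theorem hasD_alg (S : Set ℝ) (t : ℝ → ℂ) (c : ℂ) : HasD S t (algebraMap ℂ WA c) 0 :=
  alg_eq c ▸ HasD.sc S t _

theorem hasD_sub {S : Set ℝ} {t : ℝ → ℂ} {x x' y y' : WA} (h : HasD S t x x')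
    (h' : HasD S t y y') : HasD S t (x - y) (x' - y') := by
  simpa [sub_eq_add_neg] using h.add h'.neg

theorem hasD_unique {S : Set ℝ} {t : ℝ → ℂ} {x x' y y' : WA} (h : HasD S t x x')
    (h' : HasD S t y y') (e : WEq S x y) : WEq S x' y' := fun k w hw => by
  rw [h k w hw, h' k w hw, e k w hw]

theorem WSys.mono {S S' : Set ℝ} {ε : ℝ} {d σ ω σ' ω' : ℝ → ℝ} (H : WSys S ε d σ ω σ' ω')
    (h : S' ⊆ S) : WSys S' ε d σ ω σ' ω' :=
  ⟨H.e0, H.e1, fun w hw => H.d0 w (h hw), fun w hw => H.d1 w (h hw), fun w hw => H.s0 w (h hw),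
    fun w hw => H.o0 w (h hw), fun w hw => H.s0' w (h hw), fun w hw => H.o0' w (h hw),
    fun w hw => H.sd w (h hw), fun w hw => H.od w (h hw), fun w hw => H.oo w (h hw),
    fun w hw => H.os w (h hw)⟩

/-- `Λ² - 1` -/
noncomputable def lf (b : ℝ) (α : ℂ) (η : WA) : ℂ := L2 (Af α b) (ef α b) (amean b α η) - 1

/-- the boundary variables -/
noncomputable def vB (b : ℝ) (α : ℂ) (J : Fin 6 → WA) : Fin 8 → WA :=
  ![J 0, J 1, J 2, J 3, J 5, algebraMap ℂ WA (ef α b), algebraMap ℂ WA (lf b α (J 0) / 4),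
    algebraMap ℂ WA (Complex.sqrt (Af α b))]

theorem four_alg (l : ℂ) : 4 * algebraMap ℂ WA (l / 4) = algebraMap ℂ WA l := by
  rw [← map_ofNat (algebraMap ℂ WA) 4, ← map_mul]; congr 1; ring

theorem BB_eq (b : ℝ) (α : ℂ) (J : Fin 6 → WA) : BB b α J =
    Ex.exB0.ev (vB b α J) - 2 * (J 3 - J 0) - algebraMap ℂ WA (lf b α (J 0)) := by
  rw [Ex.ev_exB0]
  simp only [vB, Matrix.cons_val, four_alg, BB, lf]
  ring

theorem Jet.hasD_lin {a b : ℝ} (hab : a ≤ b) {A : ℝ → ℂ} {J : Fin 6 → WA} (h : Jet a b A J) :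
    HasD {b} (fun w => Complex.sqrt (A w)) (J 0) (Complex.sqrt (A b) • J 1) ∧
    HasD {b} (fun w => Complex.sqrt (A w)) (J 1) (Complex.sqrt (A b) • J 2) ∧
    HasD {b} (fun w => Complex.sqrt (A w)) (J 3) (J 5) := by
  have hb := right_mem_Icc.2 hab
  refine ⟨fun k w hw => ?_, fun k w hw => ?_, fun k w hw => ?_⟩ <;> obtain rfl : w = b := hw
  · simp [h.t1 k w hb, mul_assoc]
  · simp [h.t2 k w hb, mul_assoc]
  · exact h.t5 k w hb

theorem Jet.hasD_B {a b : ℝ} (hab : a ≤ b) {α : ℂ} {J : Fin 6 → WA} (h : Jet a b (Af α) J) :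
    HasD {b} (fun w => Complex.sqrt (Af α w)) (Ex.exB0.ev (vB b α J)) (Ex.exB1.ev (vB b α J)) := by
  obtain ⟨h0, h1, h3⟩ := h.hasD_lin hab
  have := (Ex.hasD_ev (J := ![vB b α J 0, vB b α J 1, vB b α J 3, vB b α J 5, 4 * vB b α J 6])
    (Z := ![vB b α J 7 * vB b α J 1, vB b α J 7 * vB b α J 2, vB b α J 4, 0, 0])
    (S := {b}) (t := fun w => Complex.sqrt (Af α w)) (fun i => by
      fin_cases i <;> simp only [vB, four_alg, ← Algebra.smul_def, Matrix.cons_val,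
        Fin.reduceFinMk, Fin.zero_eta, Fin.mk_one, Fin.isValue]
      exacts [h0, h1, h3, hasD_alg _ _ _, hasD_alg _ _ _]) Ex.exD).add
    (hasD_alg _ _ (lf b α (J 0)))
  rw [← Ex.ev_exB1, add_zero, Ex.ev_exD] at this
  rw [Ex.ev_exB0]
  simpa only [vB, four_alg, Matrix.cons_val] using this

end Vale.Agent.P218EN
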