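import Vale.Agent.P218EN.Scal

/-! Weighted estimates for the nonlinear terms. -/

namespace Vale.Agent.P218EN
open Set Complex WA Metric

theorem WSys.src {S : Set ℝ} {ε B : ℝ} {d σ ω σ' ω' : ℝ → ℝ} (H : WSys S ε d σ ω σ' ω') {x : WA}
    (h : Kc S ε d σ' ω' 2 x B) : Bd S σ' (fun w => d w * ω' w) x (ε * B) :=
  Bd.weaken h H.e0 (fun _ _ => le_rfl) fun _ _ => (mul_assoc _ _ _).le

theorem WSys.src' {S : Set ℝ} {ε B : ℝ} {d σ ω σ' ω' : ℝ → ℝ} (H : WSys S ε d σ ω σ' ω') {x : WA}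
    (h : Kc S ε d σ' ω' 2 x B) : Bd S σ' ω' x (ε * B) :=
  (H.src h).weaken' (fun _ _ => le_rfl) fun w hw => mul_le_of_le_one_left (H.o0' w hw) (H.d1 w hw)

namespace Base
variable {a b ε B : ℝ} {α : ℂ} {d σ ω σ' ω' : ℝ → ℝ} {J J' : Fin 6 → WA} {η η' : WA}

theorem le (H : Base a b α ε d σ ω) : a ≤ b := H.coef.le
theorem hb (H : Base a b α ε d σ ω) : b ∈ Icc a b := right_mem_Icc.2 H.le
theorem sub (H : Base a b α ε d σ ω) : {b} ⊆ Icc a b := singleton_subset_iff.2 H.hb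

theorem e_pos (H : Base a b α ε d σ ω) : 0 < ε :=
  pos_of_mul_pos_left ((pow_pos (H.coef.A0 H.hb) 2).trans_le (H.coef.A2 b H.hb))
    (H.coef.re b H.hb).le

theorem sig_le (H : Base a b α ε d σ ω) {w : ℝ} (hw : w ∈ Icc a b) : σ w ≤ ε ∧ ω w ≤ ε :=
  ⟨(H.sys.sd w hw).trans (mul_le_of_le_one_right H.sys.e0 (H.sys.d1 w hw)),
    (H.sys.od w hw).trans (mul_le_of_le_one_right H.sys.e0 (H.sys.d1 w hw))⟩

theorem ne (H : Base a b α ε d σ ω) {w : ℝ} (hw : w ∈ Icc a b) : (w : ℂ) ≠ 0 :=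
  ofReal_ne_zero.2 (H.pos.trans_le hw.1).ne'

theorem cont_x (H : Base a b α ε d σ ω) : ContinuousOn xf (Icc a b) :=
  ContinuousOn.inv₀ (by fun_prop) fun _ hw => mul_ne_zero two_ne_zero (H.ne hw)

theorem cont_e (H : Base a b α ε d σ ω) : ContinuousOn (ef α) (Icc a b) :=
  ContinuousOn.div (by fun_prop) (by fun_prop) fun _ hw => mul_ne_zero (by norm_num) (H.ne hw)

theorem sqrt_le (H : Base a b α ε d σ ω) {w : ℝ} (hw : w ∈ Icc a b) :
    ‖Complex.sqrt (Af α w)‖ ≤ 1 :=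
  le_of_sq_le_sq (by rw [norm_csqrt_sq]; linarith [H.coef.As hw]) zero_le_one

theorem kN (H : Base a b α ε d σ ω) (hJ : ∀ i, Bd (Icc a b) σ ω (J i) 1) (i : Fin 10) :
    Kc (Icc a b) ε d σ ω (Ex.gN i) (vN a b α J i) 1 := by
  fin_cases i
  iterate 6 exact hJ _
  · exact Bd.sc zero_le_one fun w hw => by rw [mkB_of_mem H.coef.cA hw, one_mul]; exact H.hA w hw
  · exact Bd.sc zero_le_one fun w hw => by rw [mkB_of_mem H.cont_x hw, one_mul]; exact H.hx w hw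
  · exact Bd.sc zero_le_one fun w hw => by rw [mkB_of_mem H.cont_e hw, one_mul]; exact H.he w hw
  · exact Bd.sc zero_le_one fun w hw => by
      rw [mkB_of_mem H.coef.cont_sqrt hw, one_mul]; exact H.sqrt_le hw

theorem bd_NN (H : Base a b α ε d σ ω) (hJ : ∀ i, Bd (Icc a b) σ ω (J i) 1) :
    Bd (Icc a b) σ (fun w => d w * ω w) (NN a b α J) (ε * 15163) := by
  have := H.sys.ev (H.kN hJ) Ex.exN
  rw [Ex.gr_exN, Ex.bd_exN] at this
  exact H.sys.src this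

theorem bd_NN_sub (H : Base a b α ε d σ ω) (S : WSys (Icc a b) ε d σ ω σ' ω')
    (hJ : ∀ i, Bd (Icc a b) σ ω (J i) 1) (hJ' : ∀ i, Bd (Icc a b) σ ω (J' i) 1)
    (hB : ∀ i, Bd (Icc a b) σ' ω' (J i - J' i) B) :
    Bd (Icc a b) σ' (fun w => d w * ω' w) (NN a b α J - NN a b α J') (ε * (103755 * B)) := by
  have := H.sys.dv S (H.kN hJ) (H.kN hJ') (Z := vN a b α J - vN a b α J') (B := B) (fun i => by
    fin_cases i
    iterate 6 exact hB _
    all_goals simpa [vN, Mc] using (Kc.zero _).mono (hB 0).nonneg) Ex.exN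
  rw [Ex.gr_exN, Ex.bd'_exN, ← Ex.ev_sub_ev] at this
  exact S.src this

theorem ef_le (H : Base a b α ε d σ ω) : ‖ef α b‖ ≤ ε ^ 2 ∧ ‖Af α b‖ ≤ ε ^ 2 := by
  have := mul_le_mul_of_nonneg_left (H.sig_le H.hb).1 H.sys.e0
  exact ⟨by linarith [H.he b H.hb], by linarith [H.hA b H.hb]⟩

theorem ef_le' (H : Base a b α ε d σ ω) : ‖ef α b‖ ≤ 1 / 1000 ∧ ‖Af α b‖ ≤ 1 / 1000 :=
  ⟨by nlinarith [H.ef_le.1, H.coef.e1, H.sys.e0], H.coef.As H.hb⟩

theorem h_le (H : Base a b α ε d σ ω) (h : Bd {b} σ ω η 1) (θ : ℝ) : ‖1 + η.ev b θ‖ ≤ 11 / 10 := by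
  have := h.ev_le (mem_singleton b) H.sys.e0 (H.sig_le H.hb).1 (H.sig_le H.hb).2 θ
  linarith [norm_add_le 1 (η.ev b θ), norm_one (α := ℂ), H.coef.e1]

theorem co0_le {σ ω : ℝ → ℝ} (h : Bd {b} σ ω η B) (h0 : 0 ≤ σ b) : ‖η.co 0 b‖ ≤ B * σ b :=
  h.co_le 0 (mem_singleton b) h0

theorem am (H : Base a b α ε d σ ω) (h : Bd {b} σ ω η 1) :
    ‖amean b α η - 1 - 2 * η.co 0 b‖ ≤ 3 * ε * σ b := by
  have s0 := H.sys.s0 b H.hb
  have h1 := co0_le ((H.sys.mono H.sub).mulK (i := 1) (j := 1) h h) (mul_nonneg H.sys.e0 s0)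
  have h2 := norm_mean_le fun θ => ph_le H.ef_le'.1 (H.h_le h θ)
  rw [amean_eq H.ef_le'.1 (H.h_le h), show ∀ x y z : ℂ, 1 + x + y - z - 1 - x = y - z from
    fun _ _ _ => by ring]
  refine (norm_sub_le _ _).trans ?_
  rw [norm_mul (ef α b)]
  nlinarith [mul_le_mul (H.he b H.hb) h2 (norm_nonneg _) (mul_nonneg H.sys.e0 s0)]

theorem am_sub (H : Base a b α ε d σ ω) (S : WSys (Icc a b) ε d σ ω σ' ω') (h : Bd {b} σ ω η 1)
    (h' : Bd {b} σ ω η' 1) (hB : Bd {b} σ' ω' (η - η') B) :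
    ‖amean b α η - amean b α η' - 2 * (η - η').co 0 b‖ ≤ 14 * ε * (B * σ' b) := by
  have s0 := S.s0' b H.hb
  have o0 := S.o0' b H.hb
  have B0 := hB.nonneg
  have h1 := co0_le ((H.sys.mono H.sub).mulM (S.mono H.sub) (i := 1) (j := 1) (h.add h') hB)
    (mul_nonneg H.sys.e0 s0)
  have h2 := norm_mean_le (f := fun θ => ph (ef α b) (1 + η.ev b θ) - ph (ef α b) (1 + η'.ev b θ))
    (M := 6 * (B * (σ' b + ω' b))) fun θ => (ph_lip H.ef_le'.1 (H.h_le h θ) (H.h_le h' θ)).trans (by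
      rw [add_sub_add_left_eq_sub, ← ev_sub]
      gcongr
      exact hB.ev_le (mem_singleton b) (by linarith) (by linarith) (by linarith) θ)
  rw [intervalIntegral.integral_sub ((cont_ph H.ef_le'.1 (H.h_le h)).intervalIntegrable _ _)
    ((cont_ph H.ef_le'.1 (H.h_le h')).intervalIntegrable _ _)] at h2
  have e : (η + η') * (η - η') = η * η - η' * η' := by ring
  rw [e] at h1
  rw [amean_eq H.ef_le'.1 (H.h_le h), amean_eq H.ef_le'.1 (H.h_le h')]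
  simp only [co_sub, BoundedContinuousFunction.sub_apply] at h1 ⊢
  rw [show ∀ x x' y y' e c z z' : ℂ, 1 + 2 * x + y - e * (c * z) - (1 + 2 * x' + y' - e * (c * z')) -
    2 * (x - x') = y - y' - e * (c * (z - z')) from fun _ _ _ _ _ _ _ _ => by ring]
  refine (norm_sub_le _ _).trans ?_
  rw [norm_mul (ef α b)]
  have h3 : ‖ef α b‖ * (σ' b + ω' b) ≤ 2 * ε * σ' b := by
    have h4 : ‖ef α b‖ ≤ ε := by nlinarith [H.ef_le.1, H.coef.e1, H.sys.e0]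
    nlinarith [mul_le_mul_of_nonneg_right h4 s0, mul_le_mul_of_nonneg_right H.he' o0, S.oo b H.hb]
  nlinarith [mul_le_mul_of_nonneg_left h2 (norm_nonneg (ef α b)), mul_le_mul_of_nonneg_left h3 B0]

theorem am_le (H : Base a b α ε d σ ω) (h : Bd {b} σ ω η 1) : ‖amean b α η - 1‖ ≤ 3 * σ b := by
  have s0 := H.sys.s0 b H.hb
  have h1 := norm_add_le (amean b α η - 1 - 2 * η.co 0 b) (2 * η.co 0 b)
  rw [sub_add_cancel, norm_mul, norm_ofNat] at h1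
  nlinarith [H.am h, co0_le h s0, H.coef.e1]

theorem lf_le (H : Base a b α ε d σ ω) (h : Bd {b} σ ω η 1) :
    ‖lf b α η + 2 * η.co 0 b‖ ≤ 40 * ε * σ b ∧ ‖lf b α η / 4‖ ≤ σ b := by
  have s0 := H.sys.s0 b H.hb
  have s1 := (H.sig_le H.hb).1
  have e1 := H.coef.e1
  have h1 := (L2_facts H.ef_le'.2 H.ef_le'.1 ((H.am_le h).trans (by linarith))).2.2
  have h2 := norm_sub_le (L2 (Af α b) (ef α b) (amean b α η) + amean b α η - 2)
    (amean b α η - 1 - 2 * η.co 0 b)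
  have h3 : ‖lf b α η + 2 * η.co 0 b‖ ≤ 40 * ε * σ b := by
    rw [show lf b α η + 2 * η.co 0 b = L2 (Af α b) (ef α b) (amean b α η) + amean b α η - 2 -
      (amean b α η - 1 - 2 * η.co 0 b) by rw [lf]; ring]
    nlinarith [H.am h, pow_le_pow_left₀ (norm_nonneg _) (H.am_le h) 2, H.hA b H.hb, H.he b H.hb,
      mul_le_mul_of_nonneg_right s1 s0]
  refine ⟨h3, ?_⟩
  have h4 := norm_sub_le (lf b α η + 2 * η.co 0 b) (2 * η.co 0 b)
  rw [add_sub_cancel_right, norm_mul, norm_ofNat] at h4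
  rw [norm_div, norm_ofNat]
  nlinarith [co0_le h s0]

theorem lf_sub (H : Base a b α ε d σ ω) (S : WSys (Icc a b) ε d σ ω σ' ω') (h : Bd {b} σ ω η 1)
    (h' : Bd {b} σ ω η' 1) (hB : Bd {b} σ' ω' (η - η') B) :
    ‖lf b α η - lf b α η' + 2 * (η - η').co 0 b‖ ≤ 200 * ε * (B * σ' b) ∧
      ‖lf b α η / 4 - lf b α η' / 4‖ ≤ B * σ' b := by
  have s0 := mul_nonneg hB.nonneg (S.s0' b H.hb)
  have s1 := (H.sig_le H.hb).1
  have e1 := H.coef.e1
  have e0 := H.sys.e0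
  have c0 := co0_le hB (S.s0' b H.hb)
  have h0 := H.am_sub S h h' hB
  have h1 := L2_lip H.e_pos e1 H.ef_le.2 H.ef_le.1 ((H.am_le h).trans (by linarith))
    ((H.am_le h').trans (by linarith))
  have h2 := norm_add_le (amean b α η - amean b α η' - 2 * (η - η').co 0 b) (2 * (η - η').co 0 b)
  rw [sub_add_cancel, norm_mul, norm_ofNat] at h2
  have h5 : ‖amean b α η - amean b α η'‖ ≤ 3 * (B * σ' b) := by nlinarith
  have h3 : ‖lf b α η - lf b α η' + 2 * (η - η').co 0 b‖ ≤ 200 * ε * (B * σ' b) := by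
    rw [show lf b α η - lf b α η' + 2 * (η - η').co 0 b =
      L2 (Af α b) (ef α b) (amean b α η) + amean b α η -
        (L2 (Af α b) (ef α b) (amean b α η') + amean b α η') -
      (amean b α η - amean b α η' - 2 * (η - η').co 0 b) by rw [lf, lf]; ring]
    refine (norm_sub_le _ _).trans ?_
    nlinarith [mul_le_mul_of_nonneg_left h5 e0]
  refine ⟨h3, ?_⟩
  have h4 := norm_sub_le (lf b α η - lf b α η' + 2 * (η - η').co 0 b) (2 * (η - η').co 0 b)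
  rw [add_sub_cancel_right, norm_mul, norm_ofNat] at h4
  rw [← sub_div, norm_div, norm_ofNat]
  nlinarith

theorem kB (H : Base a b α ε d σ ω) (hJ : ∀ i, Bd {b} σ ω (J i) 1) (i : Fin 8) :
    Kc {b} ε d σ ω (Ex.gB i) (vB b α J i) 1 := by
  fin_cases i
  iterate 5 exact hJ _
  · exact Bd.alg zero_le_one fun w hw => by rw [one_mul, mem_singleton_iff.1 hw]; exact H.he b H.hb
  · exact Bd.alg zero_le_one fun w hw => by
      rw [one_mul, mem_singleton_iff.1 hw]; exact (H.lf_le (hJ 0)).2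
  · exact Bd.alg zero_le_one fun w _ => by rw [one_mul]; exact H.sqrt_le H.hb

theorem bd_B (H : Base a b α ε d σ ω) (hJ : ∀ i, Bd {b} σ ω (J i) 1) :
    Bd {b} σ ω (Ex.exB0.ev (vB b α J)) (ε * 645) ∧
      Bd {b} σ ω (Ex.exB1.ev (vB b α J)) (ε * 1822) := by
  have h0 := (H.sys.mono H.sub).ev (H.kB hJ) Ex.exB0
  have h1 := (H.sys.mono H.sub).ev (H.kB hJ) Ex.exB1
  rw [Ex.gr_exB0, Ex.bd_exB0] at h0
  rw [Ex.gr_exB1, Ex.bd_exB1] at h1
  exact ⟨(H.sys.mono H.sub).src' h0, (H.sys.mono H.sub).src' h1⟩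

theorem bd_B_sub (H : Base a b α ε d σ ω) (S : WSys (Icc a b) ε d σ ω σ' ω')
    (hJ : ∀ i, Bd {b} σ ω (J i) 1) (hJ' : ∀ i, Bd {b} σ ω (J' i) 1)
    (hB : ∀ i, Bd {b} σ' ω' (J i - J' i) B) :
    Bd {b} σ' ω' (Ex.exB0.ev (vB b α J) - Ex.exB0.ev (vB b α J')) (ε * (3318 * B)) ∧
      Bd {b} σ' ω' (Ex.exB1.ev (vB b α J) - Ex.exB1.ev (vB b α J')) (ε * (12364 * B)) := by
  have key := (H.sys.mono H.sub).dv (S.mono H.sub) (H.kB hJ) (H.kB hJ')
    (Z := vB b α J - vB b α J') (B := B) fun i => by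
      fin_cases i
      iterate 5 exact hB _
      · simpa [vB, Mc] using (Kc.zero _).mono (hB 0).nonneg
      · change Bd {b} σ' ω' (algebraMap ℂ WA _ - algebraMap ℂ WA _) B
        rw [← map_sub]
        exact Bd.alg (hB 0).nonneg fun w hw => by
          rw [mem_singleton_iff.1 hw]; exact (H.lf_sub S (hJ 0) (hJ' 0) (hB 0)).2
      · simpa [vB, Mc] using (Kc.zero _).mono (hB 0).nonneg
  have h0 := key Ex.exB0
  have h1 := key Ex.exB1
  rw [Ex.gr_exB0, Ex.bd'_exB0, ← Ex.ev_sub_ev] at h0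
  rw [Ex.gr_exB1, Ex.bd'_exB1, ← Ex.ev_sub_ev] at h1
  exact ⟨(S.mono H.sub).src' h0, (S.mono H.sub).src' h1⟩

end Base
end Vale.Agent.P218EN
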