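import Vale.Agent.P218EN.Wt

/-! Polynomial expressions with a grading; automatic weighted estimates. -/

namespace Vale.Agent.P218EN
open Set WA

/-- polynomial expressions in `n` variables -/
inductive Ex (n : ℕ) where
  | v : Fin n → Ex n
  | c : ℤ → Ex n
  | add : Ex n → Ex n → Ex n
  | mul : Ex n → Ex n → Ex n
  | neg : Ex n → Ex n

namespace Ex
variable {n : ℕ}

instance : Add (Ex n) := ⟨add⟩
instance : Mul (Ex n) := ⟨mul⟩
instance : Neg (Ex n) := ⟨neg⟩
instance : Sub (Ex n) := ⟨fun a b => add a (neg b)⟩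
instance (k : ℕ) : OfNat (Ex n) k := ⟨c k⟩

/-- powers -/
def pw (a : Ex n) : ℕ → Ex n
  | 0 => c 1
  | k + 1 => mul (pw a k) a

instance : Pow (Ex n) ℕ := ⟨pw⟩

section
variable {R : Type*} [CommRing R]

/-- value -/
def ev (J : Fin n → R) : Ex n → R
  | v i => J i
  | c k => k
  | add a b => ev J a + ev J b
  | mul a b => ev J a * ev J b
  | neg a => -ev J a

/-- divided difference between `J` and `J'` in the direction `Z` -/
def dv (J J' Z : Fin n → R) : Ex n → R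
  | v i => Z i
  | c _ => 0
  | add a b => dv J J' Z a + dv J J' Z b
  | mul a b => dv J J' Z a * ev J b + ev J' a * dv J J' Z b
  | neg a => -dv J J' Z a

variable (J J' Z : Fin n → R) (a b : Ex n)
@[simp] theorem ev_v (i : Fin n) : ev J (v i) = J i := rfl
@[simp] theorem ev_add : ev J (a + b) = ev J a + ev J b := rfl
@[simp] theorem ev_mul : ev J (a * b) = ev J a * ev J b := rfl
@[simp] theorem ev_neg : ev J (-a) = -ev J a := rfl
@[simp] theorem ev_sub : ev J (a - b) = ev J a - ev J b := (sub_eq_add_neg _ _).symm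
@[simp] theorem ev_ofNat (k : ℕ) : ev J (OfNat.ofNat k : Ex n) = (k : R) := Int.cast_natCast k
@[simp] theorem ev_1 : ev J (1 : Ex n) = 1 := Int.cast_one
@[simp] theorem ev_2 : ev J (2 : Ex n) = 2 := Int.cast_ofNat 2
@[simp] theorem ev_4 : ev J (4 : Ex n) = 4 := Int.cast_ofNat 4
@[simp] theorem ev_pow (k : ℕ) : ev J (a ^ k) = ev J a ^ k := by
  induction k with
  | zero => exact Int.cast_one.trans (pow_zero _).symm
  | succ k ih => rw [pow_succ, ← ih]; rfl

theorem ev_sub_ev (e : Ex n) : ev J e - ev J' e = dv J J' (J - J') e := by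
  induction e with
  | v i => rfl
  | c k => exact sub_self _
  | add a b ha hb => simp only [ev, dv, ← ha, ← hb]; ring
  | mul a b ha hb => simp only [ev, dv, ← ha, ← hb]; ring
  | neg a ha => simp only [ev, dv, ← ha]; ring

theorem map_ev {R' F : Type*} [CommRing R'] [FunLike F R R'] [RingHomClass F R R'] (φ : F)
    (e : Ex n) : φ (ev J e) = ev (fun i => φ (J i)) e := by
  induction e with
  | v i => rfl
  | c k => exact map_intCast φ k
  | add a b ha hb => simp only [ev, map_add, ha, hb]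
  | mul a b ha hb => simp only [ev, map_mul, ha, hb]
  | neg a ha => simp only [ev, map_neg, ha]

theorem map_dv {R' F : Type*} [CommRing R'] [FunLike F R R'] [RingHomClass F R R'] (φ : F)
    (e : Ex n) : φ (dv J J' Z e) =
      dv (fun i => φ (J i)) (fun i => φ (J' i)) (fun i => φ (Z i)) e := by
  induction e with
  | v i => rfl
  | c k => exact map_zero φ
  | add a b ha hb => simp only [dv, map_add, ha, hb]
  | mul a b ha hb => simp only [dv, map_add, map_mul, ha, hb, map_ev]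
  | neg a ha => simp only [dv, map_neg, ha]

end

/-- order of smallness -/
def gr (g : Fin n → ℕ) : Ex n → ℕ
  | v i => g i
  | c _ => 0
  | add a b => min (gr g a) (gr g b)
  | mul a b => gr g a + gr g b
  | neg a => gr g a

/-- constant in the estimate of the value -/
def bd : Ex n → ℕ
  | v _ => 1
  | c k => k.natAbs
  | add a b => bd a + bd b
  | mul a b => bd a * bd b
  | neg a => bd a

/-- constant in the estimate of the divided difference -/
def bd' : Ex n → ℕ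
  | v _ => 1
  | c _ => 0
  | add a b => bd' a + bd' b
  | mul a b => bd' a * bd b + bd a * bd' b
  | neg a => bd' a

section
variable {E R : Type*} [NormedAddCommGroup E] [NormedSpace ℂ E] [NormedCommRing R]
  [NormedAlgebra ℂ R]

theorem differentiableOn_ev {J : E → Fin n → R} {U : Set E}
    (h : ∀ i, DifferentiableOn ℂ (fun z => J z i) U) (e : Ex n) :
    DifferentiableOn ℂ (fun z => ev (J z) e) U := by
  induction e with
  | v i => exact h i
  | c k => exact differentiableOn_const _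
  | add a b ha hb => exact ha.add hb
  | mul a b ha hb => exact ha.mul hb
  | neg a ha => exact ha.neg

theorem differentiableOn_dv {J J' Z : E → Fin n → R} {U : Set E}
    (h : ∀ i, DifferentiableOn ℂ (fun z => J z i) U)
    (h' : ∀ i, DifferentiableOn ℂ (fun z => J' z i) U)
    (hZ : ∀ i, DifferentiableOn ℂ (fun z => Z z i) U) (e : Ex n) :
    DifferentiableOn ℂ (fun z => dv (J z) (J' z) (Z z) e) U := by
  induction e with
  | v i => exact hZ i
  | c k => exact differentiableOn_const _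
  | add a b ha hb => exact ha.add hb
  | mul a b ha hb =>
    exact (ha.mul (differentiableOn_ev h b)).add ((differentiableOn_ev h' a).mul hb)
  | neg a ha => exact ha.neg

omit [NormedAlgebra ℂ R] in
theorem hasDerivAt_ev {𝕜 : Type*} [NontriviallyNormedField 𝕜] [NormedAlgebra 𝕜 R]
    {J : 𝕜 → Fin n → R} {Z : Fin n → R} {t : 𝕜} {s : Set 𝕜}
    (h : ∀ i, HasDerivWithinAt (fun z => J z i) (Z i) s t) (e : Ex n) :
    HasDerivWithinAt (fun z => ev (J z) e) (dv (J t) (J t) Z e) s t := by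
  induction e with
  | v i => exact h i
  | c k => exact hasDerivWithinAt_const _ _ _
  | add a b ha hb => exact ha.add hb
  | mul a b ha hb => exact ha.mul hb
  | neg a ha => exact ha.neg

end

theorem hasD_ev {S : Set ℝ} {t : ℝ → ℂ} {J Z : Fin n → WA} (h : ∀ i, HasD S t (J i) (Z i))
    (e : Ex n) : HasD S t (ev J e) (dv J J Z e) := by
  induction e with
  | v i => exact h i
  | c k =>
    have : ((k : ℤ) : WA) = (k : ℂ) • WA.sc 1 := ev_inj fun w θ => by
      rw [ev_smul, ev_sc, ← evA_apply, map_intCast]; simp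
    change HasD S t (k : WA) 0
    rw [this]
    simpa using (HasD.sc S t 1).smul (k : ℂ)
  | add a b ha hb => exact ha.add hb
  | mul a b ha hb => exact ha.mul hb
  | neg a ha => exact ha.neg

end Ex

/-- the classes `U = (1, ω)`, `E = (σ, ω)`, `ε Q = (ε σ, ε d ω)` -/
def Kc (S : Set ℝ) (ε : ℝ) (d σ ω : ℝ → ℝ) (i : ℕ) (x : WA) (B : ℝ) : Prop :=
  match i with
  | 0 => Bd S 1 ω x B
  | 1 => Bd S σ ω x B
  | _ + 2 => Bd S (fun w => ε * σ w) (fun w => ε * d w * ω w) x B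

/-- the module classes `E', E', ε Q'` -/
def Mc (S : Set ℝ) (ε : ℝ) (d σ ω : ℝ → ℝ) (i : ℕ) (x : WA) (B : ℝ) : Prop :=
  Kc S ε d σ ω (max i 1) x B

/-- compatible weights -/
structure WSys (S : Set ℝ) (ε : ℝ) (d σ ω σ' ω' : ℝ → ℝ) : Prop where
  e0 : 0 ≤ ε
  e1 : ε ≤ 1
  d0 : ∀ w ∈ S, 0 ≤ d w
  d1 : ∀ w ∈ S, d w ≤ 1
  s0 : ∀ w ∈ S, 0 ≤ σ w
  o0 : ∀ w ∈ S, 0 ≤ ω w
  s0' : ∀ w ∈ S, 0 ≤ σ' w
  o0' : ∀ w ∈ S, 0 ≤ ω' w
  sd : ∀ w ∈ S, σ w ≤ ε * d w
  od : ∀ w ∈ S, ω w ≤ ε * d w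
  oo : ∀ w ∈ S, ω w * ω' w ≤ ε * σ' w
  os : ∀ w ∈ S, ω w * σ' w ≤ ε * d w * ω' w

section
variable {S : Set ℝ} {ε : ℝ} {d σ ω σ' ω' : ℝ → ℝ}

theorem Kc.mono {i : ℕ} {x : WA} {B B' : ℝ} (h : Kc S ε d σ ω i x B) (hB : B ≤ B') :
    Kc S ε d σ ω i x B' := by
  rcases i with _ | _ | i <;> exact Bd.mono h hB

theorem Kc.add {i : ℕ} {x y : WA} {B B' : ℝ} (h : Kc S ε d σ ω i x B) (h' : Kc S ε d σ ω i y B') :
    Kc S ε d σ ω i (x + y) (B + B') := by
  rcases i with _ | _ | i <;> exact Bd.add h h'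

theorem Kc.neg {i : ℕ} {x : WA} {B : ℝ} (h : Kc S ε d σ ω i x B) : Kc S ε d σ ω i (-x) B := by
  rcases i with _ | _ | i <;> exact Bd.neg h

theorem Kc.zero (i : ℕ) : Kc S ε d σ ω i 0 0 := by
  rcases i with _ | _ | i <;> exact Bd.zero _ _ _

theorem WSys.ed (H : WSys S ε d σ ω σ' ω') {w : ℝ} (hw : w ∈ S) : ε * d w ≤ 1 :=
  mul_le_one₀ H.e1 (H.d0 w hw) (H.d1 w hw)

theorem WSys.down21 (H : WSys S ε d σ ω σ' ω') {i : ℕ} {x : WA} {B : ℝ}
    (h : Kc S ε d σ' ω' (i + 1) x B) : Kc S ε d σ' ω' 1 x B := by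
  rcases i with _ | i
  · exact h
  · exact Bd.weaken' h (fun w hw => mul_le_of_le_one_left (H.s0' w hw) H.e1)
      fun w hw => mul_le_of_le_one_left (H.o0' w hw) (H.ed hw)

theorem WSys.Mdown (H : WSys S ε d σ ω σ' ω') {i j : ℕ} (hij : i ≤ j) {x : WA} {B : ℝ}
    (h : Mc S ε d σ' ω' j x B) : Mc S ε d σ' ω' i x B := by
  unfold Mc at h ⊢
  rcases j with _ | _ | j
  · rwa [Nat.le_zero.1 hij]
  · rwa [max_eq_right hij]
  · rcases i with _ | _ | i
    · exact H.down21 (i := j + 1) h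
    · exact H.down21 (i := j + 1) h
    · exact h

theorem WSys.Kdown (H : WSys S ε d σ ω σ ω) {i j : ℕ} (hij : i ≤ j) {x : WA} {B : ℝ}
    (h : Kc S ε d σ ω j x B) : Kc S ε d σ ω i x B := by
  rcases j with _ | j
  · rwa [Nat.le_zero.1 hij]
  rcases i with _ | i
  · exact Bd.weaken' (H.down21 h) (fun w hw => (H.sd w hw).trans (H.ed hw)) fun _ _ => le_rfl
  · have := H.Mdown (i := i + 1) (j := j + 1) hij (x := x) (B := B) (by simpa [Mc] using h)
    simpa [Mc] using this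

theorem WSys.mulM (H0 : WSys S ε d σ ω σ ω) (H : WSys S ε d σ ω σ' ω') {i j : ℕ} {x y : WA}
    {B B' : ℝ} (h : Kc S ε d σ ω i x B) (h' : Mc S ε d σ' ω' j y B') :
    Mc S ε d σ' ω' (i + j) (x * y) (B * B') := by
  have f : ∀ w ∈ S, 0 ≤ ε ∧ ε ≤ 1 ∧ 0 ≤ d w ∧ d w ≤ 1 ∧ 0 ≤ σ w ∧ 0 ≤ ω w ∧ 0 ≤ σ' w ∧ 0 ≤ ω' w ∧
      σ w ≤ ε * d w ∧ ω w ≤ ε * d w ∧ ω w * ω' w ≤ ε * σ' w ∧ ω w * σ' w ≤ ε * d w * ω' w ∧
      ε * d w ≤ 1 ∧ ε * d w ≤ ε := fun w hw =>
    ⟨H.e0, H.e1, H.d0 w hw, H.d1 w hw, H.s0 w hw, H.o0 w hw, H.s0' w hw, H.o0' w hw, H.sd w hw,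
      H.od w hw, H.oo w hw, H.os w hw, H.ed hw, mul_le_of_le_one_right H.e0 (H.d1 w hw)⟩
  have c01 : ∀ {x y : WA} {B B' : ℝ}, Kc S ε d σ ω 0 x B → Kc S ε d σ' ω' 1 y B' →
      Kc S ε d σ' ω' 1 (x * y) (B * B') := fun h h' => by
    refine Bd.mul h h' ?_ ?_ ?_ ?_ ?_ <;> intro w hw <;>
      obtain ⟨e0, e1, d0, d1, s0, o0, s0', o0', sd, od, oo, os, ed, ed'⟩ := f w hw <;>
      (try simp only [Pi.one_apply]) <;> nlinarith
  have c02 : ∀ {x y : WA} {B B' : ℝ}, Kc S ε d σ ω 0 x B → Kc S ε d σ' ω' 2 y B' →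
      Kc S ε d σ' ω' 2 (x * y) (B * B') := fun h h' => by
    refine Bd.mul h h' ?_ ?_ ?_ ?_ ?_ <;> intro w hw <;>
      obtain ⟨e0, e1, d0, d1, s0, o0, s0', o0', sd, od, oo, os, ed, ed'⟩ := f w hw <;>
      (try simp only [Pi.one_apply])
    · nlinarith
    · nlinarith [mul_nonneg o0 o0']
    · nlinarith
    · nlinarith [mul_nonneg o0 s0']
    · nlinarith [mul_nonneg (mul_nonneg e0 d0) o0']
  have c11 : ∀ {x y : WA} {B B' : ℝ}, Kc S ε d σ ω 1 x B → Kc S ε d σ' ω' 1 y B' →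
      Kc S ε d σ' ω' 2 (x * y) (B * B') := fun h h' => by
    refine Bd.mul h h' ?_ ?_ ?_ ?_ ?_ <;> intro w hw <;>
      obtain ⟨e0, e1, d0, d1, s0, o0, s0', o0', sd, od, oo, os, ed, ed'⟩ := f w hw <;> nlinarith
  unfold Mc at h' ⊢
  rcases i with _ | i
  · rw [zero_add]
    rcases j with _ | _ | j
    · exact c01 h h'
    · exact c01 h h'
    · exact c02 h h'
  · have h1 : Kc S ε d σ' ω' 1 y B' := H.Mdown (i := 1) (j := max j 1) (le_max_right _ _)
      (by simpa [Mc] using h')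
    have := c11 (H0.down21 h) h1
    exact H.Mdown (j := i + 1 + j + 2) (by omega) (by
      unfold Mc; rw [max_eq_left (by omega)]; exact this)

theorem WSys.mulK (H : WSys S ε d σ ω σ ω) {i j : ℕ} {x y : WA}
    {B B' : ℝ} (h : Kc S ε d σ ω i x B) (h' : Kc S ε d σ ω j y B') :
    Kc S ε d σ ω (i + j) (x * y) (B * B') := by
  rcases j with _ | j
  · rcases i with _ | i
    · refine Bd.mul h h' ?_ ?_ ?_ ?_ ?_ <;> intro w hw <;>
        have := H.o0 w hw <;> have := (H.od w hw).trans (H.ed hw) <;>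
        (try simp only [Pi.one_apply]) <;> nlinarith
    · have := H.mulM H h' (j := i + 1) (by simpa [Mc] using h)
      rw [mul_comm x, mul_comm B]
      simpa [Mc] using this
  · have := H.mulM H h (j := j + 1) (by simpa [Mc] using h')
    rwa [Mc, max_eq_left (by omega)] at this

theorem WSys.ev (H : WSys S ε d σ ω σ ω) {n : ℕ} {g : Fin n → ℕ} {J : Fin n → WA}
    (hJ : ∀ i, Kc S ε d σ ω (g i) (J i) 1) (e : Ex n) :
    Kc S ε d σ ω (e.gr g) (e.ev J) e.bd := by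
  induction e with
  | v i => simpa [Ex.bd, Ex.gr, Ex.ev] using hJ i
  | c k =>
    have h1 : Bd S 1 ω (WA.sc 1) 1 := Bd.sc zero_le_one fun w _ => by simp
    have : ((k : ℤ) : WA) = (k : ℂ) • WA.sc 1 := ev_inj fun w θ => by
      rw [ev_smul, ev_sc, ← evA_apply, map_intCast]; simp
    change Bd S 1 ω (k : WA) (k.natAbs : ℕ)
    rw [this]
    simpa using h1.smul (k : ℂ)
  | add a b ha hb =>
    simp only [Ex.bd, Nat.cast_add]
    exact (H.Kdown (min_le_left _ _) ha).add (H.Kdown (min_le_right _ _) hb)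
  | mul a b ha hb => simp only [Ex.bd, Nat.cast_mul]; exact H.mulK ha hb
  | neg a ha => exact ha.neg

theorem WSys.dv (H0 : WSys S ε d σ ω σ ω) (H : WSys S ε d σ ω σ' ω') {n : ℕ} {g : Fin n → ℕ}
    {J J' Z : Fin n → WA} {B : ℝ} (hJ : ∀ i, Kc S ε d σ ω (g i) (J i) 1)
    (hJ' : ∀ i, Kc S ε d σ ω (g i) (J' i) 1) (hZ : ∀ i, Mc S ε d σ' ω' (g i) (Z i) B)
    (e : Ex n) : Mc S ε d σ' ω' (e.gr g) (e.dv J J' Z) (e.bd' * B) := by
  induction e with
  | v i => simpa [Ex.bd', Ex.gr, Ex.dv] using hZ i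
  | c k => simpa [Ex.bd', Ex.dv, Mc] using Kc.zero _
  | add a b ha hb =>
    simp only [Ex.bd', Nat.cast_add, add_mul]
    exact Kc.add (H.Mdown (min_le_left _ _) ha) (H.Mdown (min_le_right _ _) hb)
  | mul a b ha hb =>
    have h1 := H0.mulM H (H0.ev hJ b) ha
    have h2 := H0.mulM H (H0.ev hJ' a) hb
    rw [add_comm, mul_comm] at h1
    refine (Kc.add h1 h2).mono (le_of_eq ?_)
    simp only [Ex.bd', Nat.cast_add, Nat.cast_mul]; ring
  | neg a ha => exact Kc.neg ha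

end

end Vale.Agent.P218EN
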