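import Vale.Agent.P218EN.Apr

/-! The Green operator of the factorised model problem. -/

namespace Vale.Agent.P218EN
open Filter Topology Set Complex WA

/-- terminal value of the fast variable -/
noncomputable def mdW (a b t : ℝ) (A n g : CB) (y0 d : ℂ) : ℂ :=
  (A b * d + (n b + A b) * (y0 • Hm a b t (-n) + Vo a b t (-n) (Vo a b b (1 + n) (A * g))) b) /
    (1 - (n b + A b) * Vo a b t (-n) (Hm a b b (1 + n)) b)

/-- fast variable -/
noncomputable def mdP (a b t : ℝ) (A n g : CB) (y0 d : ℂ) : CB :=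
  Vo a b b (1 + n) (A * g) + mdW a b t A n g y0 d • Hm a b b (1 + n)

/-- slow variable -/
noncomputable def mdY (a b t : ℝ) (A n g : CB) (y0 d : ℂ) : CB :=
  y0 • Hm a b t (-n) + Vo a b t (-n) (mdP a b t A n g y0 d)

section
variable {a b t : ℝ} {A n g : CB} {y0 d : ℂ}

theorem hasDeriv_mdP {w : ℝ} (hw : w ∈ Icc a b) : HasDerivWithinAt (mdP a b t A n g y0 d)
    ((1 + n w) * mdP a b t A n g y0 d w + A w * g w) (Icc a b) w := by
  refine ((hasDeriv_Vo a b b (1 + n) (A * g) hw).add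
    ((hasDeriv_Hm a b b (1 + n) hw).const_mul (mdW a b t A n g y0 d))).congr_deriv ?_
  simp only [mdP, BoundedContinuousFunction.add_apply, BoundedContinuousFunction.mul_apply,
    BoundedContinuousFunction.smul_apply, smul_eq_mul, BoundedContinuousFunction.coe_one,
    Pi.one_apply]
  ring

theorem hasDeriv_mdY {w : ℝ} (hw : w ∈ Icc a b) : HasDerivWithinAt (mdY a b t A n g y0 d)
    (-n w * mdY a b t A n g y0 d w + mdP a b t A n g y0 d w) (Icc a b) w := by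
  refine (((hasDeriv_Hm a b t (-n) hw).const_mul y0).add
    (hasDeriv_Vo a b t (-n) (mdP a b t A n g y0 d) hw)).congr_deriv ?_
  simp only [mdY, BoundedContinuousFunction.add_apply, BoundedContinuousFunction.neg_apply,
    BoundedContinuousFunction.smul_apply, smul_eq_mul]
  ring

theorem mdY_self (ht : t ∈ Icc a b) : mdY a b t A n g y0 d t = y0 := by
  simp [mdY, Hm_self ht, Vo_self ht]

theorem mdP_right (hab : a ≤ b) (h : 1 - (n b + A b) * Vo a b t (-n) (Hm a b b (1 + n)) b ≠ 0) :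
    mdP a b t A n g y0 d b = A b * d + (n b + A b) * mdY a b t A n g y0 d b := by
  have hb := right_mem_Icc.2 hab
  have e1 : mdP a b t A n g y0 d b = mdW a b t A n g y0 d := by
    simp [mdP, Hm_self hb, Vo_self hb]
  have e2 : mdY a b t A n g y0 d b =
      (y0 • Hm a b t (-n) + Vo a b t (-n) (Vo a b b (1 + n) (A * g))) b +
        mdW a b t A n g y0 d * Vo a b t (-n) (Hm a b b (1 + n)) b := by
    simp only [mdY, mdP, Vo, mul_add, map_add, mul_smul_comm, map_smul,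
      BoundedContinuousFunction.add_apply, BoundedContinuousFunction.smul_apply, smul_eq_mul]
    ring
  have e3 := div_mul_cancel₀ (A b * d + (n b + A b) *
    (y0 • Hm a b t (-n) + Vo a b t (-n) (Vo a b b (1 + n) (A * g))) b) h
  rw [e1, e2]
  change mdW a b t A n g y0 d * _ = _ at e3
  linear_combination e3

theorem mdP_cl (hab : a ≤ b) (w : ℝ) :
    mdP a b t A n g y0 d (cl a b w) = mdP a b t A n g y0 d w := by
  simp only [mdP, BoundedContinuousFunction.add_apply, BoundedContinuousFunction.smul_apply,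
    Vo_cl hab, Hm_cl hab]

theorem mdY_cl (hab : a ≤ b) (w : ℝ) :
    mdY a b t A n g y0 d (cl a b w) = mdY a b t A n g y0 d w := by
  simp only [mdY, BoundedContinuousFunction.add_apply, BoundedContinuousFunction.smul_apply,
    Vo_cl hab, Hm_cl hab]

end

section
variable {E : Type*} [NormedAddCommGroup E] [NormedSpace ℂ E] {U : Set E} {a b t : ℝ}
  {A n g : E → CB} {y0 d : E → ℂ}

theorem differentiableOn_md (hA : DifferentiableOn ℂ A U) (hn : DifferentiableOn ℂ n U)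
    (hg : DifferentiableOn ℂ g U) (hy : DifferentiableOn ℂ y0 U) (hd : DifferentiableOn ℂ d U)
    (h : ∀ z ∈ U, 1 - (n z b + A z b) * Vo a b t (-n z) (Hm a b b (1 + n z)) b ≠ 0) :
    DifferentiableOn ℂ (fun z => mdP a b t (A z) (n z) (g z) (y0 z) (d z)) U ∧
      DifferentiableOn ℂ (fun z => mdY a b t (A z) (n z) (g z) (y0 z) (d z)) U := by
  have h1 : DifferentiableOn ℂ (fun z => 1 + n z) U := hn.const_add 1
  have h2 := differentiableOn_Vo a b b h1 (hA.mul hg)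
  have h3 := differentiableOn_Hm a b b h1
  have h4 := hy.smul (differentiableOn_Hm a b t hn.neg)
  have h5 := (differentiableOn_CB_apply hn b).add (differentiableOn_CB_apply hA b)
  have hW : DifferentiableOn ℂ (fun z => mdW a b t (A z) (n z) (g z) (y0 z) (d z)) U := by
    simp only [mdW, div_eq_mul_inv]
    exact (((differentiableOn_CB_apply hA b).mul hd).add (h5.mul (differentiableOn_CB_apply
      (h4.add (differentiableOn_Vo a b t hn.neg h2)) b))).mul
      (((h5.mul (differentiableOn_CB_apply (differentiableOn_Vo a b t hn.neg h3) b)).const_sub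
        1).inv h)
  have hP : DifferentiableOn ℂ (fun z => mdP a b t (A z) (n z) (g z) (y0 z) (d z)) U :=
    h2.add (hW.smul h3)
  exact ⟨hP, h4.add (differentiableOn_Vo a b t hn.neg hP)⟩

end

/-- symbol `n` of the mode `k` -/
noncomputable def nB (a b s : ℝ) (A : ℝ → ℂ) (k : ℤ) : CB := mkB a b fun w => nn (kp s k) (A w)

/-- slow variable of the mode `k` -/
noncomputable def gY (a b s : ℝ) (A : ℝ → ℂ) (g ξ D0 D1 : WA) (k : ℤ) : CB :=
  mdY a b (pt a b s k) (mkB a b A) (nB a b s A k) (g.co k)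
    (ξ.co k (pt a b s k) / (1 + (k : ℂ) ^ 2))
    ((D0.co k b - I * k.sign * D1.co k b) / (1 + |k| * Complex.sqrt (A b)))

/-- normalised derivative of the mode `k` -/
noncomputable def gP (a b s : ℝ) (A : ℝ → ℂ) (g ξ D0 D1 : WA) (k : ℤ) : CB :=
  mkB a b (fun w => (A w)⁻¹) * (mdP a b (pt a b s k) (mkB a b A) (nB a b s A k) (g.co k)
    (ξ.co k (pt a b s k) / (1 + (k : ℂ) ^ 2))
    ((D0.co k b - I * k.sign * D1.co k b) / (1 + |k| * Complex.sqrt (A b))) -
      nB a b s A k * gY a b s A g ξ D0 D1 k)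

/-- jets of the mode `k` -/
noncomputable def gJ (a b s : ℝ) (A A' : ℝ → ℂ) (g ξ D0 D1 : WA) (k : ℤ) : Fin 6 → CB :=
  ![gY a b s A g ξ D0 D1 k, ((k : ℂ) * I) • gY a b s A g ξ D0 D1 k,
    (-(k : ℂ) ^ 2) • gY a b s A g ξ D0 D1 k, gP a b s A g ξ D0 D1 k,
    gP a b s A g ξ D0 D1 k + (comp (cl a b) g).co k +
      ((kp s k : ℂ) • gY a b s A g ξ D0 D1 k - ccB a b s A A' k * gY a b s A g ξ D0 D1 k),
    ((k : ℂ) * I) • (mkB a b (fun w => Complex.sqrt (A w)) * gP a b s A g ξ D0 D1 k)]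

/-- the Green operator -/
noncomputable def Gr (a b s : ℝ) (A A' : ℝ → ℂ) (g ξ D0 D1 : WA) (i : Fin 6) : WA :=
  ofSeq fun k => gJ a b s A A' g ξ D0 D1 k i

namespace Coef
variable {a b ε s C : ℝ} {A A' : ℝ → ℂ} {ρ : ℤ → ℝ} {d σ ω : ℝ → ℝ} {g ξ D0 D1 : WA}

theorem cont_inv (H : Coef a b A A' ε) : ContinuousOn (fun w => (A w)⁻¹) (Icc a b) :=
  H.cA.inv₀ fun _ hw => norm_pos_iff.1 (H.A0 hw)

theorem den_ne (H : Coef a b A A' ε) (hs : s = -2 ∨ s = 2) (k : ℤ) :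
    1 - (nB a b s A k b + mkB a b A b) *
      Vo a b (pt a b s k) (-nB a b s A k) (Hm a b b (1 + nB a b s A k)) b ≠ 0 := by
  have hb := right_mem_Icc.2 H.le
  unfold pt
  split_ifs
  · have hn : ∀ w ∈ Icc a b, nB a b s A k w = nn (kp s k) (A w) := fun w hw =>
      mkB_of_mem (H.cont_nn _) hw
    have := (H.mc (kp_ge hs k)).coupling
      (Y := fun w => Vo a b a (-nB a b s A k) (Hm a b b (1 + nB a b s A k)) w *
        Hm a b b (-(1 + nB a b s A k)) w) (fun w hw => by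
          refine ((hasDeriv_Vo a b a _ _ hw).mul (hasDeriv_Hm a b b _ hw)).congr_deriv ?_
          simp only [BoundedContinuousFunction.add_apply, BoundedContinuousFunction.neg_apply,
            BoundedContinuousFunction.coe_one, Pi.one_apply, hn w hw]
          linear_combination Hm_mul_neg a b b (1 + nB a b s A k) w)
      (by simp only [Vo_self (left_mem_Icc.2 H.le), zero_mul])
    simp only [Hm_self hb, mul_one] at this
    rw [hn b hb, mkB_of_mem H.cA hb]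
    intro h
    rw [← sub_eq_zero.1 h, norm_one] at this
    norm_num at this
  · simp [Vo_self hb]

theorem gP_eq (H : Coef a b A A' ε) (k : ℤ) {w : ℝ} (hw : w ∈ Icc a b) :
    A w * gP a b s A g ξ D0 D1 k w + nn (kp s k) (A w) * gY a b s A g ξ D0 D1 k w =
      mdP a b (pt a b s k) (mkB a b A) (nB a b s A k) (g.co k)
        (ξ.co k (pt a b s k) / (1 + (k : ℂ) ^ 2))
        ((D0.co k b - I * k.sign * D1.co k b) / (1 + |k| * Complex.sqrt (A b))) w := by
  have h0 : A w ≠ 0 := norm_pos_iff.1 (H.A0 hw)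
  simp only [gP, BoundedContinuousFunction.mul_apply, BoundedContinuousFunction.sub_apply,
    mkB_of_mem H.cont_inv hw, nB, mkB_of_mem (H.cont_nn _) hw]
  field_simp
  ring

theorem g_mEq (H : Coef a b A A' ε) (k : ℤ) :
    MEq a b A (kp s k) (gY a b s A g ξ D0 D1 k) (gP a b s A g ξ D0 D1 k) (g.co k) := by
  refine ⟨fun w hw => (hasDeriv_mdY hw).congr_deriv ?_, fun w hw => ?_⟩
  · rw [← H.gP_eq k hw, nB, mkB_of_mem (H.cont_nn _) hw, gY, nB]; ring
  · refine ((hasDeriv_mdP hw).congr (fun u hu => H.gP_eq k hu) (H.gP_eq k hw)).congr_deriv ?_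
    rw [← H.gP_eq k hw, nB, mkB_of_mem (H.cont_nn _) hw, mkB_of_mem H.cA hw]

theorem g_dir (H : Coef a b A A' ε) (k : ℤ) :
    (1 + (k : ℂ) ^ 2) * gY a b s A g ξ D0 D1 k (pt a b s k) = ξ.co k (pt a b s k) := by
  rw [gY, mdY_self (pt_mem H.le s k), mul_div_cancel₀ _ (one_add_sq_ne k)]

theorem g_rob (H : Coef a b A A' ε) (hs : s = -2 ∨ s = 2) (k : ℤ) :
    (1 + |k| * Complex.sqrt (A b)) * (gP a b s A g ξ D0 D1 k b - gY a b s A g ξ D0 D1 k b) =
      D0.co k b - I * k.sign * D1.co k b := by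
  have hb := right_mem_Icc.2 H.le
  have h0 : A b ≠ 0 := norm_pos_iff.1 (H.A0 hb)
  have h1 := H.gP_eq (s := s) (g := g) (ξ := ξ) (D0 := D0) (D1 := D1) k hb
  rw [mdP_right H.le (H.den_ne hs k), ← gY, mkB_of_mem H.cA hb, nB,
    mkB_of_mem (H.cont_nn _) hb] at h1
  rw [← mul_div_cancel₀ (D0.co k b - I * k.sign * D1.co k b) (rob_ne k (H.re b hb))]
  congr 1
  refine mul_left_cancel₀ h0 ?_
  linear_combination h1

theorem gJ_cl (H : Coef a b A A' ε) (k : ℤ) (i : Fin 6) (w : ℝ) :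
    gJ a b s A A' g ξ D0 D1 k i (cl a b w) = gJ a b s A A' g ξ D0 D1 k i w := by
  have h1 : gY a b s A g ξ D0 D1 k (cl a b w) = gY a b s A g ξ D0 D1 k w := mdY_cl H.le w
  have h2 : gP a b s A g ξ D0 D1 k (cl a b w) = gP a b s A g ξ D0 D1 k w := by
    simp only [gP, BoundedContinuousFunction.mul_apply, BoundedContinuousFunction.sub_apply, h1,
      mdP_cl H.le, nB, mkB_apply H.le (H.cont_nn _), mkB_apply H.le H.cont_inv, cl_cl H.le]
  fin_cases i <;>
    simp [gJ, h1, h2, ccB, mkB_apply H.le (H.cont_cc _), mkB_apply H.le H.cont_sqrt, cl_cl H.le]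

theorem gJ_est (H : Coef a b A A' ε) (O : GB a b s A (pt a b s) ρ d σ ω C) {Bg Bξ B0 B1 : ℝ}
    (hg : Bd (Icc a b) σ (fun w => d w * ω w) g Bg) (hξ : BdX (pt a b s) ρ ξ Bξ)
    (hD0 : Bd {b} σ ω D0 B0) (hD1 : Bd {b} σ ω D1 B1) :
    ∃ c : ℤ → ℝ, (∀ k, 0 ≤ c k) ∧ Summable c ∧ ∑' k, c k ≤ 10 * C * (Bg + Bξ + B0 + B1) ∧
      ∀ i k, ∀ w ∈ Icc a b, ‖gJ a b s A A' g ξ D0 D1 k i w‖ ≤ c k * wt σ ω k w :=
  H.seq_est O (j := fun k i => gJ a b s A A' g ξ D0 D1 k i) (fun k => H.g_mEq k)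
    (fun k w _ => by simp [gJ]) (fun k w _ => by simp [gJ])
    (fun k w hw => by simp [gJ, cl_of_mem hw, ccB, mkB_of_mem (H.cont_cc _) hw, sub_mul])
    (fun k w hw => by simp [gJ, mkB_of_mem H.cont_sqrt hw]; ring)
    (fun k => H.g_dir k) (fun k => H.g_rob O.hs k) hg hξ hD0 hD1

theorem gb0 (H : Coef a b A A' ε) : GB a b (-2) A (pt a b (-2))
    (fun k => wt (fun w => Real.exp (a - w)) 1 k (pt a b (-2) k)) (dl A)
    (fun w => Real.exp (a - w)) 1 3000000 := by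
  refine H.gb ⟨⟨0, fun _ _ => one_pos, fun w _ => hasDerivWithinAt_const _ _ _, fun w hw => ?_,
    fun w hw => ?_⟩, Or.inl ⟨rfl, fun w => -Real.exp (a - w), fun _ _ => Real.exp_pos _,
      fun w _ => ?_, fun w hw => ?_⟩⟩
  · simpa using (H.re w hw).le
  · simpa using (H.re w hw).le
  · simpa using ((hasDerivAt_id w).const_sub a).exp.hasDerivWithinAt
  · nlinarith [H.As hw, Real.exp_pos (a - w), mul_pos (H.re w hw) (Real.exp_pos (a - w))]

theorem gJ_plain (H : Coef a b A A' ε) {M : ℝ} (hM : ∀ w ∈ Icc a b, ‖(A w)⁻¹‖ ≤ M) :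
    ∃ c : ℤ → ℝ, Summable c ∧
      ∑' k, c k ≤ 30000000 * (Real.exp (b - a) + M) * (‖g‖ + ‖ξ‖ + ‖D0‖ + ‖D1‖) ∧
      ∀ i k, ‖gJ a b (-2) A A' g ξ D0 D1 k i‖ ≤ c k := by
  have hb := right_mem_Icc.2 H.le
  have M0 : 0 ≤ M := (norm_nonneg _).trans (hM b hb)
  have t0 : 0 ≤ Real.exp (b - a) + M := by positivity
  have w1 : ∀ w ∈ Icc a b, (1 : ℝ → ℝ) w ≤ (Real.exp (b - a) + M) * Real.exp (a - w) :=
    fun w hw => by
      have : 1 ≤ Real.exp (b - a) * Real.exp (a - w) := by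
        rw [← Real.exp_add]; exact Real.one_le_exp (by linarith [hw.2])
      simp only [Pi.one_apply]
      nlinarith [Real.exp_pos (a - w)]
  have w2 : ∀ w ∈ Icc a b, (1 : ℝ → ℝ) w ≤ (Real.exp (b - a) + M) * (dl A w * (1 : ℝ → ℝ) w) :=
    fun w hw => by
      have h1 := hM w hw
      have h0 := H.A0 hw
      rw [norm_inv, inv_le_iff_one_le_mul₀ h0] at h1
      have h2 : ‖A w‖ ≤ dl A w := by nlinarith [H.A_le hw, H.dl_pos hw, H.e1]
      simp only [Pi.one_apply]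
      nlinarith [mul_le_mul_of_nonneg_left h2 M0, mul_pos (Real.exp_pos (b - a)) (H.dl_pos hw)]
  have w3 : ∀ w ∈ Icc a b, (1 : ℝ → ℝ) w ≤ (Real.exp (b - a) + M) * (1 : ℝ → ℝ) w :=
    fun w _ => by
      simp only [Pi.one_apply]
      linarith [Real.one_le_exp (sub_nonneg.2 H.le)]
  have key : ∀ x : WA, Bd (Icc a b) (fun w => Real.exp (a - w)) 1 x
      ((Real.exp (b - a) + M) * ‖x‖) := fun x => (Bd.of_norm _ x).weaken t0 w1 w3
  obtain ⟨c, c0, c1, c2, c3⟩ := H.gJ_est H.gb0 ((Bd.of_norm _ g).weaken t0 w1 w2)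
    ((key ξ).bdX (pt_mem H.le _)) ((key D0).subset (singleton_subset_iff.2 hb))
    ((key D1).subset (singleton_subset_iff.2 hb))
  refine ⟨c, c1, c2.trans_eq (by ring), fun i k =>
    (BoundedContinuousFunction.norm_le (c0 k)).2 fun w => ?_⟩
  rw [← H.gJ_cl]
  refine (c3 i k _ (cl_mem H.le w)).trans (mul_le_of_le_one_right (c0 k) ?_)
  unfold wt; split_ifs
  · exact Real.exp_le_one_iff.2 (by linarith [(cl_mem H.le w).1])
  · exact le_rfl

theorem co_Gr (H : Coef a b A A' ε) (i : Fin 6) (k : ℤ) :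
    (Gr a b (-2) A A' g ξ D0 D1 i).co k = gJ a b (-2) A A' g ξ D0 D1 k i := by
  obtain ⟨M, hM⟩ := isCompact_Icc.exists_bound_of_continuousOn H.cont_inv
  obtain ⟨c, c1, -, c3⟩ := H.gJ_plain (g := g) (ξ := ξ) (D0 := D0) (D1 := D1) hM
  exact co_ofSeq (Summable.of_nonneg_of_le (fun _ => norm_nonneg _) (c3 i) c1) k

theorem bd_Gr (H : Coef a b A A' ε) (O : GB a b (-2) A (pt a b (-2)) ρ d σ ω C)
    {Bg Bξ B0 B1 : ℝ} (hg : Bd (Icc a b) σ (fun w => d w * ω w) g Bg)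
    (hξ : BdX (pt a b (-2)) ρ ξ Bξ) (hD0 : Bd {b} σ ω D0 B0) (hD1 : Bd {b} σ ω D1 B1) (i) :
    Bd (Icc a b) σ ω (Gr a b (-2) A A' g ξ D0 D1 i) (10 * C * (Bg + Bξ + B0 + B1)) := by
  obtain ⟨c, c0, c1, c2, c3⟩ := H.gJ_est O hg hξ hD0 hD1
  exact ⟨c, c0, c1, c2, fun k w hw => by rw [H.co_Gr]; exact c3 i k w hw⟩

theorem comp_Gr (H : Coef a b A A' ε) (i : Fin 6) :
    comp (cl a b) (Gr a b (-2) A A' g ξ D0 D1 i) = Gr a b (-2) A A' g ξ D0 D1 i :=
  ext'' fun k w => by rw [co_comp, H.co_Gr, H.gJ_cl]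

theorem jet_Gr (H : Coef a b A A' ε) : Jet a b A (Gr a b (-2) A A' g ξ D0 D1) := by
  refine ⟨fun k w hw => ?_, fun k w hw => ?_, fun k w _ => ?_, fun k w _ => ?_,
    fun k w hw => ?_⟩ <;> simp only [H.co_Gr]
  · exact (H.g_mEq k).hy w hw
  · have h0 : A w ≠ 0 := norm_pos_iff.1 (H.A0 hw)
    have := ((H.g_mEq (s := -2) (g := g) (ξ := ξ) (D0 := D0) (D1 := D1) k).hP w hw).fun_sub
      ((H.hasDeriv_nn (kp (-2) k) hw).mul
        ((H.g_mEq (s := -2) (g := g) (ξ := ξ) (D0 := D0) (D1 := D1) k).hy w hw))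
    simp only [Pi.mul_apply, add_sub_cancel_right] at this
    refine this.congr_deriv ?_
    simp [gJ, cl_of_mem hw, ccB, mkB_of_mem (H.cont_cc _) hw]
    rw [cc]
    field_simp
    ring
  · simp [gJ]
  · simp [gJ]
    linear_combination (-(k : ℂ) ^ 2 * gY a b (-2) A g ξ D0 D1 k w) * I_sq
  · simp [gJ, mkB_of_mem H.cont_sqrt hw]; ring

theorem eq_Gr (H : Coef a b A A' ε) :
    WEq (Icc a b) (Lm (-2) (Gr a b (-2) A A' g ξ D0 D1)) (g - Cor a b (-2) A A'
      (Gr a b (-2) A A' g ξ D0 D1 0 - Gr a b (-2) A A' g ξ D0 D1 2)) := fun k w hw => by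
  rw [co_sub, BoundedContinuousFunction.sub_apply, H.co_Cor_jet (Or.inl rfl) H.jet_Gr k hw]
  simp [Lm, H.co_Gr, gJ, cl_of_mem hw, ccB, mkB_of_mem (H.cont_cc _) hw, kp]
  ring

theorem dir_Gr (H : Coef a b A A' ε) (k : ℤ) : (1 + (k : ℂ) ^ 2) *
    (Gr a b (-2) A A' g ξ D0 D1 0).co k (pt a b (-2) k) = ξ.co k (pt a b (-2) k) := by
  rw [H.co_Gr]; exact H.g_dir k

theorem rob_Gr (H : Coef a b A A' ε) (k : ℤ) : (1 + |k| * Complex.sqrt (A b)) *
    ((Gr a b (-2) A A' g ξ D0 D1 3).co k b - (Gr a b (-2) A A' g ξ D0 D1 0).co k b) =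
      D0.co k b - I * k.sign * D1.co k b := by
  rw [H.co_Gr, H.co_Gr]; exact H.g_rob (Or.inl rfl) k

end Coef
end Vale.Agent.P218EN
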