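import Vale.Agent.P218CH.EndX
import Vale.Agent.P218E2.Repin
import Vale.Agent.P218PB.Lip

/-! Dependence of the solution on the profile parameter at fixed level. -/

namespace Vale.Agent.P218EN
open Set Complex WA Metric
open Vale.Agent.P218CH (fn Prof cmu co_fn_mul mu_sq rA)
open Vale.Agent.P218E2 (NT mu_sub_one wt_comp bd_fn_mul)
open Vale.Agent.P218PB (Cl cl_L2 cl_area mean_sub)

/-- the jets of the same function `η`, normalised for the profile `0` -/
noncomputable def rn (a b : ℝ) (α : ℂ) (J : Fin 6 → WA) : Fin 6 → WA :=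
  ![J 0, J 1, J 2, fn a b (fun w => P218CH.mu α 0 w ^ 2) * J 3,
    fn a b (fun w => P218CH.mu α 0 w ^ 2) * J 4, fn a b (P218CH.mu α 0) * J 5]

theorem WSys.mul {S : Set ℝ} {ε : ℝ} {d σ ω φ : ℝ → ℝ} (H : WSys S ε d σ ω σ ω)
    (h : ∀ w ∈ S, 0 ≤ φ w) : WSys S ε d σ ω (fun w => φ w * σ w) fun w => φ w * ω w :=
  ⟨H.e0, H.e1, H.d0, H.d1, H.s0, H.o0, fun w hw => mul_nonneg (h w hw) (H.s0 w hw),
    fun w hw => mul_nonneg (h w hw) (H.o0 w hw), H.sd, H.od,
    fun w hw => by nlinarith [mul_le_mul_of_nonneg_left (H.oo w hw) (h w hw)],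
    fun w hw => by nlinarith [mul_le_mul_of_nonneg_left (H.os w hw) (h w hw)]⟩

theorem dl_zero {a0 w : ℝ} (p : Pt a0 0 w) : dl (Af 0) w = 1 := by simp [p.dl_eq]

theorem Rg.wts_w {a0 a b : ℝ} (h : Rg a0 a b 0) :
    Wts a b (-2) (Af 0) (fun w => w * sg a0 0 w) fun w => w * om a0 0 w := by
  have e : ∀ w ∈ Icc a b, w * mu 0 w ^ 2 = 1 / 2 ∧ (Af 0 w).re = mu 0 w ^ 2 := fun w hw => by
    have p := h.pt hw
    have := p.w_pos
    exact ⟨by rw [p.mu_sq]; simp; field_simp, by rw [p.re_Af', dl_zero p]; simp⟩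
  have O : AdmO a b (Af 0) (fun w => w * om a0 0 w)
      fun w => 1 * om a0 0 w + w * (-2 * (7 / 8) * (Af 0 w).re * om a0 0 w) := by
    refine ⟨fun w hw => mul_pos (h.pt hw).w_pos (h.pt hw).om_pos,
      fun w hw => (hasDerivWithinAt_id w _).fun_mul (h.admO_om.hd w hw), fun w hw => ?_,
      fun w hw => ?_⟩ <;> rw [(e w hw).2] <;>
      nlinarith [(h.pt hw).om_pos, congrArg (· * om a0 0 w) (e w hw).1]
  obtain ⟨σ', S⟩ := h.admS (ψ := fun w => w * om a0 0 w + w * mu 0 w)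
    (fun w hw => add_pos (O.pos w hw) (mul_pos (h.pt hw).w_pos (h.pt hw).mu_pos))
    (fun w hw => (O.hd w hw).fun_add ((hasDerivWithinAt_id w _).fun_mul
      (h.pt hw).hasDerivAt_mu.hasDerivWithinAt)) fun w hw => by
      rw [(e w hw).2]
      simp only [zero_mul, sub_zero, one_re, id]
      nlinarith [(h.pt hw).om_pos, congrArg (· * om a0 0 w) (e w hw).1,
        congrArg (· * mu 0 w) (e w hw).1]
  refine ⟨⟨_, O⟩, Or.inl ⟨rfl, σ', ?_⟩⟩
  convert S using 2 with w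
  rw [sg]; ring

theorem sg_zero_le {a0 w : ℝ} (p : Pt a0 0 w) : sg a0 0 w ≤ 2 * (√w)⁻¹ ∧ om a0 0 w ≤ 2 * (√w)⁻¹ := by
  have w0 := p.w_pos
  have a0' := p.a0_pos
  have s0 := p.s_pos
  have h1 : om a0 0 w ≤ (√w)⁻¹ := by
    have h2 := Real.rpow_le_rpow_of_exponent_ge (x := a0 / w) (y := 7 / 8) (z := 1 / 2)
      (by positivity) ((div_le_one w0).2 p.le) (by norm_num)
    rw [← Real.sqrt_eq_rpow, Real.sqrt_div a0'.le] at h2
    rw [om, p.tau_eq, inv_mul_le_iff₀ s0]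
    simpa [div_eq_mul_inv] using h2
  have h2 : mu 0 w ≤ (√w)⁻¹ := by
    rw [mu]; gcongr; simp; linarith
  rw [sg, dl_zero p]
  exact ⟨by linarith, by linarith [inv_pos.2 (Real.sqrt_pos.2 w0)]⟩

/-- the parameter is small on `[a, b]` -/
structure Sm (a b : ℝ) (α : ℂ) : Prop where
  big : 10 ^ 30 ≤ a
  le : a ≤ b
  small : ‖α‖ * b ≤ 1 / 8

namespace Sm
variable {a b w : ℝ} {α : ℂ} {J : Fin 6 → WA} (h : Sm a b α)
include h

theorem nt : NT a b α := ⟨by linarith [h.big], h.le, by linarith [h.small]⟩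
theorem nt0 : NT a b 0 := ⟨by linarith [h.big], h.le, by simp⟩
theorem rg : Rg a a b α := h.nt.rg h.big le_rfl
theorem rg0 : Rg a a b 0 := h.nt0.rg h.big le_rfl

theorem m (hw : w ∈ Icc a b) : ‖P218CH.mu α 0 w ^ 2 - 1‖ ≤ 2 * ‖α‖ * w ∧
    ‖P218CH.mu α 0 w - 1‖ ≤ 2 * ‖α‖ * w ∧ ‖P218CH.mu α 0 w ^ 2‖ ≤ 4 / 3 ∧
    ‖P218CH.mu α 0 w‖ ≤ 4 / 3 := by
  have h1 := mu_sub_one h.nt h.nt0.prof hw
  have h2 := (mul_le_mul_of_nonneg_left hw.2 (norm_nonneg α)).trans h.small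
  have h3 := norm_le_norm_sub_add (P218CH.mu α 0 w ^ 2) 1
  have h4 := norm_le_norm_sub_add (P218CH.mu α 0 w) 1
  rw [sub_zero] at h1
  rw [norm_one] at h3 h4
  exact ⟨by linarith [h1.1], by linarith [h1.2], by linarith [h1.1], by linarith [h1.2]⟩

theorem cm : ContinuousOn (P218CH.mu α 0) (Icc a b) := cmu h.nt.prof h.nt0.prof
theorem cm2 : ContinuousOn (fun w => P218CH.mu α 0 w ^ 2) (Icc a b) := h.cm.pow 2

theorem A_eq (hw : w ∈ Icc a b) : Af 0 w * P218CH.mu α 0 w ^ 2 = Af α w := by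
  rw [mu_sq, mul_div_cancel₀ _ (h.nt0.prof.A_ne hw)]

theorem r_eq (hw : w ∈ Icc a b) :
    Complex.sqrt (Af 0 w) * P218CH.mu α 0 w = Complex.sqrt (Af α w) :=
  mul_div_cancel₀ _ (h.nt0.prof.rA_ne hw)

theorem jet (hJ : Jet a b (Af α) J) : Jet a b (Af 0) (rn a b α J) := by
  have e : ∀ x : WA, ∀ k, ∀ w ∈ Icc a b,
      Af 0 w * (fn a b (fun w => P218CH.mu α 0 w ^ 2) * x).co k w = Af α w * x.co k w :=
    fun x k w hw => by rw [co_fn_mul h.cm2 hw, ← mul_assoc, h.A_eq hw]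
  refine ⟨fun k w hw => (hJ.d0 k w hw).congr_deriv (e _ k w hw).symm, fun k w hw =>
    ((hJ.d3 k w hw).congr (e _ k) (e _ k w hw)).congr_deriv (e _ k w hw).symm, hJ.t1, hJ.t2,
    fun k w hw => ?_⟩
  change (fn a b _ * J 5).co k w = _ * (fn a b _ * J 3).co k w
  rw [co_fn_mul h.cm hw, co_fn_mul h.cm2 hw, hJ.t5 k w hw]
  simp only [← h.r_eq hw]
  ring

theorem bd0 {x : WA} (hx : Bd (Icc a b) (sg a α) (om a α) x (1 / 8)) :
    Bd (Icc a b) (sg a 0) (om a 0) x (3 / 4) :=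
  (hx.weaken (t := 6) (by norm_num) (fun w hw => (wt_comp h.nt0 h.nt h.big le_rfl hw hw le_rfl).2)
    fun w hw => by
      linarith [(wt_comp h.nt0 h.nt h.big le_rfl hw hw le_rfl).1, (h.rg0.pt hw).om_pos]).mono
    (by norm_num)

theorem bd_rn (hJ : ∀ i, Bd (Icc a b) (sg a 0) (om a 0) (J i) (3 / 4)) (i : Fin 6) :
    Bd (Icc a b) (sg a 0) (om a 0) (rn a b α J i) 1 := by
  fin_cases i
  iterate 3 exact (hJ _).mono (by norm_num)
  iterate 2
    exact (bd_fn_mul subset_rfl h.cm2 (by norm_num) (fun w hw => (h.m hw).2.2.1) (hJ _)).mono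
      (by norm_num)
  exact (bd_fn_mul subset_rfl h.cm (by norm_num) (fun w hw => (h.m hw).2.2.2) (hJ _)).mono
    (by norm_num)

theorem bd_rn_sub (hJ : ∀ i, Bd (Icc a b) (sg a 0) (om a 0) (J i) (3 / 4)) (i : Fin 6) :
    Bd (Icc a b) (fun w => w * sg a 0 w) (fun w => w * om a 0 w) (rn a b α J i - J i)
      (2 * ‖α‖) := by
  have key : ∀ {f : ℝ → ℂ} {x : WA}, ContinuousOn f (Icc a b) →
      (∀ w ∈ Icc a b, ‖f w - 1‖ ≤ 2 * ‖α‖ * w) → Bd (Icc a b) (sg a 0) (om a 0) x (3 / 4) →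
      Bd (Icc a b) (fun w => w * sg a 0 w) (fun w => w * om a 0 w) (fn a b f * x - x)
        (2 * ‖α‖) := fun {f x} hf h1 hx => by
    refine (hx.of_le (t := 2 * ‖α‖) (by positivity) fun k w hw c _ hc => ?_).mono
      (by nlinarith [norm_nonneg α])
    have e : wt (fun w => w * sg a 0 w) (fun w => w * om a 0 w) k w =
      w * wt (sg a 0) (om a 0) k w := by unfold wt; split_ifs <;> rfl
    rw [co_sub, BoundedContinuousFunction.sub_apply, co_fn_mul hf hw, ← sub_one_mul, norm_mul, e]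
    exact (mul_le_mul (h1 w hw) hc (norm_nonneg _) ((norm_nonneg _).trans (h1 w hw))).trans_eq
      (by ring)
  fin_cases i
  iterate 3 simpa [rn] using (Bd.zero _ _ _).mono (by positivity)
  iterate 2 exact key h.cm2 (fun w hw => (h.m hw).1) (hJ _)
  exact key h.cm (fun w hw => (h.m hw).2.1) (hJ _)

/-- the scalar coefficients in the classes of the profile `0` -/
theorem sc_le (hw : w ∈ Icc a b) : ‖Af α w‖ ≤ ep a * sg a 0 w ∧ ‖ef α w‖ ≤ ep a * sg a 0 w ∧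
    ‖α‖ ≤ ‖α‖ * (ep a * (w * sg a 0 w)) ∧ ‖Af 0 w - Af α w‖ ≤ ‖α‖ ∧ ‖ef 0 w - ef α w‖ ≤ ‖α‖ ∧
    ‖Complex.sqrt (Af 0 w) - Complex.sqrt (Af α w)‖ ≤ 2 * ‖α‖ * (w * sg a 0 w) := by
  have p := h.rg0.pt hw
  have q := h.rg.pt hw
  have w0 := p.w_pos
  have h1 : w⁻¹ ≤ ep a * sg a 0 w :=
    p.inv_le.trans (mul_le_mul_of_nonneg_left p.sg_ge h.rg0.ep_pos.le)
  have h2 : ‖Af 0 w‖ = w⁻¹ / 2 := by rw [p.norm_Af]; simp; ring
  have h3 : ‖Complex.sqrt (Af 0 w)‖ ≤ sg a 0 w := by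
    refine le_of_sq_le_sq ?_ p.sg_pos.le
    have := p.sg_ge
    rw [norm_csqrt_sq, p.norm_Af']
    rw [dl_zero p, one_mul] at this ⊢
    exact pow_le_pow_left₀ p.mu_pos.le this 2
  have hw' : (w : ℂ) ≠ 0 := ofReal_ne_zero.2 w0.ne'
  refine ⟨?_, by linarith [q.norm_ef, q.tau_le], le_mul_of_one_le_right (norm_nonneg _) ?_, ?_, ?_,
    ?_⟩
  · rw [← h.A_eq hw, norm_mul, h2]
    nlinarith [(h.m hw).2.2.1, inv_pos.2 w0]
  · have := mul_le_mul_of_nonneg_left h1 w0.le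
    rw [mul_inv_cancel₀ w0.ne'] at this
    linarith
  · rw [← h.A_eq hw, ← mul_one_sub, norm_mul, h2, norm_sub_rev]
    refine (mul_le_mul_of_nonneg_left (h.m hw).1 (by positivity)).trans_eq ?_
    field_simp
  · rw [show ef 0 w - ef α w = α / 8 by rw [ef, ef]; field_simp; ring, norm_div, norm_ofNat]
    linarith [norm_nonneg α]
  · rw [← h.r_eq hw, ← mul_one_sub, norm_mul, norm_sub_rev]
    exact (mul_le_mul h3 (h.m hw).2.1 (norm_nonneg _) p.sg_pos.le).trans_eq (by ring)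

theorem sys : WSys (Icc a b) (ep a) (dl (Af 0)) (sg a 0) (om a 0) (fun w => w * sg a 0 w)
    fun w => w * om a 0 w := h.rg0.base.sys.mul fun _ hw => (h.rg0.pt hw).w_pos.le

theorem kN (hJ : ∀ i, Bd (Icc a b) (sg a 0) (om a 0) (J i) 1) (i : Fin 10) :
    Kc (Icc a b) (ep a) (dl (Af 0)) (sg a 0) (om a 0) (Ex.gN i) (vN a b α J i) 1 := by
  have H := h.rg0.base
  have H' := h.rg.base
  fin_cases i
  iterate 6 exact hJ _
  · exact Bd.sc zero_le_one fun w hw => by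
      rw [mkB_of_mem H'.coef.cA hw, one_mul]; exact (h.sc_le hw).1
  · exact Bd.sc zero_le_one fun w hw => by rw [mkB_of_mem H.cont_x hw, one_mul]; exact H.hx w hw
  · exact Bd.sc zero_le_one fun w hw => by
      rw [mkB_of_mem H'.cont_e hw, one_mul]; exact (h.sc_le hw).2.1
  · exact Bd.sc zero_le_one fun w hw => by
      rw [mkB_of_mem H'.coef.cont_sqrt hw, one_mul]; exact H'.sqrt_le hw

theorem mN {J' : Fin 6 → WA} (z : ∀ i, Bd (Icc a b) (fun w => w * sg a 0 w) (fun w => w * om a 0 w)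
    (J' i - J i) (2 * ‖α‖)) (i : Fin 10) :
    Mc (Icc a b) (ep a) (dl (Af 0)) (fun w => w * sg a 0 w) (fun w => w * om a 0 w) (Ex.gN i)
      ((vN a b 0 J' - vN a b α J) i) (2 * ‖α‖) := by
  have H := h.rg0.base
  have H' := h.rg.base
  have a0 := norm_nonneg α
  have sub : ∀ {f g : ℝ → ℂ} {σ ω : ℝ → ℝ}, ContinuousOn f (Icc a b) → ContinuousOn g (Icc a b) →
      (∀ w ∈ Icc a b, ‖f w - g w‖ ≤ 2 * ‖α‖ * σ w) →
      Bd (Icc a b) σ ω (sc (mkB a b f) - sc (mkB a b g)) (2 * ‖α‖) :=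
    fun hf hg h1 => P218E2.bd_fn_sub subset_rfl hf hg (by positivity) _ h1
  fin_cases i
  iterate 6 exact z _
  · exact sub H.coef.cA H'.coef.cA fun w hw => by
      linarith [(h.sc_le hw).2.2.1, (h.sc_le hw).2.2.2.1]
  · simpa [vN, Mc] using (Kc.zero _).mono (by positivity)
  · exact sub H.cont_e H'.cont_e fun w hw => by
      linarith [(h.sc_le hw).2.2.1, (h.sc_le hw).2.2.2.2.1]
  · exact sub H.coef.cont_sqrt H'.coef.cont_sqrt fun w hw => (h.sc_le hw).2.2.2.2.2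

theorem bd_EE (hJ : ∀ i, Bd (Icc a b) (sg a 0) (om a 0) (J i) (3 / 4)) :
    Bd (Icc a b) (fun w => w * sg a 0 w) (fun w => dl (Af 0) w * (w * om a 0 w))
      (EE a b 0 (rn a b α J) - EE a b α J) (5 * ‖α‖) := by
  have H := h.rg0.base
  have z := h.bd_rn_sub hJ
  have a0 := norm_nonneg α
  have k := H.sys.dv h.sys (H.kN (h.bd_rn hJ)) (h.kN fun i => (hJ i).mono (by norm_num))
    (h.mN z) Ex.exN
  rw [Ex.gr_exN, Ex.bd'_exN, ← Ex.ev_sub_ev] at k
  have l := ((z 4).sub (z 3)).weaken' (a' := fun w => w * sg a 0 w)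
    (b' := fun w => dl (Af 0) w * (w * om a 0 w)) (fun _ _ => le_rfl)
    fun w hw => by rw [dl_zero (h.rg0.pt hw), one_mul]
  have e : EE a b 0 (rn a b α J) - EE a b α J = rn a b α J 4 - J 4 - (rn a b α J 3 - J 3) +
      (Ex.exN.ev (vN a b 0 (rn a b α J)) - Ex.exN.ev (vN a b α J)) := by
    have e0 : rn a b α J 0 = J 0 := rfl
    have e2 : rn a b α J 2 = J 2 := rfl
    rw [EE, EE, Lm, Lm, NN, NN, e0, e2]; ring
  rw [e]
  refine (l.add (h.sys.src k)).mono ?_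
  push_cast
  nlinarith [mul_le_mul_of_nonneg_right h.rg0.ep_small a0]

theorem lf_sub {η : WA} (hη : Bd {b} (sg a 0) (om a 0) η 1) :
    ‖lf b 0 η - lf b α η‖ ≤ 80 * ‖α‖ := by
  have H := h.rg0.base
  have H' := h.rg.base
  have a0 := norm_nonneg α
  have s := h.sc_le H.hb
  have h1 : ∀ θ, Cl (η.ev b θ) (η.ev b θ) (1 / 100) ‖α‖ := fun θ => by
    have := hη.ev_le (mem_singleton b) H.sys.e0 (H.sig_le H.hb).1 (H.sig_le H.hb).2 θ
    exact ⟨by linarith [H.coef.e1], by linarith [H.coef.e1], by simp⟩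
  have h2 : Cl (ef 0 b) (ef α b) (1 / 100) ‖α‖ :=
    ⟨by linarith [H.ef_le'.1], by linarith [H'.ef_le'.1], s.2.2.2.2.1⟩
  have c : ∀ β : ℂ, ‖ef β b‖ ≤ 1 / 1000 →
      Continuous fun θ => (1 + η.ev b θ) ^ 2 / (1 + ef β b * (1 + η.ev b θ) ^ 2) := fun β hβ => by
    have h3 : Continuous fun θ => (1 + η.ev b θ) ^ 2 :=
      (continuous_const.add (η.continuous_ev.comp (Continuous.prodMk_right b))).pow 2
    exact h3.div (continuous_const.add (continuous_const.mul h3))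
      fun θ => norm_pos_iff.1 (by linarith [ph_den hβ (H.h_le hη θ)])
  have h3 : ‖amean b 0 η - amean b α η‖ ≤ 4 * ‖α‖ := by
    rw [amean, amean, mean_sub (c 0 H.ef_le'.1) (c α H'.ef_le'.1)]
    exact norm_mean_le fun θ => (cl_area (h1 θ) h2).2.2
  have h4 := P218PB.amean_lip (α := α) h1 ⟨h2.2.1, h2.2.1, by simp⟩
  have h5 := P218PB.amean_lip (α := 0) h1 ⟨h2.1, h2.1, by simp⟩
  have := (cl_L2 (B := 4 * ‖α‖) ⟨H.ef_le'.2, H'.ef_le'.2, s.2.2.2.1.trans (by linarith)⟩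
    (h2.mono le_rfl (by linarith)) h5.1 h4.1 h3).2.2
  rw [lf, lf, sub_sub_sub_cancel_right]
  linarith

omit h in
theorem alg {c : ℂ} {σ ω : ℝ → ℝ} {t : ℝ} (ht : 0 ≤ t) (hc : ‖c‖ ≤ t * σ b) :
    Bd {b} σ ω (algebraMap ℂ WA c) t := Bd.alg ht fun w hw => by rwa [mem_singleton_iff.1 hw]

theorem lf_sub' {η : WA} (hη : Bd {b} (sg a 0) (om a 0) η 1) :
    ‖lf b 0 η - lf b α η‖ ≤ ‖α‖ * (b * sg a 0 b) := by
  have H := h.rg0.base
  nlinarith [h.lf_sub hη, (h.sc_le H.hb).2.2.1, h.rg0.ep_small, mul_nonneg (norm_nonneg α)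
    (mul_nonneg (h.rg0.pt H.hb).w_pos.le (H.sys.s0 b H.hb))]

theorem kB (hJ' : ∀ i, Bd (Icc a b) (sg a α) (om a α) (J i) (1 / 8)) (i : Fin 8) :
    Kc {b} (ep a) (dl (Af 0)) (sg a 0) (om a 0) (Ex.gB i) (vB b α J i) 1 := by
  have H := h.rg0.base
  have H' := h.rg.base
  have hJ : ∀ i, Bd {b} (sg a 0) (om a 0) (J i) 1 := fun i =>
    ((h.bd0 (hJ' i)).subset H.sub).mono (by norm_num)
  have s0 := H.sys.s0 b H.hb
  fin_cases i
  iterate 5 exact hJ _
  · exact alg zero_le_one (by simpa using (h.sc_le H.hb).2.1)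
  · refine alg zero_le_one ?_
    have h1 := (H'.lf_le (((hJ' 0).subset H.sub).mono (by norm_num))).1
    have h2 := norm_sub_le (lf b α (J 0) + 2 * (J 0).co 0 b) (2 * (J 0).co 0 b)
    have h3 := (wt_comp h.nt0 h.nt h.big le_rfl H.hb H.hb le_rfl).2
    rw [add_sub_cancel_right, norm_mul, norm_ofNat] at h2
    rw [norm_div, norm_ofNat]
    nlinarith [Base.co0_le (hJ 0) s0, mul_le_mul_of_nonneg_left h3 H.sys.e0, h.rg0.ep_small]
  · exact alg zero_le_one (by simpa using H'.sqrt_le H.hb)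

theorem mB {J' : Fin 6 → WA} (z : ∀ i, Bd {b} (fun w => w * sg a 0 w) (fun w => w * om a 0 w)
    (J' i - J i) (2 * ‖α‖)) (e : J' 0 = J 0) (h0 : Bd {b} (sg a 0) (om a 0) (J 0) 1) (i : Fin 8) :
    Mc {b} (ep a) (dl (Af 0)) (fun w => w * sg a 0 w) (fun w => w * om a 0 w) (Ex.gB i)
      ((vB b 0 J' - vB b α J) i) (2 * ‖α‖) := by
  have H := h.rg0.base
  have s := h.sc_le H.hb
  have a0 := norm_nonneg α
  fin_cases i
  iterate 5 exact z _
  all_goals
    change Bd {b} _ _ (algebraMap ℂ WA _ - algebraMap ℂ WA _) _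
    rw [← map_sub]
    refine alg (by positivity) ?_
  · linarith [s.2.2.1, s.2.2.2.2.1]
  · rw [← sub_div, norm_div, norm_ofNat, e]
    linarith [h.lf_sub' h0, norm_nonneg (lf b 0 (J 0) - lf b α (J 0))]
  · exact s.2.2.2.2.2

theorem bd_BB (hJ' : ∀ i, Bd (Icc a b) (sg a α) (om a α) (J i) (1 / 8)) :
    Bd {b} (fun w => w * sg a 0 w) (fun w => w * om a 0 w)
      (BB b 0 (rn a b α J) - BB b α J) (6 * ‖α‖) ∧
    Bd {b} (fun w => w * sg a 0 w) (fun w => w * om a 0 w)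
      (Ex.exB1.ev (vB b 0 (rn a b α J)) - (2 : ℂ) • (rn a b α J 5 - Complex.sqrt (Af 0 b) •
        rn a b α J 1) - (Ex.exB1.ev (vB b α J) - (2 : ℂ) • (J 5 - Complex.sqrt (Af α b) • J 1)))
      (9 * ‖α‖) := by
  have H := h.rg0.base
  have hJ : ∀ i, Bd {b} (sg a 0) (om a 0) (J i) 1 := fun i =>
    ((h.bd0 (hJ' i)).subset H.sub).mono (by norm_num)
  have z := fun i => (h.bd_rn_sub (fun i => h.bd0 (hJ' i)) i).subset H.sub
  have a0 := norm_nonneg α
  have k := (H.sys.mono H.sub).dv (h.sys.mono H.sub)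
    (H.kB fun i => (h.bd_rn (fun i => h.bd0 (hJ' i)) i).subset H.sub) (h.kB hJ')
    (h.mB z rfl (hJ 0))
  have k0 := k Ex.exB0
  have k1 := k Ex.exB1
  rw [Ex.gr_exB0, Ex.bd'_exB0, ← Ex.ev_sub_ev] at k0
  rw [Ex.gr_exB1, Ex.bd'_exB1, ← Ex.ev_sub_ev] at k1
  have e := mul_le_mul_of_nonneg_right h.rg0.ep_small a0
  have e0 : rn a b α J 0 = J 0 := rfl
  have e1 : rn a b α J 1 = J 1 := rfl
  constructor
  · have := (((h.sys.mono H.sub).src' k0).sub ((z 3).add (z 3))).sub (alg a0 (h.lf_sub' (hJ 0)))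
    rw [map_sub] at this
    rw [BB_eq, BB_eq, e0]
    exact (this.mono (by push_cast; nlinarith)).congr fun k w _ => by congr 2; ring
  · have h1 : Bd {b} (fun w => w * sg a 0 w) (fun w => w * om a 0 w)
        ((Complex.sqrt (Af 0 b) - Complex.sqrt (Af α b)) • J 1) (2 * ‖α‖) := by
      simpa using (hJ 1).of_le (t := 2 * ‖α‖) (by positivity) fun n w hw c hc0 hc => by
        obtain rfl : w = b := hw
        have e : wt (fun w => w * sg a 0 w) (fun w => w * om a 0 w) n w =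
          w * wt (sg a 0) (om a 0) n w := by unfold wt; split_ifs <;> rfl
        have h2 : sg a 0 w ≤ 1 := (H.sig_le H.hb).1.trans H.sys.e1
        have h3 := (h.sc_le H.hb).2.2.2.2.2.trans (mul_le_mul_of_nonneg_left
          (mul_le_of_le_one_right (h.rg0.pt H.hb).w_pos.le h2) (by positivity))
        rw [co_smul, BoundedContinuousFunction.smul_apply, norm_smul, e]
        exact (mul_le_mul h3 hc (norm_nonneg _) ((norm_nonneg _).trans h3)).trans_eq (by ring)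
    have := (((h.sys.mono H.sub).src' k1).sub ((z 5).add (z 5))).add (h1.add h1)
    rw [e1]
    exact (this.mono (by push_cast; nlinarith)).congr fun k w _ => by congr 2; module

end Sm

open Vale.Agent.P218CH in
/-- the solution depends on the profile parameter with a constant `O (√w)` at the level `w` -/
theorem grow_est {V : Type*} [NormedAddCommGroup V] [NormedSpace ℂ V] {a s r R K W : ℝ}
    {RV : Set V} {Cf : V × (Fin 6 → WA) → WA} {JS : Fin 6 → WA} {J : ℝ → ℂ × V → Fin 6 → WA}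
    (I : EndIn a s r R K RV Cf JS) (F : EndFam a s r R K RV Cf JS J) (hW : a ^ 2 ≤ W) {α : ℂ}
    (hα : α ∈ D W K) (h0 : (0 : ℂ) ∈ D W K) (hs : ‖α‖ * W ≤ 1 / 8) {v : V} (hv : v ∈ ball 0 r) :
    Bd (Icc a W) (fun w => w * sg a 0 w) (fun w => w * om a 0 w) (J W (α, v) 0 - J W (0, v) 0)
      (80 * 3000000 * (16 * √a + 24) * ‖α‖) := by
  have h : Sm a W α := ⟨I.big', I.W_ge hW, hs⟩
  have H := h.rg0.base
  have a0 := norm_nonneg α
  have R1 := I.R_le
  have ap := I.a_pos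
  have sp : 0 < √a := Real.sqrt_pos.2 ap
  have sq := Real.mul_self_sqrt ap.le
  have b1 := fun i => (F.bd W hW (α, v) ⟨hα, hv⟩ i).mono (B' := 1 / 8) (by linarith)
  have b0 := fun i => (F.bd W hW (0, v) ⟨h0, hv⟩ i).mono (B' := 1) (by linarith)
  have s1 := F.sol W hW (α, v) ⟨hα, hv⟩
  have s0 := F.sol W hW (0, v) ⟨h0, hv⟩
  have c1 := I.clp_le h.rg (I.s_le hW) (F.bd W hW (α, v) ⟨hα, hv⟩)
  have c0 := I.clp_le h.rg0 (I.s_le hW) (F.bd W hW (0, v) ⟨h0, hv⟩)
  generalize J W (α, v) = X at *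
  generalize J W (0, v) = Y at *
  simp only at b1 b0 s1 s0
  have fl := I.flat (I.small hW hα)
  have ep0 := h.rg0.ep_pos
  have ep1 : ep a ≤ 1 / 1000 := H.coef.e1
  have as := I.le
  have s00 : 0 < s := ap.trans_le as
  have s2 := I.le2
  have j := h.jet s1.jet
  have hB := h.bd_BB b1
  have sub : Icc a s ⊆ Icc a W := Icc_subset_Icc_right (I.s_le hW)
  have cl' : ∀ {Z : Fin 6 → WA} {B : ℝ}, (∀ i, Bd (Icc a W) (fun w => w * sg a 0 w)
      (fun w => w * om a 0 w) (Z i) B) → ‖clp a s Z‖ ≤ s * ep a * B := fun hZ =>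
    norm_clp_le as (by positivity) (fun i => (hZ i).subset sub) fun w hw =>
      ⟨mul_le_mul hw.2 (H.sig_le (sub hw)).1 (H.sys.s0 w (sub hw)) (by linarith),
        mul_le_mul hw.2 (H.sig_le (sub hw)).2 (H.sys.o0 w (sub hw)) (by linarith)⟩
  refine (H.stab h.sys (H.coef.gb h.rg0.wts_w) (by simp [pt_zero]) h.rg0.ep_small
    (c := 1 / 10 ^ 10) (by norm_num) (J := rn a W α X) (ξ := xi a JS α)
    ⟨j, wEq_refl _ _, s1.dir, wEq_refl _ _⟩ s0 (h.bd_rn fun i => h.bd0 (b1 i)) b0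
    (Bf := (5 + 16 * √a) * ‖α‖) (by positivity) (fun B hB => ?_) (Bξ := 4 * ‖α‖) ?_
    (hB.1.congr ?_) (by rw [sub_zero]; exact j.hasD_BB h.le) (hB.2.congr ?_) 0).mono
    (le_of_eq (by ring))
  · have B0 := (hB 0).nonneg
    have e1 := fl.ab_sub_le X
    have e2 := cl' (Z := rn a W α X - X) (h.bd_rn_sub fun i => h.bd0 (b1 i))
    have e3 := cl' (Z := rn a W α X - Y) hB
    have e4 : ‖ab a s α X - clp a s Y‖ ≤ 17 * (‖α‖ * s) + s * ep a * B := by
      have e : ab a s α X - clp a s Y = ab a s α X - clp a s X -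
          clp a s (rn a W α X - X) + clp a s (rn a W α X - Y) := by
        rw [clp_sub, clp_sub]; ring
      rw [e]
      refine (norm_add_le _ _).trans (add_le_add ((norm_sub_le _ _).trans ?_) e3)
      have e0 : ‖clp a s X‖ ≤ 1 := by nlinarith [I.R_pos]
      nlinarith [mul_nonneg a0 s00.le, mul_le_mul_of_nonneg_left e0 (mul_nonneg a0 s00.le),
        mul_le_mul_of_nonneg_left ep1 (mul_nonneg a0 s00.le)]
    have e5 := I.ab_le (J := X) (I.small hW hα) (by nlinarith [I.e_pos])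
    have e6 := I.cf_lip (J := ab a s α X) (J' := clp a s Y) hv (by linarith [I.e_pos])
      (by nlinarith [I.e_pos])
    have e7 := I.bd v hv (ab a s α X) (mem_ball_zero_iff.2 (by linarith [I.e_pos]))
    have e8 : ‖fn a s (fun w => P218CH.mu α 0 w ^ 2) - (1 : ℂ) • 1‖ ≤ 2 * ‖α‖ * s :=
      norm_fn_le as (h.cm2.mono sub) fun w hw => (h.m (sub hw)).1.trans (by gcongr; exact hw.2)
    have e9 : fn a s (fun w => P218CH.mu 0 0 w ^ 2) = 1 := by
      have := norm_fn_le (c := 1) (t := 0) as (((Prof.zero (b := s) ap).cr.div (Prof.zero ap).cr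
        fun w hw => (Prof.zero ap).rA_ne hw).pow 2) fun w hw => by
          simp [(Prof.zero (b := s) ap).rA_ne hw]
      rwa [norm_le_zero_iff, sub_eq_zero, one_smul] at this
    have e10 : ‖src a s Cf α v X - src a s Cf 0 v Y‖ ≤ ‖α‖ * s + s * ep a * B / (5 * 10 ^ 12) := by
      rw [src, src, e9, ab_zero' ap as, show ∀ x y z : WA, x * y - 1 * z =
        (x - (1 : ℂ) • 1) * y + (y - z) from fun _ _ _ => by rw [one_smul]; ring]
      refine (norm_add_le _ _).trans ((add_le_add_left (norm_mul_le _ _) _).trans ?_)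
      nlinarith [mul_le_mul e8 e7 (norm_nonneg _) (by positivity), mul_nonneg a0 (ap.le.trans as),
        I.e_le, I.e_pos]
    have e11 := bd_supp (a := a) (b := W) (s := s) (t := √a / 8) (σ := fun w => w * sg a 0 w)
      (ω := fun w => dl (Af 0) w * (w * om a 0 w)) (x := src a s Cf α v X - src a s Cf 0 v Y)
      (by positivity) (fun k w hw => by simp [I.src_supp k hw])
      (fun w hw => ⟨h.sys.s0' w hw, mul_nonneg (h.sys.d0 w hw) (h.sys.o0' w hw)⟩) fun w hw hs => by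
        have := nt_low (h.rg0.pt hw) (hs.trans s2) ⟨by linarith [h.big, hw.1], le_rfl, by simp⟩
        have e : √a / 8 = a * ((√a)⁻¹ / 8) := by field_simp; linarith
        rw [e, mul_left_comm]
        exact ⟨mul_le_mul hw.1 this.2 (by positivity) (by linarith [hw.1]),
          mul_le_mul hw.1 this.1 (by positivity) (by linarith [hw.1])⟩
    refine (((h.bd_EE fun i => h.bd0 (b1 i)).add e11).mono ?_).congr fun k w hw => ?_
    · have : (√a / 8)⁻¹ * ‖src a s Cf α v X - src a s Cf 0 v Y‖ ≤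
          16 * √a * ‖α‖ + 1 / 10 ^ 10 * B := by
        rw [inv_mul_le_iff₀ (by positivity)]
        have e : ep a * √a = 10 := by rw [ep]; field_simp
        have e' : s * ep a ≤ 20 * √a := by nlinarith
        nlinarith [mul_le_mul_of_nonneg_right e' B0, mul_le_mul_of_nonneg_left s2 a0,
          mul_nonneg sp.le B0]
      linarith
    · simp [s1.eq k w hw]
  · obtain ⟨c, c0, c1, c2, c3⟩ := (I.bdS 0).sub (I.bdS 2)
    refine ⟨fun k => 2 * ‖α‖ * c k, fun k => mul_nonneg (by positivity) (c0 k), c1.mul_left _, ?_,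
      fun k => ?_⟩
    · rw [tsum_mul_left]; nlinarith
    · rw [co_sub, BoundedContinuousFunction.sub_apply, co_xi, co_xi]
      split_ifs with hk
      · have k0 : k ≠ 0 := by rintro rfl; norm_num [kp] at hk
        have h1 := c3 k a (mem_Ici.2 le_rfl)
        have m := left_mem_Icc.2 h.le
        have e : P218CH.mu 0 0 a = 1 := div_self (h.nt0.prof.rA_ne m)
        simp only [pt, if_pos hk, wt_ne _ _ k0] at h1 ⊢
        rw [← sub_mul, norm_mul, e]
        exact (mul_le_mul (h.m m).2.1 h1 (norm_nonneg _) (by positivity)).trans_eq (by ring)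
      · simpa using mul_nonneg (mul_nonneg (by positivity) (c0 k))
          ((H.coef.gb h.rg0.wts_w).rho k)
  · intro k w hw
    simp [s1.bc k w hw]
  · intro k w hw
    have := hasD_unique (s1.jet.hasD_BB h.le) (y := 0) (y' := 0) (fun k w _ => by simp) s1.bc k w hw
    rw [co_sub _ (_ - _), BoundedContinuousFunction.sub_apply, this]
    simp

end Vale.Agent.P218EN
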