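import Vale.Agent.P218EN.Ode

/-! A priori estimates for one Fourier mode, factorised as a fast and a slow equation. -/

namespace Vale.Agent.P218EN
open Filter Topology Set Complex

theorem exists_deriv_norm {z : ℝ → ℂ} {z' : ℂ} {s : Set ℝ} {w : ℝ}
    (h : HasDerivWithinAt z z' s w) (h0 : z w ≠ 0) :
    ∃ d, HasDerivWithinAt (fun u => ‖z u‖) d s w ∧ |d| ≤ ‖z'‖ ∧
      d = ((starRingEnd ℂ) (z w) * z').re / ‖z w‖ := by
  have h1 : HasDerivWithinAt (fun u => (z u).re) z'.re s w :=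
    reCLM.hasFDerivAt.comp_hasDerivWithinAt w h
  have h2 : HasDerivWithinAt (fun u => (z u).im) z'.im s w :=
    imCLM.hasFDerivAt.comp_hasDerivWithinAt w h
  have hp : 0 < ‖z w‖ := norm_pos_iff.2 h0
  have h3 := ((h1.pow 2).add (h2.pow 2)).sqrt (by
    have := Complex.sq_norm (z w)
    rw [normSq_apply] at this
    simp only [Pi.add_apply, Pi.pow_apply]
    nlinarith)
  refine ⟨_, HasDerivWithinAt.congr_deriv (h3.congr (fun u _ => norm_eq_sqrt_sq_add_sq _)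
    (norm_eq_sqrt_sq_add_sq _)) ?_, ?_, rfl⟩
  · simp only [Pi.add_apply, Pi.pow_apply, ← norm_eq_sqrt_sq_add_sq, mul_re, conj_re, conj_im]
    field_simp
    push_cast
    ring
  · rw [abs_div, abs_of_pos hp, div_le_iff₀ hp]
    refine (abs_re_le_norm _).trans_eq ?_
    rw [norm_mul, RCLike.norm_conj, mul_comm]

/-- coefficients of one mode: slow rate `-n`, fast rate `1 + n` -/
structure MC (a b : ℝ) (A A' n n' : ℝ → ℂ) : Prop where
  le : a ≤ b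
  hA : ∀ w ∈ Icc a b, HasDerivWithinAt A (A' w) (Icc a b) w
  hn : ∀ w ∈ Icc a b, HasDerivWithinAt n (n' w) (Icc a b) w
  A0 : ∀ w ∈ Icc a b, A w ≠ 0
  As : ∀ w ∈ Icc a b, ‖A w‖ ≤ 1 / 1000
  A's : ∀ w ∈ Icc a b, ‖A' w‖ ≤ ‖A w‖ / 1000
  n's : ∀ w ∈ Icc a b, ‖n' w‖ ≤ ‖n w‖ / 1000
  nre : ∀ w ∈ Icc a b, -(1 / 500) ≤ (n w).re
  arg : ∀ w ∈ Icc a b, ‖1 + 2 * n w‖ ≤ 142 / 100 * (1 + 2 * (n w).re)
  two : ∀ w ∈ Icc a b, 2 * ‖n w‖ ≤ ‖1 + 2 * n w‖

namespace MC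
variable {a b : ℝ} {A A' n n' : ℝ → ℂ}

theorem cont (H : MC a b A A' n n') : ContinuousOn n (Icc a b) :=
  fun w hw => (H.hn w hw).continuousWithinAt

theorem one_add_ge (H : MC a b A A' n n') {w : ℝ} (hw : w ∈ Icc a b) :
    998 / 1000 ≤ ‖1 + n w‖ := by
  have := re_le_norm (1 + n w)
  simp only [add_re, one_re] at this
  linarith [H.nre w hw]

theorem one_add_le (H : MC a b A A' n n') {w : ℝ} (hw : w ∈ Icc a b) :
    ‖1 + n w‖ ≤ 142 / 100 * (1 + (n w).re) := by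
  have h1 : 2 * ‖1 + n w‖ ≤ 1 + ‖1 + 2 * n w‖ := by
    have e : (2 : ℂ) * (1 + n w) = 1 + (1 + 2 * n w) := by ring
    have := norm_add_le (1 : ℂ) (1 + 2 * n w)
    rwa [← e, norm_mul, norm_one, Complex.norm_two] at this
  linarith [H.arg w hw]

theorem fast (H : MC a b A A' n n') {P g : ℝ → ℂ} {φ φ' : ℝ → ℝ} {c : ℝ} (hc : 0 ≤ c)
    (hP : ∀ w ∈ Icc a b, HasDerivWithinAt P ((1 + n w) * P w + A w * g w) (Icc a b) w)
    (hφ : ∀ w ∈ Icc a b, HasDerivWithinAt φ (φ' w) (Icc a b) w) (φ0 : ∀ w ∈ Icc a b, 0 ≤ φ w)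
    (φ1 : ∀ w ∈ Icc a b, φ' w ≤ 3 / 10 * φ w) (hg : ∀ w ∈ Icc a b, ‖g w‖ ≤ c * φ w)
    (hb : ‖P b‖ ≤ 3 * c * (‖A b‖ * φ b / ‖1 + n b‖)) :
    ∀ w ∈ Icc a b, ‖P w‖ ≤ 3 * c * (‖A w‖ * φ w / ‖1 + n w‖) := by
  have hβ0 : ∀ w ∈ Icc a b, 0 < ‖1 + n w‖ := fun w hw => by linarith [H.one_add_ge hw]
  choose! α' hα using fun w (hw : w ∈ Icc a b) => exists_deriv_norm (H.hA w hw) (H.A0 w hw)
  choose! β' hβ using fun w (hw : w ∈ Icc a b) =>
    exists_deriv_norm ((H.hn w hw).const_add 1) (norm_pos_iff.1 (hβ0 w hw))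
  refine sup_bwd (μ := fun w => 1 + n w) (f := fun w => A w * g w)
    (ψ' := fun w => 3 * c * (((α' w * φ w + ‖A w‖ * φ' w) * ‖1 + n w‖ - ‖A w‖ * φ w * β' w) /
      ‖1 + n w‖ ^ 2)) (continuousOn_const.add H.cont) hP
    (fun w hw => ((((hα w hw).1.mul (hφ w hw)).div (hβ w hw).1 (hβ0 w hw).ne').const_mul _))
    (fun w hw => ?_) hb
  have h1 := (abs_le.1 ((hα w hw).2.1.trans (H.A's w hw))).2
  have h2 := (abs_le.1 ((hβ w hw).2.1.trans (H.n's w hw))).1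
  have h3 : ‖n w‖ ≤ 3 * ‖1 + n w‖ := by
    have := norm_sub_le (1 + n w) 1
    rw [add_sub_cancel_left, norm_one] at this
    linarith [H.one_add_ge hw]
  have h4 := H.one_add_le hw
  have h5 := H.nre w hw
  have h6 := hg w hw
  have h7 := φ0 w hw
  have h8 := φ1 w hw
  have h9 := hβ0 w hw
  simp only [add_re, one_re, norm_mul]
  set α := ‖A w‖
  set β := ‖1 + n w‖
  have hα0 : 0 ≤ α := norm_nonneg _
  set t := α * φ w / β with ht
  have ht0 : 0 ≤ t := by positivity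
  have htβ : α * φ w = t * β := by rw [ht]; field_simp
  have e1 : ((α' w * φ w + α * φ' w) * β - α * φ w * β' w) / β ^ 2 ≤ 304 / 1000 * t := by
    rw [div_le_iff₀ (by positivity)]
    have k1 : α' w * φ w ≤ α / 1000 * φ w := by gcongr
    have k2 : α * φ' w ≤ α * (3 / 10 * φ w) := by gcongr
    have k3 : (α' w * φ w + α * φ' w) * β ≤ (301 / 1000 * (α * φ w)) * β := by
      gcongr; linarith
    have k4 : α * φ w * (-β' w) ≤ α * φ w * (3 / 1000 * β) := by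
      have : 0 ≤ α * φ w := by positivity
      gcongr; linarith
    rw [htβ] at k3 k4 ⊢
    nlinarith
  have e2 : α * ‖g w‖ ≤ c * t * (142 / 100 * (1 + (n w).re)) := by
    calc α * ‖g w‖ ≤ α * (c * φ w) := by gcongr
      _ = c * t * β := by rw [mul_assoc, ← htβ]; ring
      _ ≤ _ := by gcongr
  have e3 : 0 ≤ c * t := by positivity
  nlinarith

theorem coupling (H : MC a b A A' n n') {Y : ℝ → ℂ}
    (hY : ∀ w ∈ Icc a b, HasDerivWithinAt Y (-(1 + 2 * n w) * Y w + 1) (Icc a b) w)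
    (h0 : Y a = 0) : ‖(n b + A b) * Y b‖ ≤ 4 / 5 := by
  have hν : ∀ w ∈ Icc a b, 996 / 1000 ≤ ‖1 + 2 * n w‖ := fun w hw => by
    have := re_le_norm (1 + 2 * n w)
    simp only [add_re, one_re, mul_re, re_ofNat, im_ofNat, zero_mul, sub_zero] at this
    linarith [H.nre w hw]
  have hν0 : ∀ w ∈ Icc a b, 0 < ‖1 + 2 * n w‖ := fun w hw => by linarith [hν w hw]
  choose! β' hβ using fun w (hw : w ∈ Icc a b) =>
    exists_deriv_norm (((H.hn w hw).const_mul 2).const_add 1) (norm_pos_iff.1 (hν0 w hw))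
  have hb : b ∈ Icc a b := right_mem_Icc.2 H.le
  have key := sup_fwd (μ := fun w => -(1 + 2 * n w)) (f := fun _ => 1)
    (ψ := fun w => 3 / 2 * ‖1 + 2 * n w‖⁻¹)
    (ψ' := fun w => 3 / 2 * (-β' w / ‖1 + 2 * n w‖ ^ 2))
    (continuousOn_const.add (continuousOn_const.mul H.cont)).neg hY
    (fun w hw => ((hβ w hw).1.inv (hν0 w hw).ne').const_mul _) (fun w hw => ?_)
    (by rw [h0, norm_zero]; positivity) b hb
  · have h1 := H.two b hb
    have h2 := H.As b hb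
    have h3 := hν b hb
    rw [norm_mul]
    calc _ ≤ (‖n b‖ + ‖A b‖) * (3 / 2 * ‖1 + 2 * n b‖⁻¹) := by gcongr; exact norm_add_le _ _
      _ ≤ (502 / 1000 * ‖1 + 2 * n b‖) * (3 / 2 * ‖1 + 2 * n b‖⁻¹) := by gcongr; linarith
      _ = 753 / 1000 := by field_simp; norm_num
      _ ≤ _ := by norm_num
  · have h1 := (abs_le.1 (hβ w hw).2.1).2
    rw [norm_mul, Complex.norm_two] at h1
    have h2 := H.n's w hw
    have h3 := H.two w hw
    have h4 := H.arg w hw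
    have h5 := hν w hw
    simp only [neg_re, add_re, one_re, mul_re, re_ofNat, im_ofNat, zero_mul, sub_zero, norm_one]
    set β := ‖1 + 2 * n w‖
    have e : -(1 + 2 * (n w).re) * (3 / 2 * β⁻¹) + 1 - 3 / 2 * (-β' w / β ^ 2) =
        (β ^ 2 - 3 / 2 * (1 + 2 * (n w).re) * β + 3 / 2 * β' w) / β ^ 2 := by
      field_simp; ring
    rw [← sub_nonpos, e]
    refine div_nonpos_of_nonpos_of_nonneg ?_ (by positivity)
    nlinarith

theorem exists_aux (H : MC a b A A' n n') : ∃ e Y : ℝ → ℂ,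
    (∀ w ∈ Icc a b, HasDerivWithinAt e ((1 + n w) * e w) (Icc a b) w) ∧ e b = 1 ∧
    (∀ w ∈ Icc a b, HasDerivWithinAt Y (-(1 + 2 * n w) * Y w + 1) (Icc a b) w) ∧ Y a = 0 := by
  have hm := fun w hw => mkB_of_mem H.cont (w := w) hw
  refine ⟨Hm a b b (1 + mkB a b n), Vo a b a (-(1 + (mkB a b n + mkB a b n))) 1, fun w hw => ?_,
    Hm_self (right_mem_Icc.2 H.le) _, fun w hw => ?_, Vo_self (left_mem_Icc.2 H.le) _ _⟩
  · simpa [hm w hw] using hasDeriv_Hm a b b (1 + mkB a b n) hw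
  · refine (hasDeriv_Vo a b a (-(1 + (mkB a b n + mkB a b n))) 1 hw).congr_deriv ?_
    simp only [BoundedContinuousFunction.neg_apply, BoundedContinuousFunction.add_apply,
      BoundedContinuousFunction.coe_one, Pi.one_apply, hm w hw]
    ring

/-- Dirichlet condition on the left, Robin condition on the right -/
theorem fwd (H : MC a b A A' n n') {P y g : ℝ → ℂ} {φ φ' ψ ψ' : ℝ → ℝ} {c : ℝ} {d : ℂ}
    (hc : 0 ≤ c)
    (hP : ∀ w ∈ Icc a b, HasDerivWithinAt P ((1 + n w) * P w + A w * g w) (Icc a b) w)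
    (hy : ∀ w ∈ Icc a b, HasDerivWithinAt y (-n w * y w + P w) (Icc a b) w)
    (hd : P b = A b * d + (n b + A b) * y b)
    (hφ : ∀ w ∈ Icc a b, HasDerivWithinAt φ (φ' w) (Icc a b) w) (φ0 : ∀ w ∈ Icc a b, 0 ≤ φ w)
    (φ1 : ∀ w ∈ Icc a b, φ' w ≤ 3 / 10 * φ w)
    (hψ : ∀ w ∈ Icc a b, HasDerivWithinAt ψ (ψ' w) (Icc a b) w) (ψ0 : ∀ w ∈ Icc a b, 0 ≤ ψ w)
    (ss : ∀ w ∈ Icc a b, ‖A w‖ * φ w / ‖1 + n w‖ ≤ 32 * (ψ' w + (n w).re * ψ w))
    (cp : ‖n b + A b‖ * ψ b ≤ 4 * (‖A b‖ * φ b / ‖1 + n b‖))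
    (hg : ∀ w ∈ Icc a b, ‖g w‖ ≤ c * φ w) (ha : ‖y a‖ ≤ c * ψ a)
    (hdb : ‖d‖ * ‖1 + n b‖ ≤ c * φ b) :
    ∀ w ∈ Icc a b, ‖P w‖ ≤ 1950 * c * (‖A w‖ * φ w / ‖1 + n w‖) ∧ ‖y w‖ ≤ 62400 * c * ψ w := by
  have hb : b ∈ Icc a b := right_mem_Icc.2 H.le
  have hai : a ∈ Icc a b := left_mem_Icc.2 H.le
  have hβ0 : ∀ w ∈ Icc a b, 0 < ‖1 + n w‖ := fun w hw => by linarith [H.one_add_ge hw]
  have slow : ∀ {P y : ℝ → ℂ} {c : ℝ}, 0 ≤ c →
      (∀ w ∈ Icc a b, HasDerivWithinAt y (-n w * y w + P w) (Icc a b) w) →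
      (∀ w ∈ Icc a b, ‖P w‖ ≤ 3 * c * (‖A w‖ * φ w / ‖1 + n w‖)) → ‖y a‖ ≤ 96 * c * ψ a →
      ∀ w ∈ Icc a b, ‖y w‖ ≤ 96 * c * ψ w := fun {P y c} hc hy hP ha =>
    sup_fwd (μ := fun w => -n w) (ψ' := fun w => 96 * c * ψ' w) H.cont.neg hy
      (fun w hw => (hψ w hw).const_mul _) (fun w hw => by
        have h1 := mul_le_mul_of_nonneg_left (ss w hw) hc
        have h2 := hP w hw
        simp only [neg_re]
        nlinarith) ha
  obtain ⟨e, Y, he, he1, hY, hY0⟩ := H.exists_aux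
  have h1 := H.fast hc (P := fun w => P w - P b * e w) (g := g) (fun w hw =>
    ((hP w hw).sub ((he w hw).const_mul (P b))).congr_deriv (by ring)) hφ φ0 φ1 hg
    (by
      have := φ0 b hb
      simp only [he1, mul_one, sub_self, norm_zero]; positivity)
  have h2 := slow hc (P := fun w => P w - P b * e w) (y := fun w => y w - P b * (e w * Y w))
    (fun w hw => ((hy w hw).sub (((he w hw).mul (hY w hw)).const_mul (P b))).congr_deriv
      (by ring)) h1 (by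
        have := mul_nonneg hc (ψ0 a hai)
        simp only [hY0, mul_zero, sub_zero]; nlinarith) b hb
  simp only [he1, one_mul] at h2
  have h3 := H.coupling hY hY0
  set t := ‖A b‖ * φ b / ‖1 + n b‖ with ht
  have h4 : ‖A b * d‖ ≤ c * t := by
    rw [norm_mul, ht, ← mul_div_assoc, le_div_iff₀ (hβ0 b hb)]
    nlinarith [norm_nonneg (A b)]
  have h5 : ‖P b‖ ≤ 3 * (650 * c) * t := by
    have e1 : P b = A b * d + (n b + A b) * (y b - P b * Y b) + P b * ((n b + A b) * Y b) := by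
      linear_combination hd
    have k1 : ‖(n b + A b) * (y b - P b * Y b)‖ ≤ 96 * c * (4 * t) := by
      rw [norm_mul]
      calc _ ≤ ‖n b + A b‖ * (96 * c * ψ b) := by gcongr
        _ = 96 * c * (‖n b + A b‖ * ψ b) := by ring
        _ ≤ _ := by gcongr
    have k2 : ‖P b * ((n b + A b) * Y b)‖ ≤ ‖P b‖ * (4 / 5) := by rw [norm_mul]; gcongr
    have k3 := norm_add₃_le (a := A b * d) (b := (n b + A b) * (y b - P b * Y b))
      (c := P b * ((n b + A b) * Y b))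
    rw [← e1] at k3
    have k4 : 0 ≤ c * t := (norm_nonneg _).trans h4
    nlinarith
  have hc' : 0 ≤ 650 * c := by positivity
  have h6 := H.fast hc' hP hφ φ0 φ1 (fun w hw => by
    have := mul_nonneg hc (φ0 w hw)
    nlinarith [hg w hw]) h5
  have h7 := slow hc' hy h6 (by
    have := mul_nonneg hc (ψ0 a hai)
    nlinarith)
  exact fun w hw => ⟨(h6 w hw).trans_eq (by ring), (h7 w hw).trans_eq (by ring)⟩

/-- both conditions on the right -/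
theorem bwd (H : MC a b A A' n n') {P y g : ℝ → ℂ} {φ φ' ψ ψ' : ℝ → ℝ} {c : ℝ} {d : ℂ}
    (hc : 0 ≤ c)
    (hP : ∀ w ∈ Icc a b, HasDerivWithinAt P ((1 + n w) * P w + A w * g w) (Icc a b) w)
    (hy : ∀ w ∈ Icc a b, HasDerivWithinAt y (-n w * y w + P w) (Icc a b) w)
    (hd : P b = A b * d + (n b + A b) * y b)
    (hφ : ∀ w ∈ Icc a b, HasDerivWithinAt φ (φ' w) (Icc a b) w) (φ0 : ∀ w ∈ Icc a b, 0 ≤ φ w)
    (φ1 : ∀ w ∈ Icc a b, φ' w ≤ 3 / 10 * φ w)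
    (hψ : ∀ w ∈ Icc a b, HasDerivWithinAt ψ (ψ' w) (Icc a b) w) (ψ0 : ∀ w ∈ Icc a b, 0 ≤ ψ w)
    (ss : ∀ w ∈ Icc a b, ‖A w‖ * φ w / ‖1 + n w‖ ≤ 32 * (-ψ' w - (n w).re * ψ w))
    (cp : ‖n b + A b‖ * ψ b ≤ 4 * (‖A b‖ * φ b / ‖1 + n b‖))
    (hg : ∀ w ∈ Icc a b, ‖g w‖ ≤ c * φ w) (ha : ‖y b‖ ≤ c * ψ b)
    (hdb : ‖d‖ * ‖1 + n b‖ ≤ c * φ b) :
    ∀ w ∈ Icc a b, ‖P w‖ ≤ 1950 * c * (‖A w‖ * φ w / ‖1 + n w‖) ∧ ‖y w‖ ≤ 62400 * c * ψ w := by
  have hb : b ∈ Icc a b := right_mem_Icc.2 H.le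
  have hβ0 : ∀ w ∈ Icc a b, 0 < ‖1 + n w‖ := fun w hw => by linarith [H.one_add_ge hw]
  set t := ‖A b‖ * φ b / ‖1 + n b‖ with ht
  have h4 : ‖A b * d‖ ≤ c * t := by
    rw [norm_mul, ht, ← mul_div_assoc, le_div_iff₀ (hβ0 b hb)]
    nlinarith [norm_nonneg (A b)]
  have h5 : ‖P b‖ ≤ 3 * (650 * c) * t := by
    have k1 : ‖(n b + A b) * y b‖ ≤ c * (4 * t) := by
      rw [norm_mul]
      calc _ ≤ ‖n b + A b‖ * (c * ψ b) := by gcongr
        _ = c * (‖n b + A b‖ * ψ b) := by ring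
        _ ≤ _ := by gcongr
    have k3 := norm_add_le (A b * d) ((n b + A b) * y b)
    rw [← hd] at k3
    have k4 : 0 ≤ c * t := (norm_nonneg _).trans h4
    nlinarith
  have hc' : 0 ≤ 650 * c := by positivity
  have h6 := H.fast hc' hP hφ φ0 φ1 (fun w hw => by
    have := mul_nonneg hc (φ0 w hw)
    nlinarith [hg w hw]) h5
  have h7 := sup_bwd (μ := fun w => -n w) (ψ := fun w => 62400 * c * ψ w)
    (ψ' := fun w => 62400 * c * ψ' w) H.cont.neg hy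
    (fun w hw => (hψ w hw).const_mul _) (fun w hw => by
      have h1 := mul_le_mul_of_nonneg_left (ss w hw) hc
      have h2 := h6 w hw
      simp only [neg_re]
      nlinarith) (by
      have := mul_nonneg hc (ψ0 b hb)
      nlinarith)
  exact fun w hw => ⟨(h6 w hw).trans_eq (by ring), h7 w hw⟩

end MC
end Vale.Agent.P218EN
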