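import Vale.Agent.P218EN.Sym

/-! Weighted estimates for the mode `k` of the model operator. -/

namespace Vale.Agent.P218EN
open Filter Topology Set Complex

/-- the symbol `k^2 + s` -/
def kp (s : ℝ) (k : ℤ) : ℝ := (k : ℝ) ^ 2 + s

/-- `|k| |A|^(1/2)` -/
noncomputable def rk (k : ℤ) (A : ℂ) : ℝ := |(k : ℝ)| * ‖Complex.sqrt A‖

theorem rk_nonneg (k : ℤ) (A : ℂ) : 0 ≤ rk k A := by unfold rk; positivity

theorem rk_sq (k : ℤ) (A : ℂ) : rk k A ^ 2 = (k : ℝ) ^ 2 * ‖A‖ := by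
  rw [rk, mul_pow, sq_abs, norm_csqrt_sq]

theorem kp_cases {s : ℝ} (hs : s = -2 ∨ s = 2) (k : ℤ) :
    2 ≤ kp s k ∨ (s = -2 ∧ k = 0) ∨ (s = -2 ∧ (k = 1 ∨ k = -1)) := by
  rcases hs with rfl | rfl
  · by_cases h : 2 ≤ |k|
    · left
      have h1 : (2 : ℝ) ≤ |(k : ℝ)| := by exact_mod_cast h
      have := sq_abs (k : ℝ)
      unfold kp; nlinarith
    · right
      have := abs_lt.1 (not_le.1 h)
      simp only [true_and]
      omega
  · left; unfold kp; nlinarith [sq_nonneg (k : ℝ)]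

theorem kp_ge {s : ℝ} (hs : s = -2 ∨ s = 2) (k : ℤ) : -2 ≤ kp s k := by
  unfold kp; rcases hs with rfl | rfl <;> nlinarith [sq_nonneg (k : ℝ)]

theorem kp_max {s : ℝ} (hs : s = -2 ∨ s = 2) (k : ℤ) :
    1 + (k : ℝ) ^ 2 ≤ 3 * max 1 (kp s k) ∧ max 1 (kp s k) ≤ 2 * (1 + (k : ℝ) ^ 2) ∧
      |kp s k| ≤ 2 * (1 + (k : ℝ) ^ 2) := by
  have h0 := sq_nonneg (k : ℝ)
  have h1 := le_max_left 1 (kp s k)
  have h2 := le_max_right 1 (kp s k)
  refine ⟨?_, max_le (by linarith) ?_, abs_le.2 ⟨?_, ?_⟩⟩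
  · rcases kp_cases hs k with h | ⟨-, rfl⟩ | ⟨-, rfl | rfl⟩
    · unfold kp at *; rcases hs with rfl | rfl <;> linarith
    all_goals push_cast; linarith
  all_goals unfold kp; rcases hs with rfl | rfl <;> linarith

theorem sym_facts {s : ℝ} (hs : s = -2 ∨ s = 2) (k : ℤ) {A : ℂ} (hA : 0 < A.re)
    (hA' : ‖A‖ ≤ 1 / 1000) :
    1 + rk k A ≤ 3 * ‖1 + nn (kp s k) A‖ ∧ ‖1 + nn (kp s k) A‖ ≤ 2 * (1 + rk k A) ∧
    ‖nn (kp s k) A‖ * ‖1 + nn (kp s k) A‖ ≤ 3 * max 1 (kp s k) * ‖A‖ ∧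
    ‖nn (kp s k) A + A‖ * ‖1 + nn (kp s k) A‖ ≤ 4 * max 1 (kp s k) * ‖A‖ ∧
    (2 ≤ kp s k → ‖nn (kp s k) A + A‖ * ‖1 + nn (kp s k) A‖ ≤ 2 * kp s k * ‖A‖) := by
  have r0 := rk_nonneg k A
  have r1 := rk_sq k A
  have a0 := norm_nonneg A
  have t1 := norm_add_le (nn (kp s k) A) A
  have t2 := norm_add_le 1 (nn (kp s k) A)
  rw [norm_one] at t2
  have n0 := norm_nonneg (nn (kp s k) A)
  by_cases h : 2 ≤ kp s k
  · obtain ⟨f1, f2, f3, -, -, -, -, -, f9, -⟩ := nn_facts h hA hA'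
    have k1 : (k : ℝ) ^ 2 ≤ 2 * kp s k := by
      unfold kp at *; rcases hs with rfl | rfl <;> linarith
    have k2 : kp s k ≤ (k : ℝ) ^ 2 + 2 := by unfold kp; rcases hs with rfl | rfl <;> linarith
    rw [max_eq_right (by linarith)]
    set n := nn (kp s k) A
    have b1 : rk k A ≤ 2 * ‖1 + n‖ :=
      (abs_le_of_sq_le_sq' (by nlinarith) (by positivity)).2
    have b2 : ‖n‖ ≤ 1 + rk k A := (abs_le_of_sq_le_sq' (by nlinarith) (by positivity)).2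
    have b3 : ‖n + A‖ * ‖1 + n‖ ≤ 2 * kp s k * ‖A‖ := by
      have : ‖A‖ * ‖1 + n‖ ≤ ‖A‖ * kp s k := by gcongr; linarith
      nlinarith
    have b4 : 0 ≤ kp s k * ‖A‖ := by positivity
    exact ⟨by linarith, by linarith, by linarith, by linarith, fun _ => b3⟩
  · have k0 : |kp s k| ≤ 2 := abs_le.2 ⟨kp_ge hs k, (not_le.1 h).le⟩
    have k1 : (k : ℝ) ^ 2 ≤ 1 := by
      rcases kp_cases hs k with h' | ⟨-, rfl⟩ | ⟨-, rfl | rfl⟩
      · exact absurd h' h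
      all_goals norm_num
    have n1 : ‖nn (kp s k) A‖ ≤ 2 * ‖A‖ := by
      rw [nn, if_neg h, norm_mul, norm_real, Real.norm_eq_abs]; gcongr
    have t3 := norm_sub_le (1 + nn (kp s k) A) (nn (kp s k) A)
    rw [add_sub_cancel_right, norm_one] at t3
    have m1 := le_max_left 1 (kp s k)
    set n := nn (kp s k) A
    have b1 : rk k A ≤ 1 := (abs_le_of_sq_le_sq' (by nlinarith) (by positivity)).2
    have b2 : ‖A‖ ≤ max 1 (kp s k) * ‖A‖ := le_mul_of_one_le_left a0 m1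
    have b3 : ‖n‖ * ‖1 + n‖ ≤ (2 * ‖A‖) * (1002 / 1000) := by gcongr; linarith
    have b4 : ‖n + A‖ * ‖1 + n‖ ≤ (3 * ‖A‖) * (1002 / 1000) := by gcongr <;> linarith
    exact ⟨by linarith, by linarith, by linarith, by linarith, fun h' => absurd h' h⟩

/-- the factorised equation of one mode -/
structure MEq (a b : ℝ) (A : ℝ → ℂ) (κ : ℝ) (y p g : ℝ → ℂ) : Prop where
  hy : ∀ w ∈ Icc a b, HasDerivWithinAt y (A w * p w) (Icc a b) w
  hP : ∀ w ∈ Icc a b, HasDerivWithinAt (fun u => A u * p u + nn κ (A u) * y u)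
    ((1 + nn κ (A w)) * (A w * p w + nn κ (A w) * y w) + A w * g w) (Icc a b) w

theorem MEq.hy' {a b : ℝ} {A : ℝ → ℂ} {κ : ℝ} {y p g : ℝ → ℂ} (h : MEq a b A κ y p g) :
    ∀ w ∈ Icc a b, HasDerivWithinAt y
      (-nn κ (A w) * y w + (A w * p w + nn κ (A w) * y w)) (Icc a b) w :=
  fun w hw => (h.hy w hw).congr_deriv (by ring)

/-- admissible weight for the modes `k ≠ 0` -/
structure AdmO (a b : ℝ) (A : ℝ → ℂ) (ω ω' : ℝ → ℝ) : Prop where
  pos : ∀ w ∈ Icc a b, 0 < ω w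
  hd : ∀ w ∈ Icc a b, HasDerivWithinAt ω (ω' w) (Icc a b) w
  lo : ∀ w ∈ Icc a b, -(7 / 4 * (A w).re * ω w) ≤ ω' w
  up : ∀ w ∈ Icc a b, ω' w ≤ 7 / 8 * (A w).re * ω w

/-- admissible weight for the unstable mode `0` -/
structure AdmS (a b : ℝ) (A : ℝ → ℂ) (σ σ' : ℝ → ℝ) : Prop where
  pos : ∀ w ∈ Icc a b, 0 < σ w
  hd : ∀ w ∈ Icc a b, HasDerivWithinAt σ (σ' w) (Icc a b) w
  up : ∀ w ∈ Icc a b, σ' w + ‖A w‖ * σ w ≤ 2 * (A w).re * σ w

theorem out_bound {s : ℝ} (hs : s = -2 ∨ s = 2) (k : ℤ) {A y p : ℂ} (hA : 0 < A.re)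
    (hA' : ‖A‖ ≤ 1 / 1000) {c φ ψ W : ℝ} (hc : 0 ≤ c) (h1 : φ ≤ 2 * W)
    (h2 : max 1 (kp s k) * ψ ≤ 2 * W)
    (h : ‖A * p + nn (kp s k) A * y‖ ≤ 1950 * (2 * c) * (‖A‖ * φ / ‖1 + nn (kp s k) A‖) ∧
      ‖y‖ ≤ 62400 * (2 * c) * ψ) :
    (1 + (k : ℝ) ^ 2) * ‖y‖ ≤ 3000000 * c * W ∧ (1 + rk k A) * ‖p‖ ≤ 3000000 * c * W := by
  obtain ⟨f1, -, f3, -⟩ := sym_facts hs k hA hA'
  obtain ⟨g1, -⟩ := kp_max hs k
  have r0 := rk_nonneg k A
  have A0 : 0 < ‖A‖ := hA.trans_le (re_le_norm _)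
  set n := nn (kp s k) A
  set m := max 1 (kp s k)
  have m0 : 0 ≤ m := zero_le_one.trans (le_max_left _ _)
  have β0 : 0 < ‖1 + n‖ := by linarith
  have k1 : m * ‖y‖ ≤ 249600 * (c * W) := by
    calc m * ‖y‖ ≤ m * (62400 * (2 * c) * ψ) := by gcongr; exact h.2
      _ = 124800 * c * (m * ψ) := by ring
      _ ≤ 124800 * c * (2 * W) := by gcongr
      _ = _ := by ring
  have k0 : 0 ≤ c * W := by nlinarith [mul_nonneg m0 (norm_nonneg y)]
  refine ⟨by nlinarith [norm_nonneg y], ?_⟩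
  have k2 : ‖A * p + n * y‖ * ‖1 + n‖ ≤ 7800 * (c * W) * ‖A‖ := by
    have := h.1
    rw [← mul_div_assoc, le_div_iff₀ β0] at this
    have k3 : c * ‖A‖ * φ ≤ c * ‖A‖ * (2 * W) := by gcongr
    nlinarith
  have k3 : ‖A‖ * ‖p‖ ≤ ‖A * p + n * y‖ + ‖n‖ * ‖y‖ := by
    have := norm_sub_le (A * p + n * y) (n * y)
    rwa [add_sub_cancel_right, norm_mul, norm_mul] at this
  have k4 : ‖n‖ * ‖1 + n‖ * ‖y‖ ≤ 3 * ‖A‖ * (249600 * (c * W)) := by
    calc _ ≤ 3 * m * ‖A‖ * ‖y‖ := by gcongr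
      _ = 3 * ‖A‖ * (m * ‖y‖) := by ring
      _ ≤ _ := by gcongr
  have k5 : ‖A‖ * (‖1 + n‖ * ‖p‖) ≤ ‖A‖ * (756600 * (c * W)) := by
    nlinarith [mul_le_mul_of_nonneg_right k3 β0.le]
  have k6 := le_of_mul_le_mul_left k5 A0
  nlinarith [norm_nonneg p]

namespace Coef
variable {a b ε s c : ℝ} {A A' y p g : ℝ → ℂ} {k : ℤ} {ω ω' : ℝ → ℝ}

theorem hasDeriv_E (b : ℝ) (S : Set ℝ) (w : ℝ) :
    HasDerivWithinAt (fun u => Real.exp ((u - b) / 4)) (Real.exp ((w - b) / 4) / 4) S w := by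
  refine ((((hasDerivAt_id w).sub_const b).div_const 4).exp.hasDerivWithinAt).congr_deriv ?_
  simp only [id]; ring

theorem robin (H : Coef a b A A' ε) (hs : s = -2 ∨ s = 2) {d : ℂ} {t φ : ℝ} (hc : 0 ≤ c)
    (h : (1 + rk k (A b)) * ‖d‖ ≤ c * t) (ht : t ≤ φ) :
    ‖d‖ * ‖1 + nn (kp s k) (A b)‖ ≤ 2 * c * φ := by
  have hb : b ∈ Icc a b := right_mem_Icc.2 H.le
  have := (sym_facts hs k (H.re b hb) (H.As hb)).2.1
  nlinarith [mul_le_mul_of_nonneg_left this (norm_nonneg d), mul_le_mul_of_nonneg_left ht hc]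

theorem phi (H : Coef a b A A' ε) (O : AdmO a b A ω ω') : ∃ φ' : ℝ → ℝ,
    (∀ w ∈ Icc a b, HasDerivWithinAt (fun u => ω u * (dl A u + Real.exp ((u - b) / 4))) (φ' w)
      (Icc a b) w) ∧
    ∀ w ∈ Icc a b, φ' w ≤ 3 / 10 * (ω w * (dl A w + Real.exp ((w - b) / 4))) := by
  choose! δ' hδ using fun w (hw : w ∈ Icc a b) => H.exists_dl' hw
  refine ⟨_, fun w hw => (O.hd w hw).mul ((hδ w hw).1.add (hasDeriv_E b _ w)), fun w hw => ?_⟩
  have h1 := O.up w hw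
  have h2 := O.pos w hw
  have h3 := (hδ w hw).2
  have h4 := H.dl_pos hw
  have h5 := Real.exp_pos ((w - b) / 4)
  have h6 : (A w).re ≤ 1 / 1000 := (re_le_norm _).trans (H.As hw)
  have h7 : ω' w ≤ 1 / 1000 * ω w := by nlinarith
  nlinarith [mul_le_mul_of_nonneg_right h7 (add_pos h4 h5).le,
    mul_le_mul_of_nonneg_left h3 h2.le, mul_pos h2 h4, mul_pos h2 h5]

theorem mode_high (H : Coef a b A A' ε) (hs : s = -2 ∨ s = 2) (hk : 2 ≤ kp s k)
    (O : AdmO a b A ω ω') (h : MEq a b A (kp s k) y p g) (hc : 0 ≤ c)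
    (hg : ∀ w ∈ Icc a b, ‖g w‖ ≤ c * (dl A w * ω w))
    (ha : (1 + (k : ℝ) ^ 2) * ‖y a‖ ≤ c * ω a)
    (hd : (1 + rk k (A b)) * ‖p b - y b‖ ≤ c * ω b) : ∀ w ∈ Icc a b,
    (1 + (k : ℝ) ^ 2) * ‖y w‖ ≤ 3000000 * c * ω w ∧
      (1 + rk k (A w)) * ‖p w‖ ≤ 3000000 * c * ω w := by
  have hb : b ∈ Icc a b := right_mem_Icc.2 H.le
  have hai : a ∈ Icc a b := left_mem_Icc.2 H.le
  obtain ⟨φ', hφ, hφ1⟩ := H.phi O
  have κ0 : 0 < kp s k := by linarith
  have E0 : ∀ w, 0 < Real.exp ((w - b) / 4) := fun w => Real.exp_pos _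
  have E1 : ∀ w ∈ Icc a b, Real.exp ((w - b) / 4) ≤ 1 := fun w hw =>
    Real.exp_le_one_iff.2 (by linarith [hw.2])
  have key := (H.mc (kp_ge hs k)).fwd (c := 2 * c) (d := p b - y b)
    (ψ := fun u => ω u * (1 + Real.exp ((u - b) / 4)) / kp s k) (by positivity) h.hP h.hy'
    (by ring) hφ (fun w hw => (mul_pos (O.pos w hw) (add_pos (H.dl_pos hw) (E0 w))).le) hφ1
    (fun w hw => ((O.hd w hw).mul ((hasDeriv_E b _ w).const_add 1)).div_const _)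
    (fun w hw => by have := O.pos w hw; have := E0 w; positivity) (fun w hw => ?_) ?_
    (fun w hw => by
      have := O.pos w hw
      nlinarith [hg w hw, mul_nonneg hc (mul_pos this (E0 w)).le,
        mul_nonneg hc (mul_pos this (H.dl_pos hw)).le]) ?_
    (H.robin hs hc hd (by
      have := O.pos b hb
      nlinarith [H.dl_pos hb, show Real.exp ((b - b) / 4) = 1 by simp]))
  · intro w hw
    have := O.pos w hw
    refine out_bound hs k (H.re w hw) (H.As hw) hc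
      (by nlinarith [H.dl_le hw, E1 w hw]) ?_ (key w hw)
    rw [max_eq_right (by linarith), mul_div_cancel₀ _ κ0.ne']
    nlinarith [E1 w hw]
  · obtain ⟨f1, -, f3, -, -, -, f7, f8, -, f10⟩ := nn_facts hk (H.re w hw) (H.As hw)
    have h0 := nn_re hk (H.re w hw)
    have h1 := O.pos w hw
    have h2 := O.lo w hw
    have h3 := E0 w
    have h4 : dl A w * ‖nn (kp s k) (A w)‖ ≤ (nn (kp s k) (A w)).re := by
      rw [← H.dl_mul hw] at f8
      exact le_of_mul_le_mul_left (by linarith) (H.A0 hw)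
    set n := nn (kp s k) (A w)
    set E := Real.exp ((w - b) / 4)
    have e1 : ‖A w‖ * (ω w * (dl A w + E)) / ‖1 + n‖ = ‖n‖ * (ω w * (dl A w + E)) / kp s k := by
      rw [div_eq_div_iff (by linarith) κ0.ne']
      linear_combination (-(ω w * (dl A w + E))) * f1
    rw [e1, ← mul_div_assoc n.re, ← add_div, ← mul_div_assoc]
    refine div_le_div_of_nonneg_right ?_ κ0.le
    have h5 : n.re / 16 * ω w ≤ ω' w + n.re * ω w := by nlinarith
    nlinarith [mul_le_mul_of_nonneg_right h5 (by linarith : 0 ≤ 1 + E),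
      mul_le_mul_of_nonneg_left h4 h1.le, mul_le_mul_of_nonneg_left f7 (mul_pos h1 h3).le,
      mul_nonneg h0 h1.le]
  · have f := (sym_facts hs k (H.re b hb) (H.As hb)).2.2.2.2 hk
    have β0 : 0 < ‖1 + nn (kp s k) (A b)‖ := by
      linarith [(H.mc (kp_ge hs k)).one_add_ge hb]
    have h1 := O.pos b hb
    rw [show Real.exp ((b - b) / 4) = 1 by simp, ← mul_div_assoc, ← mul_div_assoc,
      div_le_div_iff₀ κ0 β0]
    nlinarith [mul_le_mul_of_nonneg_left f h1.le,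
      mul_pos (mul_pos (mul_pos κ0 h1) (H.dl_pos hb)) (H.A0 hb)]
  · have h1 := (kp_max hs k).2.1
    rw [max_eq_right (by linarith)] at h1
    rw [← mul_div_assoc, le_div_iff₀ κ0]
    nlinarith [mul_le_mul_of_nonneg_left h1 (norm_nonneg (y a)),
      mul_nonneg hc (mul_pos (O.pos a hai) (E0 a)).le]

theorem low_div (H : Coef a b A A' ε) {κ : ℝ} (hκ : -2 ≤ κ) {w t : ℝ} (hw : w ∈ Icc a b)
    (ht : 0 ≤ t) : ‖A w‖ * t / ‖1 + nn κ (A w)‖ ≤ 2 * (‖A w‖ * t) := by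
  have := (H.mc hκ).one_add_ge hw
  rw [div_le_iff₀ (by linarith)]
  nlinarith [mul_nonneg (norm_nonneg (A w)) ht]

theorem low_cp (H : Coef a b A A' ε) (hs : s = -2 ∨ s = 2) {ψ φ : ℝ} (h0 : 0 ≤ ψ)
    (h : max 1 (kp s k) * ψ ≤ φ) : ‖nn (kp s k) (A b) + A b‖ * ψ ≤
      4 * (‖A b‖ * φ / ‖1 + nn (kp s k) (A b)‖) := by
  have hb : b ∈ Icc a b := right_mem_Icc.2 H.le
  have f := (sym_facts hs k (H.re b hb) (H.As hb)).2.2.2.1
  have β0 : 0 < ‖1 + nn (kp s k) (A b)‖ := by linarith [(H.mc (kp_ge hs k)).one_add_ge hb]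
  rw [← mul_div_assoc, le_div_iff₀ β0]
  nlinarith [mul_le_mul_of_nonneg_left f h0, mul_le_mul_of_nonneg_left h (H.A0 hb).le]

theorem mode_one (H : Coef a b A A' ε) (hk : k = 1 ∨ k = -1)
    (O : AdmO a b A ω ω') (h : MEq a b A (kp (-2) k) y p g) (hc : 0 ≤ c)
    (hg : ∀ w ∈ Icc a b, ‖g w‖ ≤ c * (dl A w * ω w))
    (ha : (1 + (k : ℝ) ^ 2) * ‖y b‖ ≤ c * ω b)
    (hd : (1 + rk k (A b)) * ‖p b - y b‖ ≤ c * ω b) : ∀ w ∈ Icc a b,
    (1 + (k : ℝ) ^ 2) * ‖y w‖ ≤ 3000000 * c * ω w ∧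
      (1 + rk k (A w)) * ‖p w‖ ≤ 3000000 * c * ω w := by
  have hs : (-2 : ℝ) = -2 ∨ (-2 : ℝ) = 2 := Or.inl rfl
  have hb : b ∈ Icc a b := right_mem_Icc.2 H.le
  obtain ⟨φ', hφ, hφ1⟩ := H.phi O
  have κ1 : kp (-2) k = -1 := by rcases hk with rfl | rfl <;> norm_num [kp]
  have κm : max 1 (kp (-2) k) = 1 := by rw [κ1]; norm_num
  have E0 : ∀ w, 0 < Real.exp ((w - b) / 4) := fun w => Real.exp_pos _
  have E1 : ∀ w ∈ Icc a b, Real.exp ((w - b) / 4) ≤ 1 := fun w hw =>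
    Real.exp_le_one_iff.2 (by linarith [hw.2])
  have Eb : Real.exp ((b - b) / 4) = 1 := by simp
  have ob := O.pos b hb
  have key := (H.mc (kp_ge hs k)).bwd (c := 2 * c) (d := p b - y b)
    (ψ := fun u => ω u * (2 - Real.exp ((u - b) / 4))) (by positivity) h.hP h.hy'
    (by ring) hφ (fun w hw => (mul_pos (O.pos w hw) (add_pos (H.dl_pos hw) (E0 w))).le) hφ1
    (fun w hw => (O.hd w hw).mul ((hasDeriv_E b _ w).const_sub 2))
    (fun w hw => by nlinarith [O.pos w hw, E1 w hw]) (fun w hw => ?_)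
    (H.low_cp hs (by nlinarith) (by rw [κm]; nlinarith [H.dl_pos hb]))
    (fun w hw => by
      have := O.pos w hw
      nlinarith [hg w hw, mul_nonneg hc (mul_pos this (E0 w)).le,
        mul_nonneg hc (mul_pos this (H.dl_pos hw)).le])
    (by
      rw [Eb]
      nlinarith [mul_nonneg (sq_nonneg (k : ℝ)) (norm_nonneg (y b)), mul_nonneg hc ob.le])
    (H.robin hs hc hd (by nlinarith [H.dl_pos hb]))
  · intro w hw
    have := O.pos w hw
    exact out_bound hs k (H.re w hw) (H.As hw) hc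
      (by nlinarith [H.dl_le hw, E1 w hw]) (by rw [κm]; nlinarith [E0 w]) (key w hw)
  · have h1 := O.pos w hw
    have h3 := E0 w
    refine (H.low_div (kp_ge hs k) hw (mul_pos h1 (add_pos (H.dl_pos hw) h3)).le).trans ?_
    have e : (nn (kp (-2) k) (A w)).re = -(A w).re := by
      rw [κ1, nn, if_neg (by norm_num)]; simp
    rw [e]
    have h4 := H.dl_mul hw
    have h5 : 1 / 8 * (A w).re * ω w ≤ (A w).re * ω w - ω' w := by linarith [O.up w hw]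
    have h6 := mul_pos (H.re w hw) h1
    nlinarith [mul_le_mul_of_nonneg_right h5 (by linarith [E1 w hw] :
      0 ≤ 2 - Real.exp ((w - b) / 4)), mul_le_mul_of_nonneg_right (H.As hw) (mul_pos h1 h3).le,
      mul_le_mul_of_nonneg_left (E1 w hw) h6.le]

theorem mode_zero (H : Coef a b A A' ε) (O : AdmS a b A ω ω')
    (h : MEq a b A (kp (-2) 0) y p g) (hc : 0 ≤ c) (hg : ∀ w ∈ Icc a b, ‖g w‖ ≤ c * ω w)
    (ha : (1 + ((0 : ℤ) : ℝ) ^ 2) * ‖y b‖ ≤ c * ω b)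
    (hd : (1 + rk 0 (A b)) * ‖p b - y b‖ ≤ c * ω b) : ∀ w ∈ Icc a b,
    (1 + ((0 : ℤ) : ℝ) ^ 2) * ‖y w‖ ≤ 3000000 * c * ω w ∧
      (1 + rk 0 (A w)) * ‖p w‖ ≤ 3000000 * c * ω w := by
  have hs : (-2 : ℝ) = -2 ∨ (-2 : ℝ) = 2 := Or.inl rfl
  have hb : b ∈ Icc a b := right_mem_Icc.2 H.le
  have κ1 : kp (-2) 0 = -2 := by norm_num [kp]
  have κm : max 1 (kp (-2) 0) = 1 := by rw [κ1]; norm_num
  have ob := O.pos b hb
  have key := (H.mc (kp_ge hs 0)).bwd (c := 2 * c) (d := p b - y b) (by positivity) h.hP h.hy'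
    (by ring) O.hd (fun w hw => (O.pos w hw).le) (fun w hw => by
      have h6 : (A w).re ≤ 1 / 1000 := (re_le_norm _).trans (H.As hw)
      nlinarith [O.up w hw, O.pos w hw, H.A0 hw])
    O.hd (fun w hw => (O.pos w hw).le) (fun w hw => ?_)
    (H.low_cp hs ob.le (by rw [κm, one_mul]))
    (fun w hw => by nlinarith [hg w hw, mul_nonneg hc (O.pos w hw).le])
    (by push_cast at ha; nlinarith [mul_nonneg hc ob.le]) (H.robin hs hc hd le_rfl)
  · intro w hw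
    have := O.pos w hw
    exact out_bound hs 0 (H.re w hw) (H.As hw) hc (by linarith) (by rw [κm]; linarith)
      (key w hw)
  · have h1 := O.pos w hw
    refine (H.low_div (kp_ge hs 0) hw h1.le).trans ?_
    have e : (nn (kp (-2) 0) (A w)).re = -2 * (A w).re := by
      rw [κ1, nn, if_neg (by norm_num)]; simp
    rw [e]
    nlinarith [O.up w hw, mul_pos (H.A0 hw) h1]

theorem mode_exp (H : Coef a b A A' ε) (hs : s = -2 ∨ s = 2) {t : ℝ}
    (h : MEq a b A (kp s k) y p g) (hc : 0 ≤ c)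
    (hg : ∀ w ∈ Icc a b, ‖g w‖ ≤ c * Real.exp ((w - t) / 4))
    (ha : (1 + (k : ℝ) ^ 2) * ‖y a‖ ≤ c * Real.exp ((a - t) / 4))
    (hd : (1 + rk k (A b)) * ‖p b - y b‖ ≤ c * Real.exp ((b - t) / 4)) : ∀ w ∈ Icc a b,
    (1 + (k : ℝ) ^ 2) * ‖y w‖ ≤ 3000000 * c * Real.exp ((w - t) / 4) ∧
      (1 + rk k (A w)) * ‖p w‖ ≤ 3000000 * c * Real.exp ((w - t) / 4) := by
  have E0 : ∀ w, 0 < Real.exp ((w - t) / 4) := fun w => Real.exp_pos _
  have m0 : 0 < max 1 (kp s k) := zero_lt_one.trans_le (le_max_left _ _)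
  have key := (H.mc (kp_ge hs k)).fwd (c := 2 * c) (d := p b - y b)
    (ψ := fun u => Real.exp ((u - t) / 4) / max 1 (kp s k)) (by positivity) h.hP h.hy'
    (by ring) (fun w _ => hasDeriv_E t _ w) (fun w _ => (E0 w).le)
    (fun w _ => by linarith [E0 w]) (fun w _ => (hasDeriv_E t _ w).div_const _)
    (fun w _ => by positivity) (fun w hw => ?_)
    (H.low_cp hs (by positivity) (by rw [mul_div_cancel₀ _ m0.ne']))
    (fun w hw => by nlinarith [hg w hw, mul_nonneg hc (E0 w).le]) ?_ (H.robin hs hc hd le_rfl)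
  · intro w hw
    exact out_bound hs k (H.re w hw) (H.As hw) hc (by linarith [E0 w])
      (by rw [mul_div_cancel₀ _ m0.ne']; linarith [E0 w]) (key w hw)
  · have h3 := E0 w
    rw [← mul_div_assoc, ← add_div, ← mul_div_assoc]
    by_cases hk : 2 ≤ kp s k
    · obtain ⟨f1, -, f3, -, -, -, f7, -⟩ := nn_facts hk (H.re w hw) (H.As hw)
      have h0 := nn_re hk (H.re w hw)
      rw [max_eq_right (by linarith)]
      have e1 : ‖A w‖ * Real.exp ((w - t) / 4) / ‖1 + nn (kp s k) (A w)‖ =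
          ‖nn (kp s k) (A w)‖ * Real.exp ((w - t) / 4) / kp s k := by
        rw [div_eq_div_iff (by linarith) (by linarith)]
        linear_combination (-(Real.exp ((w - t) / 4))) * f1
      rw [e1]
      refine div_le_div_of_nonneg_right ?_ (by linarith)
      nlinarith [mul_le_mul_of_nonneg_right f7 h3.le, mul_nonneg h0 h3.le]
    · refine (H.low_div (kp_ge hs k) hw h3.le).trans ?_
      rw [le_div_iff₀ m0]
      have h4 : max 1 (kp s k) ≤ 2 := max_le (by norm_num) (not_le.1 hk).le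
      have h5 := (H.mc (kp_ge hs k)).nre w hw
      have h6 : ‖A w‖ * Real.exp ((w - t) / 4) * max 1 (kp s k) ≤
          1 / 1000 * Real.exp ((w - t) / 4) * 2 := by gcongr; exact H.As hw
      nlinarith [mul_le_mul_of_nonneg_right h5 h3.le]
  · have h1 := (kp_max hs k).2.1
    rw [← mul_div_assoc, le_div_iff₀ m0]
    nlinarith [mul_le_mul_of_nonneg_left h1 (norm_nonneg (y a))]

end Coef
end Vale.Agent.P218EN
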