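import Vale.Agent.P218EN.Wt

/-! Scalar linear first order equations: comparison with supersolutions and solution operators. -/

namespace Vale.Agent.P218EN
open Filter Topology Set Complex

/-- projection onto `[a, b]` -/
def cl (a b : ℝ) : C(ℝ, ℝ) := ⟨fun w => max a (min w b), by fun_prop⟩

theorem cl_mem {a b : ℝ} (hab : a ≤ b) (w : ℝ) : cl a b w ∈ Icc a b :=
  ⟨le_max_left _ _, max_le hab (min_le_right _ _)⟩

theorem cl_of_mem {a b w : ℝ} (hw : w ∈ Icc a b) : cl a b w = w := by
  change max a (min w b) = w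
  rw [min_eq_left hw.2, max_eq_right hw.1]

theorem cl_cl {a b : ℝ} (hab : a ≤ b) (w : ℝ) : cl a b (cl a b w) = cl a b w :=
  cl_of_mem (cl_mem hab w)

theorem hasDerivAt_prim {g : ℝ → ℂ} (hg : Continuous g) (t w : ℝ) :
    HasDerivAt (fun u => ∫ s in t..u, g s) (g w) w :=
  intervalIntegral.integral_hasDerivAt_right (hg.intervalIntegrable _ _)
    (hg.stronglyMeasurableAtFilter _ _) hg.continuousAt

theorem sup_fwd {a b : ℝ} {y μ f : ℝ → ℂ} {ψ ψ' : ℝ → ℝ} (hμ : ContinuousOn μ (Icc a b))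
    (hy : ∀ w ∈ Icc a b, HasDerivWithinAt y (μ w * y w + f w) (Icc a b) w)
    (hψ : ∀ w ∈ Icc a b, HasDerivWithinAt ψ (ψ' w) (Icc a b) w)
    (hs : ∀ w ∈ Icc a b, (μ w).re * ψ w + ‖f w‖ ≤ ψ' w) (h0 : ‖y a‖ ≤ ψ a) :
    ∀ w ∈ Icc a b, ‖y w‖ ≤ ψ w := by
  intro w hw
  have hab : a ≤ b := hw.1.trans hw.2
  have hc : Continuous fun s => μ (cl a b s) :=
    hμ.comp_continuous (cl a b).continuous (cl_mem hab)
  set M : ℝ → ℂ := fun u => ∫ s in a..u, μ (cl a b s) with hM
  have hMd : ∀ u ∈ Icc a b, HasDerivWithinAt M (μ u) (Icc a b) u := fun u hu => by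
    have := (hasDerivAt_prim hc a u).hasDerivWithinAt (s := Icc a b)
    rwa [cl_of_mem hu] at this
  have hz : ∀ u ∈ Icc a b, HasDerivWithinAt (fun u => exp (-M u) * y u) (exp (-M u) * f u)
      (Icc a b) u := fun u hu => by
    refine HasDerivWithinAt.congr_deriv (((hMd u hu).neg.cexp).mul (hy u hu)) ?_
    simp only [Pi.neg_apply]; ring
  have hB : ∀ u ∈ Icc a b, HasDerivWithinAt (fun u => Real.exp (-(M u).re) * ψ u)
      (Real.exp (-(M u).re) * (ψ' u - (μ u).re * ψ u)) (Icc a b) u := fun u hu => by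
    have h1 : HasDerivWithinAt (fun u => (M u).re) (μ u).re (Icc a b) u :=
      reCLM.hasFDerivAt.comp_hasDerivWithinAt u (hMd u hu)
    refine HasDerivWithinAt.congr_deriv ((h1.neg.exp).mul (hψ u hu)) ?_
    simp only [Pi.neg_apply]; ring
  have hI : ∀ u ∈ Ico a b, Icc a b ∈ 𝓝[Ici u] u := fun u hu => Icc_mem_nhdsGE_of_mem hu
  have key := image_norm_le_of_norm_deriv_right_le_deriv_boundary'
    (fun u hu => (hz u hu).continuousWithinAt)
    (fun u hu => (hz u (Ico_subset_Icc_self hu)).mono_of_mem_nhdsWithin (hI u hu))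
    (by simpa [hM] using h0) (fun u hu => (hB u hu).continuousWithinAt)
    (fun u hu => (hB u (Ico_subset_Icc_self hu)).mono_of_mem_nhdsWithin (hI u hu))
    (fun u hu => by
      rw [norm_mul, norm_exp, neg_re]
      have := hs u (Ico_subset_Icc_self hu)
      gcongr; linarith) hw
  rw [norm_mul, norm_exp, neg_re] at key
  exact le_of_mul_le_mul_left key (Real.exp_pos _)

theorem sup_bwd {a b : ℝ} {y μ f : ℝ → ℂ} {ψ ψ' : ℝ → ℝ} (hμ : ContinuousOn μ (Icc a b))
    (hy : ∀ w ∈ Icc a b, HasDerivWithinAt y (μ w * y w + f w) (Icc a b) w)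
    (hψ : ∀ w ∈ Icc a b, HasDerivWithinAt ψ (ψ' w) (Icc a b) w)
    (hs : ∀ w ∈ Icc a b, ψ' w + ‖f w‖ ≤ (μ w).re * ψ w) (h0 : ‖y b‖ ≤ ψ b) :
    ∀ w ∈ Icc a b, ‖y w‖ ≤ ψ w := by
  have hm : MapsTo (fun u : ℝ => -u) (Icc (-b) (-a)) (Icc a b) := fun u hu =>
    ⟨by linarith [hu.2], by linarith [hu.1]⟩
  have hn : ∀ u, HasDerivWithinAt (fun u : ℝ => -u) (-1) (Icc (-b) (-a)) u := fun u =>
    (hasDerivAt_neg u).hasDerivWithinAt
  have := sup_fwd (a := -b) (b := -a) (y := fun u => y (-u)) (μ := fun u => -μ (-u))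
    (f := fun u => -f (-u)) (ψ := fun u => ψ (-u)) (ψ' := fun u => -ψ' (-u))
    ((hμ.comp continuous_neg.continuousOn hm).neg)
    (fun u hu => by
      refine HasDerivWithinAt.congr_deriv ((hy _ (hm hu)).scomp u (hn u) hm) ?_
      simp only [neg_smul, one_smul]; ring)
    (fun u hu => by
      refine HasDerivWithinAt.congr_deriv ((hψ _ (hm hu)).scomp u (hn u) hm) ?_
      simp)
    (fun u hu => by
      have := hs _ (hm hu)
      simp only [neg_re, norm_neg]; linarith) (by simpa using h0)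
  intro w hw
  simpa using this (-w) ⟨by linarith [hw.2], by linarith [hw.1]⟩

open Classical in
/-- a continuous function on `[a, b]`, extended by constants -/
noncomputable def mkB (a b : ℝ) (f : ℝ → ℂ) : CB :=
  if h : ∃ u : CB, ∀ w, u w = f (cl a b w) then h.choose else 0

theorem mkB_apply {a b : ℝ} (hab : a ≤ b) {f : ℝ → ℂ} (hf : ContinuousOn f (Icc a b)) (w : ℝ) :
    mkB a b f w = f (cl a b w) := by
  have h : ∃ u : CB, ∀ w, u w = f (cl a b w) := by
    obtain ⟨M, hM⟩ := isCompact_Icc.exists_bound_of_continuousOn hf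
    exact ⟨BoundedContinuousFunction.ofNormedAddCommGroup _
      (hf.comp_continuous (cl a b).continuous (cl_mem hab)) M fun w => hM _ (cl_mem hab w),
      fun _ => rfl⟩
  rw [mkB, dif_pos h]
  exact h.choose_spec w

theorem mkB_of_mem {a b : ℝ} {f : ℝ → ℂ} (hf : ContinuousOn f (Icc a b)) {w : ℝ}
    (hw : w ∈ Icc a b) : mkB a b f w = f w := by
  rw [mkB_apply (hw.1.trans hw.2) hf, cl_of_mem hw]

theorem differentiableOn_mkB {E : Type*} [NormedAddCommGroup E] [NormedSpace ℂ E] {a b : ℝ}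
    (hab : a ≤ b) {f : E → ℝ → ℂ} {U : Set E} (hU : IsOpen U) {M : ℝ}
    (hc : ∀ z ∈ U, ContinuousOn (f z) (Icc a b)) (hM : ∀ z ∈ U, ∀ w ∈ Icc a b, ‖f z w‖ ≤ M)
    (hd : ∀ w ∈ Icc a b, DifferentiableOn ℂ (fun z => f z w) U) :
    DifferentiableOn ℂ (fun z => mkB a b (f z)) U := by
  refine differentiableOn_CB (fun x hx => ?_) fun w => ?_
  · obtain ⟨r, hr, hs⟩ := Metric.isOpen_iff.1 hU x hx
    refine ⟨r, M, hr, hs, fun y hy => (BoundedContinuousFunction.norm_le_of_nonempty).2 fun w => ?_⟩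
    rw [mkB_apply hab (hc y (hs hy))]
    exact hM y (hs hy) _ (cl_mem hab w)
  · exact (hd _ (cl_mem hab w)).congr fun z hz => mkB_apply hab (hc z hz) w

theorem norm_prim_le (a b t : ℝ) (f : CB) (w : ℝ) :
    ‖∫ s in t..cl a b w, f s‖ ≤ (|a - t| + |b - t|) * ‖f‖ := by
  refine (intervalIntegral.norm_integral_le_of_norm_le_const
    fun s _ => f.norm_coe_le_norm s).trans ?_
  rw [mul_comm]
  gcongr
  change |max a (min w b) - t| ≤ _
  have h1 := le_abs_self (a - t)
  have h2 := le_abs_self (b - t)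
  have h3 := neg_abs_le (a - t)
  have h4 := abs_nonneg (a - t)
  have h5 := abs_nonneg (b - t)
  rw [abs_le]
  constructor
  · linarith [le_max_left a (min w b)]
  · rcases le_total a (min w b) with h | h
    · rw [max_eq_right h]; linarith [min_le_right w b]
    · rw [max_eq_left h]; linarith

/-- primitive vanishing at `t` -/
noncomputable def prim (a b t : ℝ) : CB →L[ℂ] CB :=
  LinearMap.mkContinuous
    ⟨⟨fun f => BoundedContinuousFunction.ofNormedAddCommGroup (fun w => ∫ s in t..cl a b w, f s)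
      ((continuous_iff_continuousAt.2 fun u =>
        (hasDerivAt_prim f.continuous t u).continuousAt).comp (cl a b).continuous) _
      (norm_prim_le a b t f),
      fun f g => BoundedContinuousFunction.ext fun _ => intervalIntegral.integral_add
        (f.continuous.intervalIntegrable _ _) (g.continuous.intervalIntegrable _ _)⟩,
      fun c _ => BoundedContinuousFunction.ext fun _ => intervalIntegral.integral_smul c _⟩
    (|a - t| + |b - t|) fun f =>
      BoundedContinuousFunction.norm_ofNormedAddCommGroup_le _ (by positivity)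
        (norm_prim_le a b t f)

theorem prim_apply (a b t : ℝ) (f : CB) (w : ℝ) : prim a b t f w = ∫ s in t..cl a b w, f s := rfl

theorem hasDeriv_prim (a b t : ℝ) (f : CB) {w : ℝ} (hw : w ∈ Icc a b) :
    HasDerivWithinAt (prim a b t f) (f w) (Icc a b) w :=
  (hasDerivAt_prim f.continuous t w).hasDerivWithinAt.congr
    (fun u hu => by rw [prim_apply, cl_of_mem hu]) (by rw [prim_apply, cl_of_mem hw])

/-- pointwise exponential -/
noncomputable def expB (f : CB) : CB :=
  BoundedContinuousFunction.ofNormedAddCommGroup (fun w => exp (f w))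
    (continuous_exp.comp f.continuous) (Real.exp ‖f‖) fun w => by
      rw [norm_exp]
      exact Real.exp_le_exp.2 ((re_le_norm _).trans (f.norm_coe_le_norm w))

theorem expB_apply (f : CB) (w : ℝ) : expB f w = exp (f w) := rfl

theorem differentiable_expB : Differentiable ℂ expB := by
  rw [← differentiableOn_univ]
  refine differentiableOn_CB (fun x _ => ⟨1, Real.exp (‖x‖ + 1), one_pos, subset_univ _,
    fun y hy => ?_⟩) fun w => ?_
  · refine (BoundedContinuousFunction.norm_ofNormedAddCommGroup_le _ (by positivity) _).trans ?_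
    rw [mem_ball_iff_norm] at hy
    exact Real.exp_le_exp.2 (by linarith [norm_le_norm_add_norm_sub' y x])
  · exact ((BoundedContinuousFunction.evalCLM ℂ w :
      CB →L[ℂ] ℂ).differentiable.cexp).differentiableOn

/-- solution of `y' = μ y` with `y t = 1` -/
noncomputable def Hm (a b t : ℝ) (μ : CB) : CB := expB (prim a b t μ)

/-- solution of `y' = μ y + f` with `y t = 0` -/
noncomputable def Vo (a b t : ℝ) (μ f : CB) : CB :=
  Hm a b t μ * prim a b t (Hm a b t (-μ) * f)

theorem hasDeriv_Hm (a b t : ℝ) (μ : CB) {w : ℝ} (hw : w ∈ Icc a b) :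
    HasDerivWithinAt (Hm a b t μ) (μ w * Hm a b t μ w) (Icc a b) w := by
  have := (hasDeriv_prim a b t μ hw).cexp
  rw [mul_comm] at this
  exact this

theorem Hm_self {a b t : ℝ} (ht : t ∈ Icc a b) (μ : CB) : Hm a b t μ t = 1 := by
  simp [Hm, expB_apply, prim_apply, cl_of_mem ht]

theorem Hm_mul_neg (a b t : ℝ) (μ : CB) (w : ℝ) : Hm a b t μ w * Hm a b t (-μ) w = 1 := by
  simp [Hm, expB_apply, ← exp_add]

theorem hasDeriv_Vo (a b t : ℝ) (μ f : CB) {w : ℝ} (hw : w ∈ Icc a b) :
    HasDerivWithinAt (Vo a b t μ f) (μ w * Vo a b t μ f w + f w) (Icc a b) w := by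
  have := (hasDeriv_Hm a b t μ hw).mul (hasDeriv_prim a b t (Hm a b t (-μ) * f) hw)
  refine HasDerivWithinAt.congr_deriv this ?_
  simp only [Vo, BoundedContinuousFunction.mul_apply]
  rw [← mul_assoc (Hm a b t μ w), Hm_mul_neg]; ring

theorem Vo_self {a b t : ℝ} (ht : t ∈ Icc a b) (μ f : CB) : Vo a b t μ f t = 0 := by
  simp [Vo, prim_apply, cl_of_mem ht]

theorem Hm_cl {a b : ℝ} (hab : a ≤ b) (t : ℝ) (μ : CB) (w : ℝ) :
    Hm a b t μ (cl a b w) = Hm a b t μ w := by
  simp only [Hm, expB_apply, prim_apply, cl_cl hab]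

theorem Vo_cl {a b : ℝ} (hab : a ≤ b) (t : ℝ) (μ f : CB) (w : ℝ) :
    Vo a b t μ f (cl a b w) = Vo a b t μ f w := by
  simp only [Vo, BoundedContinuousFunction.mul_apply, Hm_cl hab, prim_apply, cl_cl hab]

section
variable {E : Type*} [NormedAddCommGroup E] [NormedSpace ℂ E] {U : Set E}

theorem differentiableOn_Hm (a b t : ℝ) {μ : E → CB} (h : DifferentiableOn ℂ μ U) :
    DifferentiableOn ℂ (fun z => Hm a b t (μ z)) U :=
  differentiable_expB.comp_differentiableOn ((prim a b t).differentiable.comp_differentiableOn h)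

theorem differentiableOn_Vo (a b t : ℝ) {μ f : E → CB} (h : DifferentiableOn ℂ μ U)
    (hf : DifferentiableOn ℂ f U) : DifferentiableOn ℂ (fun z => Vo a b t (μ z) (f z)) U :=
  (differentiableOn_Hm a b t h).mul ((prim a b t).differentiable.comp_differentiableOn
    ((differentiableOn_Hm a b t h.neg).mul hf))

theorem differentiableOn_CB_apply {f : E → CB} (h : DifferentiableOn ℂ f U) (w : ℝ) :
    DifferentiableOn ℂ (fun z => f z w) U :=
  (BoundedContinuousFunction.evalCLM ℂ w : CB →L[ℂ] ℂ).differentiable.comp_differentiableOn h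

end

end Vale.Agent.P218EN
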