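import Vale.Agent.P218EN.Bdy

/-! Estimates for the enclosed area and for `Λ²`. -/

namespace Vale.Agent.P218EN
open Set Complex WA Metric

theorem norm_one_sub_ge (z : ℂ) : 1 - ‖z‖ ≤ ‖1 - z‖ := by simpa using norm_sub_norm_le 1 z

theorem norm_one_add_ge (z : ℂ) : 1 - ‖z‖ ≤ ‖1 + z‖ := by simpa using norm_one_sub_ge (-z)

theorem L2_facts {A e m : ℂ} (hA : ‖A‖ ≤ 1 / 1000) (he : ‖e‖ ≤ 1 / 1000) (hm : ‖m - 1‖ ≤ 1 / 10) :
    m * (1 - e * m) ≠ 0 ∧
    1 - (1 - 2 * e * m) ^ 2 * (1 + A * (m * (1 - e * m))⁻¹ / 2) ^ 2 * (A * (m * (1 - e * m))⁻¹) ≠ 0 ∧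
    ‖L2 A e m + m - 2‖ ≤ 2 * ‖m - 1‖ ^ 2 + 8 * (‖A‖ + ‖e‖) := by
  have A0 := norm_nonneg A
  have e0 := norm_nonneg e
  have m1 : ‖m‖ ≤ 11 / 10 := by
    have := norm_add_le (m - 1) 1
    simp only [sub_add_cancel, norm_one] at this; linarith
  have m2 : 9 / 10 ≤ ‖m‖ := by
    have := norm_one_add_ge (m - 1)
    simp only [add_sub_cancel] at this; linarith
  have u1 : ‖e * m‖ ≤ 11 / 10 * ‖e‖ := by rw [norm_mul]; nlinarith
  have q1 : 99 / 100 ≤ ‖1 - e * m‖ := by linarith [norm_one_sub_ge (e * m)]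
  have mq : 8 / 9 ≤ ‖m * (1 - e * m)‖ := by rw [norm_mul]; nlinarith
  have h1 : m * (1 - e * m) ≠ 0 := norm_pos_iff.1 (by linarith)
  have m0 : m ≠ 0 := left_ne_zero_of_mul h1
  have n1 : ‖(m * (1 - e * m))⁻¹‖ ≤ 9 / 8 := by
    rw [norm_inv, inv_le_comm₀ (by linarith) (by norm_num)]; linarith
  have hn := mul_inv_cancel₀ h1
  rw [L2]
  generalize (m * (1 - e * m))⁻¹ = n at n1 hn ⊢
  have y1 : ‖A * n‖ ≤ 9 / 8 * ‖A‖ := by rw [norm_mul]; nlinarith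
  have e2 : (1 - 2 * e * m) ^ 2 * (1 + A * n / 2) ^ 2 =
      1 + (A * n / 2 - 2 * (e * m) - e * m * (A * n)) *
        (A * n / 2 - 2 * (e * m) - e * m * (A * n) + 2) := by ring
  have z1 : ‖A * n / 2 - 2 * (e * m) - e * m * (A * n)‖ ≤ 6 / 10 * ‖A‖ + 23 / 10 * ‖e‖ := by
    refine (norm_sub_le _ _).trans ((add_le_add_left (norm_sub_le _ _) _).trans ?_)
    rw [norm_div, norm_mul 2, norm_mul (e * m), norm_ofNat]
    nlinarith [norm_nonneg (e * m), norm_nonneg (A * n)]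
  rw [e2]
  generalize A * n / 2 - 2 * (e * m) - e * m * (A * n) = z at z1 ⊢
  have z2 : ‖z * (z + 2)‖ ≤ 2 * ‖A‖ + 5 * ‖e‖ := by
    have := norm_add_le z 2
    rw [norm_ofNat] at this
    rw [norm_mul]; nlinarith [norm_nonneg z]
  generalize z * (z + 2) = P at z2 ⊢
  have P1 : ‖(1 + P) * (A * n)‖ ≤ 12 / 10 * ‖A‖ := by
    have := norm_add_le 1 P
    rw [norm_one] at this
    rw [norm_mul]; nlinarith [norm_nonneg (A * n), norm_nonneg (1 + P)]
  have D1 : 99 / 100 ≤ ‖1 - (1 + P) * (A * n)‖ := by linarith [norm_one_sub_ge ((1 + P) * (A * n))]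
  have h2 : 1 - (1 + P) * (A * n) ≠ 0 := norm_pos_iff.1 (by linarith)
  refine ⟨h1, h2, ?_⟩
  have e3 : (1 + P) * n / (1 - (1 + P) * (A * n)) + m - 2 =
      n * (P + (1 + P) * (A * n)) / (1 - (1 + P) * (A * n)) + e * m * n + (m - 1) ^ 2 / m := by
    have : n * (1 - e * m) = m⁻¹ := by field_simp; linear_combination hn
    have h3 : (m - 1) ^ 2 / m = m - 2 + m⁻¹ := by field_simp; ring
    rw [h3, ← this]
    have h4 := mul_inv_cancel₀ h2
    simp only [div_eq_mul_inv]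
    linear_combination n * h4
  rw [e3]
  have t1 : ‖n * (P + (1 + P) * (A * n)) / (1 - (1 + P) * (A * n))‖ ≤ 4 * ‖A‖ + 6 * ‖e‖ := by
    rw [norm_div, div_le_iff₀ (by linarith), norm_mul]
    nlinarith [norm_add_le P ((1 + P) * (A * n)), norm_nonneg (P + (1 + P) * (A * n))]
  have t2 : ‖e * m * n‖ ≤ 2 * ‖e‖ := by rw [norm_mul]; nlinarith [norm_nonneg (e * m)]
  have t3 : ‖(m - 1) ^ 2 / m‖ ≤ 2 * ‖m - 1‖ ^ 2 := by
    rw [norm_div, norm_pow, div_le_iff₀ (by linarith)]; nlinarith [sq_nonneg ‖m - 1‖]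
  linarith [norm_add₃_le (a := n * (P + (1 + P) * (A * n)) / (1 - (1 + P) * (A * n)))
    (b := e * m * n) (c := (m - 1) ^ 2 / m)]

theorem differentiableOn_L2 {E : Type*} [NormedAddCommGroup E] [NormedSpace ℂ E] {U : Set E}
    {A e m : E → ℂ} (dA : DifferentiableOn ℂ A U) (de : DifferentiableOn ℂ e U)
    (dm : DifferentiableOn ℂ m U) (hA : ∀ z ∈ U, ‖A z‖ ≤ 1 / 1000) (he : ∀ z ∈ U, ‖e z‖ ≤ 1 / 1000)
    (hm : ∀ z ∈ U, ‖m z - 1‖ ≤ 1 / 10) : DifferentiableOn ℂ (fun z => L2 (A z) (e z) (m z)) U := by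
  have f := fun z hz => L2_facts (hA z hz) (he z hz) (hm z hz)
  have h1 : DifferentiableOn ℂ (fun z => (m z * (1 - e z * m z))⁻¹) U :=
    (dm.mul ((de.mul dm).const_sub 1)).inv fun z hz => (f z hz).1
  have h2 : DifferentiableOn ℂ (fun z => (1 - 2 * e z * m z) ^ 2 *
      (1 + A z * (m z * (1 - e z * m z))⁻¹ / 2) ^ 2) U :=
    ((((de.const_mul 2).mul dm).const_sub 1).pow 2).mul
      ((((dA.mul h1).mul_const (2 : ℂ)⁻¹).const_add 1).pow 2)
  simp only [L2, div_eq_mul_inv (_ * _ * _)]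
  exact (h2.mul h1).mul (((h2.mul (dA.mul h1)).const_sub 1).inv fun z hz => (f z hz).2.1)

theorem L2_lip {A e m m' : ℂ} {ε : ℝ} (e0 : 0 < ε) (e1 : ε ≤ 1 / 1000) (hA : ‖A‖ ≤ ε ^ 2)
    (he : ‖e‖ ≤ ε ^ 2) (hm : ‖m - 1‖ ≤ 3 * ε) (hm' : ‖m' - 1‖ ≤ 3 * ε) :
    ‖L2 A e m + m - (L2 A e m' + m')‖ ≤ 62 * ε * ‖m - m'‖ := by
  have s : ∀ y ∈ ball m' (7 * ε), ‖y - 1‖ ≤ 10 * ε := fun y hy => by
    linarith [norm_sub_le_norm_sub_add_norm_sub y m' 1, mem_ball_iff_norm.1 hy]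
  have a1 : ‖A‖ ≤ 1 / 1000 := by nlinarith
  have a2 : ‖e‖ ≤ 1 / 1000 := by nlinarith
  have := lip_le (f := fun y => L2 A e y + y - 2) (x := m') (r := 7 * ε) (M := 216 * ε ^ 2)
    (((differentiableOn_L2 (differentiableOn_const A) (differentiableOn_const e) differentiableOn_id
      (fun _ _ => a1) (fun _ _ => a2) fun y hy => (s y hy).trans (by linarith)).add
      differentiableOn_id).sub_const 2)
    (fun y hy => (L2_facts a1 a2 ((s y hy).trans (by linarith))).2.2.trans (by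
      nlinarith [pow_le_pow_left₀ (norm_nonneg _) (s y hy) 2])) (z := m)
    (mem_ball_iff_norm.2 (by linarith [norm_sub_le_norm_sub_add_norm_sub m 1 m', norm_sub_rev 1 m']))
  rw [sub_sub_sub_cancel_right] at this
  refine this.trans (mul_le_mul_of_nonneg_right ?_ (norm_nonneg _))
  rw [div_le_iff₀ (by positivity)]; nlinarith

theorem two_pi_ne : (2 * Real.pi : ℂ) ≠ 0 :=
  mul_ne_zero two_ne_zero (ofReal_ne_zero.2 Real.pi_ne_zero)

theorem mean_ev (x : WA) (w : ℝ) :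
    (2 * Real.pi : ℂ)⁻¹ * ∫ θ in (0 : ℝ)..2 * Real.pi, x.ev w θ = x.co 0 w := by
  have := x.integral_ev w 0
  simp only [neg_zero, ch_zero, mul_one] at this
  rw [this, inv_mul_cancel_left₀ two_pi_ne]

theorem norm_mean_le {f : ℝ → ℂ} {M : ℝ} (h : ∀ θ, ‖f θ‖ ≤ M) :
    ‖(2 * Real.pi : ℂ)⁻¹ * ∫ θ in (0 : ℝ)..2 * Real.pi, f θ‖ ≤ M := by
  have := intervalIntegral.norm_integral_le_of_norm_le_const (a := 0) (b := 2 * Real.pi)
    fun θ _ => h θ
  rw [sub_zero, abs_of_pos Real.two_pi_pos] at this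
  rw [norm_mul, norm_inv, norm_mul, norm_ofNat, norm_real, Real.norm_of_nonneg Real.pi_pos.le,
    inv_mul_le_iff₀ Real.two_pi_pos]
  linarith

/-- the quartic remainder of the area density -/
noncomputable def ph (e h : ℂ) : ℂ := h ^ 4 / (1 + e * h ^ 2)

theorem ph_den {e h : ℂ} (he : ‖e‖ ≤ 1 / 1000) (hh : ‖h‖ ≤ 11 / 10) : 99 / 100 ≤ ‖1 + e * h ^ 2‖ := by
  have := norm_one_add_ge (e * h ^ 2)
  rw [norm_mul, norm_pow] at this
  nlinarith [norm_nonneg h, norm_nonneg e, pow_le_pow_left₀ (norm_nonneg _) hh 2]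

theorem ph_le {e h : ℂ} (he : ‖e‖ ≤ 1 / 1000) (hh : ‖h‖ ≤ 11 / 10) : ‖ph e h‖ ≤ 2 := by
  rw [ph, norm_div, norm_pow, div_le_iff₀ (by linarith [ph_den he hh])]
  nlinarith [ph_den he hh, pow_le_pow_left₀ (norm_nonneg _) hh 4]

theorem ph_lip {e h h' : ℂ} (he : ‖e‖ ≤ 1 / 1000) (hh : ‖h‖ ≤ 11 / 10) (hh' : ‖h'‖ ≤ 11 / 10) :
    ‖ph e h - ph e h'‖ ≤ 6 * ‖h - h'‖ := by
  have d1 := ph_den he hh
  have d2 := ph_den he hh'
  have n1 : 1 + e * h ^ 2 ≠ 0 := norm_pos_iff.1 (by linarith)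
  have n2 : 1 + e * h' ^ 2 ≠ 0 := norm_pos_iff.1 (by linarith)
  have e1 : ph e h - ph e h' = (h - h') * ((h + h') * (h ^ 2 + h' ^ 2 + e * (h ^ 2 * h' ^ 2))) /
      ((1 + e * h ^ 2) * (1 + e * h' ^ 2)) := by
    rw [ph, ph, div_sub_div _ _ n1 n2]; congr 1; ring
  have s1 := pow_le_pow_left₀ (norm_nonneg _) hh 2
  have s2 := pow_le_pow_left₀ (norm_nonneg _) hh' 2
  have t1 : ‖h ^ 2 + h' ^ 2 + e * (h ^ 2 * h' ^ 2)‖ ≤ 5 / 2 := by
    refine norm_add₃_le.trans ?_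
    simp only [norm_mul, norm_pow]
    nlinarith [mul_le_mul s1 s2 (by positivity) (by positivity), norm_nonneg e,
      mul_nonneg (sq_nonneg ‖h‖) (sq_nonneg ‖h'‖)]
  have t2 : ‖(h + h') * (h ^ 2 + h' ^ 2 + e * (h ^ 2 * h' ^ 2))‖ ≤ 11 / 2 := by
    rw [norm_mul]; nlinarith [norm_add_le h h', norm_nonneg (h + h')]
  rw [e1, norm_div, norm_mul, norm_mul (1 + _), div_le_iff₀ (by positivity)]
  nlinarith [mul_le_mul_of_nonneg_left t2 (norm_nonneg (h - h')), norm_nonneg (h - h'),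
    mul_le_mul d1 d2 (by norm_num) (norm_nonneg _)]

theorem cont_ph {b : ℝ} {e : ℂ} {η : WA} (he : ‖e‖ ≤ 1 / 1000) (hη : ∀ θ, ‖1 + η.ev b θ‖ ≤ 11 / 10) :
    Continuous fun θ => ph e (1 + η.ev b θ) := by
  have h1 : Continuous fun θ => 1 + η.ev b θ :=
    continuous_const.add (η.continuous_ev.comp (Continuous.prodMk_right b))
  exact (h1.pow 4).div (continuous_const.add (continuous_const.mul (h1.pow 2)))
    fun θ => norm_pos_iff.1 (by linarith [ph_den he (hη θ)])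

theorem amean_eq {b : ℝ} {α : ℂ} {η : WA} (he : ‖ef α b‖ ≤ 1 / 1000)
    (hη : ∀ θ, ‖1 + η.ev b θ‖ ≤ 11 / 10) : amean b α η = 1 + 2 * η.co 0 b + (η * η).co 0 b -
      ef α b * ((2 * Real.pi : ℂ)⁻¹ * ∫ θ in (0 : ℝ)..2 * Real.pi, ph (ef α b) (1 + η.ev b θ)) := by
  have e : ∀ θ, (1 + η.ev b θ) ^ 2 / (1 + ef α b * (1 + η.ev b θ) ^ 2) =
      (1 + (2 : ℂ) • η + η * η).ev b θ - ef α b * ph (ef α b) (1 + η.ev b θ) := fun θ => by
    have : 1 + ef α b * (1 + η.ev b θ) ^ 2 ≠ 0 := norm_pos_iff.1 (by linarith [ph_den he (hη θ)])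
    have h4 := mul_inv_cancel₀ this
    rw [ev_add, ev_add, ev_mul, ev_smul, ev_one, ph, div_eq_mul_inv, div_eq_mul_inv]
    linear_combination (1 + η.ev b θ) ^ 2 * h4
  simp only [amean, e]
  have c1 : Continuous fun θ => (1 + (2 : ℂ) • η + η * η).ev b θ :=
    (continuous_ev _).comp (Continuous.prodMk_right b)
  have c2 : Continuous fun θ => ef α b * ph (ef α b) (1 + η.ev b θ) :=
    continuous_const.mul (cont_ph he hη)
  rw [intervalIntegral.integral_sub (c1.intervalIntegrable _ _) (c2.intervalIntegrable _ _),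
    mul_sub, mean_ev,
    intervalIntegral.integral_const_mul]
  simp [co_one]; ring

theorem differentiableOn_amean {E : Type*} [NormedAddCommGroup E] [NormedSpace ℂ E] {U : Set E}
    {b : ℝ} {al : E → ℂ} {η : E → WA} (dal : DifferentiableOn ℂ al U) (dη : DifferentiableOn ℂ η U)
    (he : ∀ z ∈ U, ‖ef (al z) b‖ ≤ 1 / 1000) (hη : ∀ z ∈ U, ‖η z‖ ≤ 1 / 10) :
    DifferentiableOn ℂ (fun z => amean b (al z) (η z)) U := by
  have de : DifferentiableOn ℂ (fun z => ef (al z) b) U :=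
    ((dal.mul_const (b : ℂ)).const_sub 1).mul_const (8 * b : ℂ)⁻¹
  have h1 : DifferentiableOn ℂ (fun z => (1 + η z) ^ 2) U := (dη.const_add 1).pow 2
  have hu : ∀ z ∈ U, IsUnit (1 - -(ef (al z) b • (1 + η z) ^ 2)) := fun z hz => by
    refine isUnit_one_sub_of_norm_lt_one ?_
    have h2 : ‖1 + η z‖ ≤ 11 / 10 := by linarith [norm_add_le 1 (η z), norm_one (α := WA), hη z hz]
    rw [norm_neg, norm_smul]
    nlinarith [norm_pow_le (1 + η z) 2, pow_le_pow_left₀ (norm_nonneg _) h2 2, he z hz,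
      norm_nonneg ((1 + η z) ^ 2)]
  have h3 := differentiableOn_CB_apply ((coL 0).differentiable.comp_differentiableOn
    (h1.mul (((de.smul h1).neg.const_sub 1).inverse hu))) b
  refine h3.congr fun z hz => ?_
  simp only [Function.comp_apply, coL_apply, Pi.mul_apply, ← mean_ev, amean]
  congr 2
  funext θ
  have h4 := congrArg (evA b θ) (Ring.mul_inverse_cancel _ (hu z hz))
  simp only [map_mul, map_one, sub_neg_eq_add, map_add, map_smul, map_pow, evA_apply,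
    smul_eq_mul] at h4
  rw [ev_mul, div_eq_mul_inv, ← evA_apply b θ (_ ^ 2), map_pow, map_add, map_one, evA_apply]
  congr 1
  simpa using (eq_inv_of_mul_eq_one_right h4).symm

end Vale.Agent.P218EN
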