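import Vale.Agent.P218EN.Est

/-! Stability of solutions of the end problem; restriction, conjugation. -/

namespace Vale.Agent.P218EN
open Set Complex WA Metric

theorem WEq.symm {S : Set ℝ} {x y : WA} (h : WEq S x y) : WEq S y x := fun k w hw => (h k w hw).symm

theorem WEq.trans {S : Set ℝ} {x y z : WA} (h : WEq S x y) (h' : WEq S y z) : WEq S x z :=
  fun k w hw => (h k w hw).trans (h' k w hw)

theorem WEq.sub {S : Set ℝ} {x y x' y' : WA} (h : WEq S x y) (h' : WEq S x' y') :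
    WEq S (x - x') (y - y') := fun k w hw => by simp [h k w hw, h' k w hw]

theorem WEq.smul {S : Set ℝ} {x y : WA} (h : WEq S x y) (c : ℂ) : WEq S (c • x) (c • y) :=
  fun k w hw => by simp [h k w hw]

theorem WEq.mono {S S' : Set ℝ} {x y : WA} (h : WEq S x y) (hS : S' ⊆ S) : WEq S' x y :=
  fun k w hw => h k w (hS hw)

theorem wEq_refl (S : Set ℝ) (x : WA) : WEq S x x := fun _ _ _ => rfl

theorem Lm_sub (s : ℝ) (J J' : Fin 6 → WA) : Lm s (J - J') = Lm s J - Lm s J' := by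
  simp only [Lm, Pi.sub_apply, smul_sub]; ring

/-- the Robin data determined by the boundary condition -/
noncomputable def rD0 (b : ℝ) (α : ℂ) (J : Fin 6 → WA) (γ : WA) : WA :=
  (1 / 2 : ℂ) • (Ex.exB0.ev (vB b α J) - γ - algebraMap ℂ WA (lf b α (J 0)))

theorem rD0_eq (b : ℝ) (α : ℂ) (J : Fin 6 → WA) (γ : WA) :
    rD0 b α J γ = J 3 - J 0 + (1 / 2 : ℂ) • (BB b α J - γ) := by
  have : (2 : WA) * (J 3 - J 0) = (2 : ℂ) • (J 3 - J 0) := by rw [two_mul, two_smul]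
  rw [rD0, BB_eq, this]; module

theorem bc_iff {b : ℝ} {α : ℂ} {J : Fin 6 → WA} {γ : WA} :
    WEq {b} (BB b α J) γ ↔ WEq {b} (J 3 - J 0) (rD0 b α J γ) := by
  rw [rD0_eq]
  refine forall₃_congr fun k w _ => ?_
  simp [sub_eq_zero]

theorem Jet.hasD_rob {a b : ℝ} (hab : a ≤ b) {A : ℝ → ℂ} {J : Fin 6 → WA} (h : Jet a b A J) :
    HasD {b} (fun w => Complex.sqrt (A w)) (J 3 - J 0) (J 5 - Complex.sqrt (A b) • J 1) :=
  hasD_sub (h.hasD_lin hab).2.2 (h.hasD_lin hab).1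

theorem norm_half : ‖(1 / 2 : ℂ)‖ = 1 / 2 := by simp

/-- stability -/
theorem Base.stab {a b ε C c : ℝ} {α : ℂ} {d σ ω σ' ω' : ℝ → ℝ} {ρ : ℤ → ℝ}
    (H : Base a b α ε d σ ω) (S : WSys (Icc a b) ε d σ ω σ' ω')
    (O : GB a b (-2) (Af α) (pt a b (-2)) ρ d σ' ω' C) (hρ : ρ 0 ≤ σ' b)
    (hε : 10000000 * C * ε ≤ 1) (hc : 100 * C * c ≤ 1)
    {J J' : Fin 6 → WA} {f f' ξ ξ' γ γ' γ1 : WA} {Bf Bξ B0 B1 : ℝ}
    (h : Sol a b α J f ξ γ) (h' : Sol a b α J' f' ξ' γ')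
    (hJ : ∀ i, Bd (Icc a b) σ ω (J i) 1) (hJ' : ∀ i, Bd (Icc a b) σ ω (J' i) 1)
    (f0 : 0 ≤ Bf) (bf : ∀ B, (∀ i, Bd (Icc a b) σ' ω' (J i - J' i) B) →
      Bd (Icc a b) σ' (fun w => d w * ω' w) (f - f') (Bf + c * B))
    (bξ : BdX (pt a b (-2)) ρ (ξ - ξ') Bξ) (b0 : Bd {b} σ' ω' (γ - γ') B0)
    (hγ : HasD {b} (fun w => Complex.sqrt (Af α w)) (γ - γ') γ1) (b1 : Bd {b} σ' ω' γ1 B1) (i) :
    Bd (Icc a b) σ' ω' (J i - J' i) (80 * C * (Bf + Bξ + B0 + B1)) := by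
  have C1 := O.one
  have e0 := H.sys.e0
  have x0 := bξ.nonneg
  have s0 := S.s0' b H.hb
  have hj := h.jet.sub h'.jet
  have dir : ∀ k : ℤ, (1 + (k : ℂ) ^ 2) * ((J - J') 0).co k (pt a b (-2) k) =
      (ξ - ξ').co k (pt a b (-2) k) := fun k => by simp [mul_sub, h.dir k, h'.dir k]
  have x1 : ‖(J 0 - J' 0).co 0 b‖ ≤ Bξ * σ' b := by
    obtain ⟨c, h0, h1, h2, h3⟩ := bξ
    have h4 := dir 0
    have h5 := h3 0
    simp only [pt_zero, Int.cast_zero, ne_eq, OfNat.ofNat_ne_zero, not_false_eq_true, zero_pow,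
      add_zero, one_mul, Pi.sub_apply] at h4 h5
    rw [h4]
    exact h5.trans (mul_le_mul ((h1.le_tsum 0 fun j _ => h0 j).trans h2) hρ (O.rho 0) x0)
  have e1 : WEq {b} ((J - J') 3 - (J - J') 0) ((1 / 2 : ℂ) • (Ex.exB0.ev (vB b α J) -
      Ex.exB0.ev (vB b α J') - (γ - γ') - algebraMap ℂ WA (lf b α (J 0) - lf b α (J' 0)))) := by
    have := (bc_iff.1 h.bc).sub (bc_iff.1 h'.bc)
    rw [rD0, rD0] at this
    convert this using 1
    · simp only [Pi.sub_apply]; ring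
    · rw [map_sub]; module
  have e2 := hasD_unique (hj.hasD_rob H.le) ((hasD_sub (hasD_sub
    (hasD_sub (h.jet.hasD_B H.le) (h'.jet.hasD_B H.le)) hγ) (hasD_alg _ _ _)).smul _) e1
  refine (absorb H.le O.pos O.cont (J := J - J') (c := 20 * C * (Bf + 2 * Bξ + B0 + B1))
    (fun B hB i => ?_) i).mono (by nlinarith [b0.nonneg, b1.nonneg])
  have B0' := (hB 0).nonneg
  have hb := H.bd_B_sub S (fun i => (hJ i).subset H.sub) (fun i => (hJ' i).subset H.sub)
    fun i => (hB i).subset H.sub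
  have hl : Bd {b} σ' ω' (algebraMap ℂ WA (lf b α (J 0) - lf b α (J' 0)))
      (200 * ε * B + 2 * Bξ) := Bd.alg (by positivity) fun w hw => by
    have h1 := (H.lf_sub S ((hJ 0).subset H.sub) ((hJ' 0).subset H.sub) ((hB 0).subset H.sub)).1
    have h2 := norm_sub_le (lf b α (J 0) - lf b α (J' 0) + 2 * (J 0 - J' 0).co 0 b)
      (2 * (J 0 - J' 0).co 0 b)
    rw [add_sub_cancel_right, norm_mul, norm_ofNat] at h2
    rw [mem_singleton_iff.1 hw]
    linarith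
  have := H.coef.apriori O (by nlinarith) hj (f := f - f' - (NN a b α J - NN a b α J'))
    (by
      have := (h.eq.sub h'.eq).sub (wEq_refl _ (NN a b α J - NN a b α J'))
      rw [Lm_sub]
      convert this using 1
      rw [EE, EE]; ring) dir (hj.rob H.le) ((bf B hB).sub (H.bd_NN_sub S hJ hJ' hB)) bξ
    ((((hb.1.sub b0).sub hl).smul (1 / 2)).congr e1)
    ((((hb.2.sub b1).sub (Bd.zero _ _ _)).smul (1 / 2)).congr e2) i
  refine this.mono ?_
  rw [norm_half]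
  nlinarith [mul_le_mul_of_nonneg_right hε B0', mul_le_mul_of_nonneg_right hc B0',
    mul_nonneg (mul_nonneg (zero_le_one.trans C1) e0) B0', b0.nonneg, b1.nonneg]

section Aux
variable {a b ε : ℝ} {α : ℂ} {d σ ω : ℝ → ℝ} {J J' : Fin 6 → WA} {f ξ γ : WA}

theorem Base.ev_EE (H : Base a b α ε d σ ω) {a' b' : ℝ} (hs : Icc a' b' ⊆ Icc a b)
    (J : Fin 6 → WA) {w : ℝ} (hw : w ∈ Icc a' b') (θ : ℝ) : (EE a' b' α J).ev w θ =
      pE (Af α w) (xf w) (ef α w) (Complex.sqrt (Af α w)) ((J 0).ev w θ) ((J 1).ev w θ)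
        ((J 2).ev w θ) ((J 3).ev w θ) ((J 4).ev w θ) ((J 5).ev w θ) :=
  P218EN.ev_EE (H.coef.cA.mono hs) (H.cont_x.mono hs) (H.cont_e.mono hs) (H.coef.cont_sqrt.mono hs)
    J hw θ

theorem Jet.dir {A : ℝ → ℂ} (h : Jet a b A J) (k : ℤ) {w : ℝ} (hw : w ∈ Icc a b) :
    (1 + (k : ℂ) ^ 2) * (J 0).co k w = (J 0 - J 2).co k w := by
  rw [co_sub, BoundedContinuousFunction.sub_apply, h.t2' k hw]; ring

/-- restriction -/
theorem Base.restrict (H : Base a b α ε d σ ω) (h : Sol a b α J f ξ γ) {a' b' : ℝ}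
    (hab : a' ≤ b') (hs : Icc a' b' ⊆ Icc a b) : Sol a' b' α J f (J 0 - J 2) (BB b' α J) := by
  refine ⟨h.jet.mono hs, WEq.trans (wEq_iff.2 fun w hw θ => ?_) (h.eq.mono hs),
    fun k => h.jet.dir k (hs (pt_mem hab _ k)), wEq_refl _ _⟩
  rw [H.ev_EE hs J hw, H.ev_EE subset_rfl J (hs hw)]

theorem wEq_ev {n : ℕ} {S : Set ℝ} {V V' : Fin n → WA} (h : ∀ i, WEq S (V i) (V' i)) (e : Ex n) :
    WEq S (e.ev V) (e.ev V') := wEq_iff.2 fun w hw θ => by
  rw [← evA_apply, ← evA_apply, Ex.map_ev, Ex.map_ev]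
  congr 1
  exact funext fun i => wEq_iff.1 (h i) w hw θ

theorem wEq_EE {S : Set ℝ} (e : ∀ i, WEq S (J' i) (J i)) : WEq S (EE a b α J') (EE a b α J) := by
  have h1 : WEq S (NN a b α J') (NN a b α J) := wEq_ev (fun i => by
    fin_cases i
    iterate 6 exact e _
    all_goals exact wEq_refl _ _) _
  intro k w hw
  simp [EE, Lm, e _ k w hw, h1 k w hw]

theorem amean_congr {η η' : WA} (e : WEq {b} η' η) : amean b α η' = amean b α η := by
  simp only [amean, wEq_iff.1 e b rfl]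

theorem wEq_BB (e : ∀ i, WEq {b} (J' i) (J i)) : WEq {b} (BB b α J') (BB b α J) :=
  wEq_iff.2 fun w hw θ => by
    rw [ev_BB, ev_BB, amean_congr (e 0), wEq_iff.1 (e 0) w hw, wEq_iff.1 (e 1) w hw,
      wEq_iff.1 (e 3) w hw]

/-- only the values on `[a, b]` matter -/
theorem Sol.congr (h : Sol a b α J f ξ γ) (hab : a ≤ b)
    (e : ∀ i, WEq (Icc a b) (J' i) (J i)) : Sol a b α J' f ξ γ :=
  ⟨h.jet.congr e, (wEq_EE e).trans h.eq, fun k => by rw [e 0 k _ (pt_mem hab _ k), h.dir k],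
    (wEq_BB fun i => (e i).mono (singleton_subset_iff.2 (right_mem_Icc.2 hab))).trans h.bc⟩

/-- only the relevant values of the data matter -/
theorem Sol.congr_data (h : Sol a b α J f ξ γ) {f' ξ' γ' : WA} (hf : WEq (Icc a b) f f')
    (hξ : ∀ k, ξ.co k (pt a b (-2) k) = ξ'.co k (pt a b (-2) k)) (hγ : WEq {b} γ γ') :
    Sol a b α J f' ξ' γ' :=
  ⟨h.jet, h.eq.trans hf, fun k => (h.dir k).trans (hξ k), h.bc.trans hγ⟩

theorem wEq_comp_cl (x : WA) : WEq (Icc a b) (comp (cl a b) x) x := fun k w hw => by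
  rw [co_comp, cl_of_mem hw]

theorem Clamp.comp (hab : a ≤ b) (J : Fin 6 → WA) : Clamp a b fun i => comp (cl a b) (J i) :=
  fun i => ext'' fun k w => by simp only [co_comp, cl_cl hab]

theorem Clamp.eq (hab : a ≤ b) (h : Clamp a b J) (h' : Clamp a b J')
    (e : ∀ i, WEq (Icc a b) (J i) (J' i)) : J = J' :=
  funext fun i => ext'' fun k w => by
    rw [← h i, ← h' i, co_comp, co_comp, e i k _ (cl_mem hab w)]

theorem jet_zero (a b : ℝ) (A : ℝ → ℂ) : Jet a b A 0 :=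
  ⟨fun k w _ => (hasDerivWithinAt_const w _ (0 : ℂ)).congr_deriv (by simp),
    fun k w _ => by simpa using hasDerivWithinAt_const _ _ _,
    fun k w _ => by simp, fun k w _ => by simp, fun k w _ => by simp⟩

/-- the profile itself: `0` solves with source `NN 0` -/
theorem sol_zero (a b : ℝ) (α : ℂ) : Sol a b α 0 (NN a b α 0) 0 (BB b α 0) :=
  ⟨jet_zero _ _ _, fun k w _ => by simp [EE, Lm], fun k => by simp, wEq_refl _ _⟩

/-- the angular derivative of the boundary operator -/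
theorem Jet.hasD_BB (hab : a ≤ b) (h : Jet a b (Af α) J) :
    HasD {b} (fun w => Complex.sqrt (Af α w)) (BB b α J)
      (Ex.exB1.ev (vB b α J) - (2 : ℂ) • (J 5 - Complex.sqrt (Af α b) • J 1)) := by
  have := hasD_sub (hasD_sub (h.hasD_B hab) ((h.hasD_rob hab).smul 2)) (hasD_alg _ _ (lf b α (J 0)))
  rwa [sub_zero, two_smul, ← two_mul, ← BB_eq] at this

theorem WEq.cj {S : Set ℝ} {x y : WA} (h : WEq S x y) : WEq S (cj x) (cj y) := fun k w hw => by
  rw [co_cj, co_cj, h _ w hw]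

theorem hasD_cj {S : Set ℝ} {t : ℝ → ℂ} {x x' : WA} (h : HasD S t x x')
    (ht : ∀ w ∈ S, starRingEnd ℂ (t w) = t w) : HasD S t (cj x) (cj x') := fun k w hw => by
  simp [h _ w hw, ht w hw]

theorem conj_Af (α w : ℝ) : starRingEnd ℂ (Af α w) = Af α w := by simp [Af, map_ofNat]
theorem conj_xf (w : ℝ) : starRingEnd ℂ (xf w) = xf w := by simp [xf, map_ofNat]
theorem conj_ef (α w : ℝ) : starRingEnd ℂ (ef α w) = ef α w := by simp [ef, map_ofNat]

theorem conj_sqrt {z : ℂ} (h : starRingEnd ℂ z = z) (hz : 0 < z.re) :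
    starRingEnd ℂ (Complex.sqrt z) = Complex.sqrt z := by
  obtain ⟨r, rfl⟩ := conj_eq_iff_real.1 h
  rw [Complex.sqrt, show (2⁻¹ : ℂ) = ((2⁻¹ : ℝ) : ℂ) by simp, ← ofReal_cpow (by simpa using hz.le),
    conj_ofReal]

theorem amean_cj (b α : ℝ) (η : WA) : amean b α (cj η) = starRingEnd ℂ (amean b α η) := by
  simp only [amean, map_mul, map_inv₀, map_ofNat, conj_ofReal]
  congr 1
  rw [← conjCLE_apply, ← ContinuousLinearEquiv.coe_coe,
    intervalIntegral.integral_of_le Real.two_pi_pos.le,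
    intervalIntegral.integral_of_le Real.two_pi_pos.le, ContinuousLinearEquiv.coe_coe,
    conjCLE_apply, ← integral_conj]
  simp [ev_cj, conj_ef]

/-- conjugation, real profile -/
theorem Base.cj {α : ℝ} (H : Base a b α ε d σ ω) (h : Sol a b α J f ξ γ) :
    Sol a b α (fun i => cj (J i)) (cj f) (cj ξ) (cj γ) := by
  have hr : ∀ w ∈ Icc a b, starRingEnd ℂ (Complex.sqrt (Af α w)) = Complex.sqrt (Af α w) :=
    fun w hw => conj_sqrt (conj_Af α w) (H.coef.re w hw)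
  refine ⟨⟨fun k w hw => ?_, fun k w hw => ?_, hasD_cj h.jet.t1 (by simp),
    hasD_cj h.jet.t2 (by simp), hasD_cj h.jet.t5 hr⟩, WEq.trans (wEq_iff.2 fun w hw θ => ?_) h.eq.cj,
    fun k => ?_, WEq.trans (wEq_iff.2 fun w _ θ => ?_) h.bc.cj⟩
  · exact (h.jet.d0 (-k) w hw).star.congr_deriv (by simp [conj_Af])
  · simpa [conj_Af] using (h.jet.d3 (-k) w hw).star
  · rw [ev_cj, H.ev_EE subset_rfl _ hw, H.ev_EE subset_rfl _ hw]
    simp only [ev_cj, pE, pa11, pa12, pa22, pb, pb0, map_add, map_mul, map_sub, map_neg, map_pow,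
      map_one, map_ofNat, conj_Af, conj_xf, conj_ef, hr w hw]
  · have e : pt a b (-2) (-k) = pt a b (-2) k := by simp [pt, kp]
    simp [← e, ← h.dir (-k)]
  · rw [ev_cj, ev_BB, ev_BB, amean_cj]
    simp only [ev_cj, pB, L2, map_add, map_mul, map_sub, map_pow, map_div₀, map_inv₀,
      map_one, map_ofNat, conj_Af, conj_ef]

end Aux

end Vale.Agent.P218EN
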