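import Vale.Agent.P218EN.Mode

/-! The symbols of the factorisation of `y'' - y' - κ A y`. -/

namespace Vale.Agent.P218EN
open Filter Topology Set Complex

theorem csqrt_sq (z : ℂ) : Complex.sqrt z ^ 2 = z := by simp [Complex.sqrt]

theorem csqrt_re_nonneg (z : ℂ) : 0 ≤ (Complex.sqrt z).re := by
  rw [Complex.sqrt, Complex.cpow_inv_two_re]
  exact Real.sqrt_nonneg _

theorem norm_csqrt_sq (z : ℂ) : ‖Complex.sqrt z‖ ^ 2 = ‖z‖ := by rw [← norm_pow, csqrt_sq]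

theorem hasDerivAt_csqrt {z : ℂ} (hz : 0 < z.re) :
    HasDerivAt Complex.sqrt (1 / (2 * Complex.sqrt z)) z := by
  have h := (differentiableAt_sqrt (Or.inl hz : z ∈ slitPlane)).hasDerivAt
  have h1 : HasDerivAt (fun u => Complex.sqrt u ^ 2) _ z := h.pow 2
  simp only [csqrt_sq] at h1
  have h2 := h1.unique (hasDerivAt_id z)
  have h0 : Complex.sqrt z ≠ 0 := fun h0 => by
    have := csqrt_sq z
    rw [h0] at this
    rw [← this] at hz
    simp at hz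
  refine h.congr_deriv ?_
  field_simp
  simp only [Nat.cast_ofNat, Nat.add_one_sub_one, pow_one] at h2
  linear_combination h2

/-- `cos (arg A)` -/
noncomputable def dl (A : ℝ → ℂ) (w : ℝ) : ℝ := (A w).re / ‖A w‖

/-- small, slowly varying coefficient with positive real part -/
structure Coef (a b : ℝ) (A A' : ℝ → ℂ) (ε : ℝ) : Prop where
  le : a ≤ b
  e1 : ε ≤ 1 / 1000
  hA : ∀ w ∈ Icc a b, HasDerivWithinAt A (A' w) (Icc a b) w
  cA' : ContinuousOn A' (Icc a b)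
  re : ∀ w ∈ Icc a b, 0 < (A w).re
  A2 : ∀ w ∈ Icc a b, ‖A w‖ ^ 2 ≤ ε * (A w).re
  A' : ∀ w ∈ Icc a b, ‖A' w‖ ≤ ε * (A w).re

/-- minus the slow rate -/
noncomputable def nn (κ : ℝ) (A : ℂ) : ℂ :=
  if 2 ≤ κ then (Complex.sqrt (1 + 4 * κ * A) - 1) / 2 else κ * A

/-- its derivative -/
noncomputable def nd (κ : ℝ) (A A' : ℂ) : ℂ :=
  if 2 ≤ κ then κ * A' / (1 + 2 * nn κ A) else κ * A'

/-- error of the factorisation -/
noncomputable def cc (κ : ℝ) (A A' : ℂ) : ℂ := κ - (nn κ A + nn κ A ^ 2 - nd κ A A') / A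

section high
variable {κ : ℝ} {A : ℂ}

theorem nn_sq (hκ : 2 ≤ κ) (A : ℂ) : nn κ A ^ 2 + nn κ A = κ * A := by
  rw [nn, if_pos hκ]
  linear_combination (csqrt_sq (1 + 4 * κ * A)) / 4

theorem nn_parts (hκ : 2 ≤ κ) (A : ℂ) :
    (nn κ A).re ^ 2 - (nn κ A).im ^ 2 + (nn κ A).re = κ * A.re := by
  have := congrArg Complex.re (nn_sq hκ A)
  simp only [add_re, mul_re, ofReal_re, ofReal_im, zero_mul, sub_zero, sq] at this ⊢
  exact this

theorem nn_re (hκ : 2 ≤ κ) (hA : 0 < A.re) : 0 ≤ (nn κ A).re := by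
  have h1 := nn_parts hκ A
  have h2 : -(1 / 2) ≤ (nn κ A).re := by
    have := csqrt_re_nonneg (1 + 4 * κ * A)
    rw [nn, if_pos hκ]
    simp only [div_ofNat_re, sub_re, one_re]
    linarith
  by_contra h
  have : 0 ≤ κ * A.re := by positivity
  nlinarith [sq_nonneg (nn κ A).im]

theorem norm_sq_parts (z : ℂ) : ‖z‖ ^ 2 = z.re ^ 2 + z.im ^ 2 := by
  rw [Complex.sq_norm, normSq_apply]; ring

theorem nn_facts (hκ : 2 ≤ κ) (hA : 0 < A.re) (hs : ‖A‖ ≤ 1 / 1000) :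
    ‖nn κ A‖ * ‖1 + nn κ A‖ = κ * ‖A‖ ∧ ‖nn κ A‖ ≤ ‖1 + nn κ A‖ ∧ 1 ≤ ‖1 + nn κ A‖ ∧
    ‖1 + nn κ A‖ ≤ ‖1 + 2 * nn κ A‖ ∧ 2 * ‖nn κ A‖ ≤ ‖1 + 2 * nn κ A‖ ∧
    ‖1 + 2 * nn κ A‖ ≤ 142 / 100 * (1 + 2 * (nn κ A).re) ∧
    ‖nn κ A‖ ≤ 1 + 2 * (nn κ A).re ∧ A.re * ‖nn κ A‖ ≤ ‖A‖ * (nn κ A).re ∧
    ‖nn κ A‖ ≤ 224 / 10000 * κ ∧ 7 / 4 * A.re ≤ 15 / 16 * (nn κ A).re := by
  have h0 := nn_re hκ hA
  have h1 := nn_parts hκ A
  have h2 : ‖nn κ A‖ * ‖1 + nn κ A‖ = κ * ‖A‖ := by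
    rw [← norm_mul, show nn κ A * (1 + nn κ A) = κ * A by linear_combination nn_sq hκ A,
      norm_mul, norm_real, Real.norm_of_nonneg (by linarith)]
  set n := nn κ A
  have hk : 0 ≤ κ * A.re := by positivity
  have e0 := norm_sq_parts n
  have e1 := norm_sq_parts (1 + n)
  have e2 := norm_sq_parts (1 + 2 * n)
  simp only [add_re, one_re, add_im, one_im, zero_add, mul_re, mul_im, re_ofNat, im_ofNat,
    zero_mul, sub_zero, add_zero] at e1 e2
  have p0 := norm_nonneg n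
  have p1 := norm_nonneg (1 + n)
  have p2 := norm_nonneg (1 + 2 * n)
  have a1 : ‖n‖ ≤ ‖1 + n‖ := abs_le_of_sq_le_sq' (by nlinarith) p1 |>.2
  have a2 : 1 + n.re ≤ ‖1 + n‖ := by simpa using re_le_norm (1 + n)
  have a3 : ‖n‖ ≤ 224 / 10000 * κ := abs_le_of_sq_le_sq' (by nlinarith) (by positivity) |>.2
  have a4 : n.re ≤ ‖n‖ := re_le_norm n
  refine ⟨h2, a1, by linarith, abs_le_of_sq_le_sq' (by nlinarith [sq_nonneg n.im]) p2 |>.2,
    abs_le_of_sq_le_sq' (by nlinarith) p2 |>.2,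
    abs_le_of_sq_le_sq' (by nlinarith) (by positivity) |>.2,
    abs_le_of_sq_le_sq' (by nlinarith) (by positivity) |>.2, ?_, a3, ?_⟩
  · have : κ * (A.re * ‖n‖) ≤ κ * (‖A‖ * n.re) := by
      calc κ * (A.re * ‖n‖) = (κ * A.re) * ‖n‖ := by ring
        _ ≤ (n.re * ‖1 + n‖) * ‖n‖ := mul_le_mul_of_nonneg_right
            (by nlinarith [sq_nonneg n.im, mul_le_mul_of_nonneg_left a2 h0]) p0
        _ = (‖n‖ * ‖1 + n‖) * n.re := by ring
        _ = _ := by rw [h2]; ring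
    exact le_of_mul_le_mul_left this (by linarith)
  · have : κ * (7 / 4 * A.re) ≤ κ * (15 / 16 * n.re) := by
      have b1 : κ * A.re ≤ n.re * (1 + n.re) := by nlinarith [sq_nonneg n.im]
      have b2 : n.re * (1 + n.re) ≤ n.re * (5224 / 10000 * κ) := by gcongr; linarith
      nlinarith
    exact le_of_mul_le_mul_left this (by linarith)

end high

namespace Coef
variable {a b ε : ℝ} {A A' : ℝ → ℂ}

theorem A0 (H : Coef a b A A' ε) {w : ℝ} (hw : w ∈ Icc a b) : 0 < ‖A w‖ :=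
  (H.re w hw).trans_le (re_le_norm _)

theorem e0 (H : Coef a b A A' ε) : 0 ≤ ε := by
  have ha := left_mem_Icc.2 H.le
  by_contra h
  nlinarith [H.A2 a ha, H.re a ha, sq_nonneg ‖A a‖]

theorem dl_pos (H : Coef a b A A' ε) {w : ℝ} (hw : w ∈ Icc a b) : 0 < dl A w :=
  div_pos (H.re w hw) (H.A0 hw)

theorem dl_le (H : Coef a b A A' ε) {w : ℝ} (hw : w ∈ Icc a b) : dl A w ≤ 1 :=
  (div_le_one (H.A0 hw)).2 (re_le_norm _)

theorem dl_mul (H : Coef a b A A' ε) {w : ℝ} (hw : w ∈ Icc a b) : dl A w * ‖A w‖ = (A w).re :=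
  div_mul_cancel₀ _ (H.A0 hw).ne'

theorem A_le (H : Coef a b A A' ε) {w : ℝ} (hw : w ∈ Icc a b) : ‖A w‖ ≤ ε * dl A w := by
  have h := H.A2 w hw
  rw [← H.dl_mul hw, ← mul_assoc, sq] at h
  exact le_of_mul_le_mul_right h (H.A0 hw)

theorem As (H : Coef a b A A' ε) {w : ℝ} (hw : w ∈ Icc a b) : ‖A w‖ ≤ 1 / 1000 := by
  nlinarith [H.A_le hw, H.dl_le hw, H.e0, H.e1]

theorem A's (H : Coef a b A A' ε) {w : ℝ} (hw : w ∈ Icc a b) : ‖A' w‖ ≤ ‖A w‖ / 1000 := by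
  nlinarith [H.A' w hw, re_le_norm (A w), H.re w hw, H.e0, H.e1]

theorem cA (H : Coef a b A A' ε) : ContinuousOn A (Icc a b) :=
  fun w hw => (H.hA w hw).continuousWithinAt

theorem mono (H : Coef a b A A' ε) {a' b' : ℝ} (h : a' ≤ b') (hs : Icc a' b' ⊆ Icc a b) :
    Coef a' b' A A' ε :=
  ⟨h, H.e1, fun w hw => (H.hA w (hs hw)).mono hs, H.cA'.mono hs, fun w hw => H.re w (hs hw),
    fun w hw => H.A2 w (hs hw), fun w hw => H.A' w (hs hw)⟩

theorem exists_dl' (H : Coef a b A A' ε) {w : ℝ} (hw : w ∈ Icc a b) :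
    ∃ d, HasDerivWithinAt (dl A) d (Icc a b) w ∧ d ≤ dl A w / 100 := by
  have h0 := H.A0 hw
  obtain ⟨α', h1, h2, -⟩ := exists_deriv_norm (H.hA w hw) (norm_pos_iff.1 h0)
  have h3 : HasDerivWithinAt (fun u => (A u).re) (A' w).re (Icc a b) w :=
    reCLM.hasFDerivAt.comp_hasDerivWithinAt w (H.hA w hw)
  refine ⟨_, h3.div h1 h0.ne', ?_⟩
  rw [div_le_iff₀ (by positivity), sq, ← mul_assoc, div_mul_eq_mul_div, H.dl_mul hw]
  have h4 := re_le_norm (A' w)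
  have h5 := (abs_le.1 h2).1
  have h6 := H.A' w hw
  have h7 := H.re w hw
  have h8 := re_le_norm (A w)
  have h9 : ‖A' w‖ ≤ (A w).re / 1000 := by nlinarith [H.e1]
  nlinarith [norm_nonneg (A' w)]

theorem hasDeriv_nn (H : Coef a b A A' ε) (κ : ℝ) {w : ℝ} (hw : w ∈ Icc a b) :
    HasDerivWithinAt (fun u => nn κ (A u)) (nd κ (A w) (A' w)) (Icc a b) w := by
  unfold nd
  split_ifs with hκ
  · have h1 : 0 < (1 + 4 * κ * A w).re := by
      have := H.re w hw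
      simp only [add_re, one_re, mul_re, re_ofNat, ofReal_re, im_ofNat, ofReal_im, mul_zero,
        sub_zero, mul_im, zero_mul, add_zero]
      positivity
    have h2 := (hasDerivAt_csqrt h1).comp_hasDerivWithinAt w
      (((H.hA w hw).const_mul (4 * κ : ℂ)).const_add 1)
    simp only [nn, if_pos hκ]
    refine ((h2.sub_const 1).div_const 2).congr_deriv ?_
    have e : 1 + 2 * ((Complex.sqrt (1 + 4 * κ * A w) - 1) / 2) =
      Complex.sqrt (1 + 4 * κ * A w) := by ring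
    rw [e]; ring
  · simp only [nn, if_neg hκ]
    exact (H.hA w hw).const_mul _

theorem mc (H : Coef a b A A' ε) {κ : ℝ} (hκ : -2 ≤ κ) :
    MC a b A A' (fun u => nn κ (A u)) fun u => nd κ (A u) (A' u) := by
  have hl : ¬2 ≤ κ → ∀ w ∈ Icc a b, ‖nn κ (A w)‖ ≤ 1 / 500 := fun h w hw => by
    rw [nn, if_neg h, norm_mul, norm_real, Real.norm_eq_abs]
    have : |κ| ≤ 2 := abs_le.2 ⟨hκ, (not_le.1 h).le⟩
    nlinarith [H.As hw, abs_nonneg κ, norm_nonneg (A w)]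
  refine ⟨H.le, H.hA, fun w hw => H.hasDeriv_nn κ hw, fun w hw => norm_pos_iff.1 (H.A0 hw),
    fun w hw => H.As hw, fun w hw => H.A's hw, fun w hw => ?_, fun w hw => ?_, fun w hw => ?_,
    fun w hw => ?_⟩ <;> by_cases h : 2 ≤ κ
  · obtain ⟨f1, f2, f3, f4, -⟩ := nn_facts h (H.re w hw) (H.As hw)
    rw [nd, if_pos h, norm_div, div_le_iff₀ (by linarith), norm_mul, norm_real,
      Real.norm_of_nonneg (by linarith)]
    have := mul_le_mul_of_nonneg_left (H.A's hw) (by linarith : 0 ≤ κ)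
    nlinarith [norm_nonneg (nn κ (A w))]
  · rw [nd, nn, if_neg h, if_neg h, norm_mul, norm_mul, mul_div_assoc]
    gcongr
    exact H.A's hw
  · linarith [nn_re h (H.re w hw)]
  · linarith [(abs_le.1 ((abs_re_le_norm _).trans (hl h w hw))).1]
  · exact (nn_facts h (H.re w hw) (H.As hw)).2.2.2.2.2.1
  · have h1 := (abs_le.1 ((abs_re_le_norm _).trans (hl h w hw))).1
    have h2 := norm_add_le 1 (2 * nn κ (A w))
    rw [norm_mul, Complex.norm_two, norm_one] at h2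
    linarith [hl h w hw]
  · exact (nn_facts h (H.re w hw) (H.As hw)).2.2.2.2.1
  · have h2 := norm_sub_le (1 + 2 * nn κ (A w)) (2 * nn κ (A w))
    rw [add_sub_cancel_right, norm_mul, Complex.norm_two, norm_one] at h2
    linarith [hl h w hw]

theorem cc_le (H : Coef a b A A' ε) {κ : ℝ} (hκ : -2 ≤ κ) {w : ℝ} (hw : w ∈ Icc a b) :
    ‖cc κ (A w) (A' w)‖ ≤ 6 * ε * dl A w * max 1 κ := by
  have h0 := H.A0 hw
  have h0' : A w ≠ 0 := norm_pos_iff.1 h0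
  have h1 : ‖A' w / A w‖ ≤ ε * dl A w := by
    rw [norm_div, div_le_iff₀ h0, mul_assoc, H.dl_mul hw]; exact H.A' w hw
  have h2 : 0 ≤ ε * dl A w := mul_nonneg H.e0 (H.dl_pos hw).le
  by_cases h : 2 ≤ κ
  · obtain ⟨-, -, f3, f4, -⟩ := nn_facts h (H.re w hw) (H.As hw)
    have e : cc κ (A w) (A' w) = κ * (A' w / A w) / (1 + 2 * nn κ (A w)) := by
      rw [cc, add_comm (nn κ (A w)), nn_sq h, nd, if_pos h]; field_simp; ring
    rw [e, norm_div, div_le_iff₀ (by linarith), norm_mul, norm_real,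
      Real.norm_of_nonneg (by linarith), max_eq_right (by linarith)]
    have h3 := mul_le_mul_of_nonneg_left h1 (by linarith : 0 ≤ κ)
    have h4 : 0 ≤ ε * dl A w * κ := by positivity
    nlinarith
  · have e : cc κ (A w) (A' w) = κ * (A' w / A w) - κ * κ * A w := by
      rw [cc, nd, nn, if_neg h, if_neg h]; field_simp; ring
    have h3 : |κ| ≤ 2 := abs_le.2 ⟨hκ, (not_le.1 h).le⟩
    rw [e]
    refine (norm_sub_le _ _).trans ?_
    simp only [norm_mul, norm_real, Real.norm_eq_abs]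
    have h4 : |κ| * ‖A' w / A w‖ ≤ 2 * (ε * dl A w) := by gcongr
    have h5 : |κ| * |κ| * ‖A w‖ ≤ 2 * 2 * (ε * dl A w) := by gcongr; exact H.A_le hw
    nlinarith [le_max_left 1 κ]

end Coef
end Vale.Agent.P218EN
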