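import Vale.Agent.P218EN.WA
import Vale.Agent.P218EN.Hol

/-! Weighted bounds in the Wiener algebra, composition, multipliers, conjugation. -/

namespace Vale.Agent.P218EN
open Filter Topology Set Complex WA

/-- weight `a` for the mode `0`, weight `b` for the other modes -/
def wt (a b : ℝ → ℝ) (k : ℤ) : ℝ → ℝ := if k = 0 then a else b

@[simp] theorem wt_zero (a b : ℝ → ℝ) : wt a b 0 = a := if_pos rfl
theorem wt_ne (a b : ℝ → ℝ) {k : ℤ} (hk : k ≠ 0) : wt a b k = b := if_neg hk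

/-- `sup_S |x_0| / a + sum_{k ≠ 0} sup_S |x_k| / b ≤ B` -/
def Bd (S : Set ℝ) (a b : ℝ → ℝ) (x : WA) (B : ℝ) : Prop :=
  ∃ c : ℤ → ℝ, (∀ k, 0 ≤ c k) ∧ Summable c ∧ ∑' k, c k ≤ B ∧
    ∀ k, ∀ w ∈ S, ‖x.co k w‖ ≤ c k * wt a b k w

namespace Bd
variable {S : Set ℝ} {a b a' b' : ℝ → ℝ} {x y : WA} {B B' : ℝ}

theorem nonneg (h : Bd S a b x B) : 0 ≤ B := by
  obtain ⟨c, h0, -, h2, -⟩ := h
  exact (tsum_nonneg h0).trans h2

theorem mono (h : Bd S a b x B) (hB : B ≤ B') : Bd S a b x B' := by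
  obtain ⟨c, h0, h1, h2, h3⟩ := h
  exact ⟨c, h0, h1, h2.trans hB, h3⟩

theorem subset (h : Bd S a b x B) {S' : Set ℝ} (hS : S' ⊆ S) : Bd S' a b x B := by
  obtain ⟨c, h0, h1, h2, h3⟩ := h
  exact ⟨c, h0, h1, h2, fun k w hw => h3 k w (hS hw)⟩

/-- coefficientwise comparison -/
theorem of_le (h : Bd S a b x B) {t : ℝ} (ht : 0 ≤ t)
    (hy : ∀ k, ∀ w ∈ S, ∀ c, 0 ≤ c → ‖x.co k w‖ ≤ c * wt a b k w →
      ‖y.co k w‖ ≤ t * c * wt a' b' k w) : Bd S a' b' y (t * B) := by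
  obtain ⟨c, h0, h1, h2, h3⟩ := h
  refine ⟨fun k => t * c k, fun k => mul_nonneg ht (h0 k), h1.mul_left t, ?_, fun k w hw =>
    hy k w hw _ (h0 k) (h3 k w hw)⟩
  rw [tsum_mul_left]
  gcongr

theorem weaken (h : Bd S a b x B) {t : ℝ} (ht : 0 ≤ t) (ha : ∀ w ∈ S, a w ≤ t * a' w)
    (hb : ∀ w ∈ S, b w ≤ t * b' w) : Bd S a' b' x (t * B) := by
  refine h.of_le ht fun k w hw c hc hx => hx.trans ?_
  have : wt a b k w ≤ t * wt a' b' k w := by
    unfold wt; split_ifs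
    · exact ha w hw
    · exact hb w hw
  calc c * wt a b k w ≤ c * (t * wt a' b' k w) := by gcongr
    _ = _ := by ring

theorem weaken' (h : Bd S a b x B) (ha : ∀ w ∈ S, a w ≤ a' w) (hb : ∀ w ∈ S, b w ≤ b' w) :
    Bd S a' b' x B := by
  simpa using h.weaken (t := 1) zero_le_one (by simpa using ha) (by simpa using hb)

theorem congr (h : Bd S a b x B) (hy : ∀ k, ∀ w ∈ S, y.co k w = x.co k w) : Bd S a b y B := by
  simpa using h.of_le (y := y) (a' := a) (b' := b) zero_le_one fun k w hw c _ hx => by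
    rw [hy k w hw, one_mul]; exact hx

theorem zero (S : Set ℝ) (a b : ℝ → ℝ) : Bd S a b 0 0 :=
  ⟨0, fun _ => le_rfl, summable_zero, by simp, fun k w _ => by simp⟩

theorem add (h : Bd S a b x B) (h' : Bd S a b y B') : Bd S a b (x + y) (B + B') := by
  obtain ⟨c, h0, h1, h2, h3⟩ := h
  obtain ⟨c', h0', h1', h2', h3'⟩ := h'
  refine ⟨fun k => c k + c' k, fun k => add_nonneg (h0 k) (h0' k), h1.add h1', ?_,
    fun k w hw => ?_⟩
  · rw [h1.tsum_add h1']; exact add_le_add h2 h2'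
  · rw [co_add, BoundedContinuousFunction.add_apply, add_mul]
    exact (norm_add_le _ _).trans (add_le_add (h3 k w hw) (h3' k w hw))

theorem smul (h : Bd S a b x B) (t : ℂ) : Bd S a b (t • x) (‖t‖ * B) :=
  h.of_le (norm_nonneg t) fun k w _ c _ hx => by
    rw [co_smul, BoundedContinuousFunction.smul_apply, norm_smul, mul_assoc]
    gcongr

theorem neg (h : Bd S a b x B) : Bd S a b (-x) B := by simpa using h.smul (-1)

theorem sub (h : Bd S a b x B) (h' : Bd S a b y B') : Bd S a b (x - y) (B + B') := by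
  rw [sub_eq_add_neg]; exact h.add h'.neg

theorem mul {a1 b1 a2 b2 : ℝ → ℝ} (h : Bd S a1 b1 x B) (h' : Bd S a2 b2 y B')
    (h00 : ∀ w ∈ S, a1 w * a2 w ≤ a w) (h11 : ∀ w ∈ S, b1 w * b2 w ≤ a w)
    (h01 : ∀ w ∈ S, a1 w * b2 w ≤ b w) (h10 : ∀ w ∈ S, b1 w * a2 w ≤ b w)
    (h11' : ∀ w ∈ S, b1 w * b2 w ≤ b w) : Bd S a b (x * y) (B * B') := by
  have hB := h.nonneg
  obtain ⟨c, h0, h1, h2, h3⟩ := h
  obtain ⟨c', h0', h1', h2', h3'⟩ := h'
  have hc := conv_facts (a := c) (b := c') h1.norm h1'.norm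
  refine ⟨fun k => ∑' j, c j * c' (k - j), fun k => tsum_nonneg fun j =>
    mul_nonneg (h0 _) (h0' _), hc.2.1, ?_, fun k w hw => ?_⟩
  · rw [hc.2.2]
    exact mul_le_mul h2 h2' (tsum_nonneg h0') hB
  · rw [← (hasSum_co_mul x y k w).tsum_eq]
    refine tsum_of_norm_bounded ((hc.1 k).hasSum.mul_right _) fun j => ?_
    have e : wt a1 b1 j w * wt a2 b2 (k - j) w ≤ wt a b k w := by
      by_cases hj : j = 0 <;> by_cases hk : k = 0
      · simpa [hj, hk] using h00 w hw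
      · simpa [hj, wt_ne _ _ hk] using h01 w hw
      · simpa [hk, wt_ne _ _ hj, wt_ne _ _ (neg_ne_zero.2 hj)] using h11 w hw
      · by_cases hkj : k - j = 0
        · simpa [hkj, wt_ne _ _ hk, wt_ne _ _ hj] using h10 w hw
        · simpa [wt_ne _ _ hkj, wt_ne _ _ hk, wt_ne _ _ hj] using h11' w hw
    rw [norm_mul]
    calc _ ≤ (c j * wt a1 b1 j w) * (c' (k - j) * wt a2 b2 (k - j) w) :=
          mul_le_mul (h3 j w hw) (h3' _ w hw) (norm_nonneg _)
            ((norm_nonneg _).trans (h3 j w hw))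
      _ = (c j * c' (k - j)) * (wt a1 b1 j w * wt a2 b2 (k - j) w) := by ring
      _ ≤ _ := by
          have := mul_nonneg (h0 j) (h0' (k - j))
          gcongr

theorem of_mode0 {t : ℝ} (ht : 0 ≤ t) (h0 : ∀ w ∈ S, ‖x.co 0 w‖ ≤ t * a w)
    (h1 : ∀ k ≠ 0, ∀ w ∈ S, x.co k w = 0) : Bd S a b x t := by
  refine ⟨Pi.single 0 t, fun k => ?_, (hasSum_pi_single (0 : ℤ) t).summable,
    (hasSum_pi_single (0 : ℤ) t).tsum_eq.le, fun k w hw => ?_⟩
  · rw [Pi.single_apply]; split_ifs <;> simp [ht]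
  · by_cases hk : k = 0
    · simpa [hk] using h0 w hw
    · simp [h1 k hk w hw, hk]

theorem sc {c : CB} {t : ℝ} (ht : 0 ≤ t) (h : ∀ w ∈ S, ‖c w‖ ≤ t * a w) : Bd S a b (sc c) t :=
  of_mode0 ht (by simpa [co_sc] using h) fun k hk w _ => by simp [co_sc, hk]

theorem of_norm (S : Set ℝ) (x : WA) : Bd S 1 1 x ‖x‖ :=
  ⟨fun k => ‖x.co k‖, fun _ => norm_nonneg _, x.summable, x.norm_eq.ge, fun k w _ => by
    have : wt 1 1 k w = 1 := by unfold wt; split_ifs <;> rfl
    rw [this, mul_one]; exact (x.co k).norm_coe_le_norm w⟩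

theorem norm_le (h : Bd univ 1 1 x B) : ‖x‖ ≤ B := by
  obtain ⟨c, h0, h1, h2, h3⟩ := h
  refine (norm_le_of h1 fun k => (BoundedContinuousFunction.norm_le (h0 k)).2 fun w => ?_).trans h2
  have : wt 1 1 k w = 1 := by unfold wt; split_ifs <;> rfl
  simpa [this] using h3 k w (mem_univ w)

theorem co_le (h : Bd S a b x B) (k : ℤ) {w : ℝ} (hw : w ∈ S) (hp : 0 ≤ wt a b k w) :
    ‖x.co k w‖ ≤ B * wt a b k w := by
  obtain ⟨c, h0, h1, h2, h3⟩ := h
  have : c k ≤ B := (h1.le_tsum k fun j _ => h0 j).trans h2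
  exact (h3 k w hw).trans (by gcongr)

theorem ev_le (h : Bd S a b x B) {w : ℝ} (hw : w ∈ S) {m : ℝ} (hm : 0 ≤ m) (ha : a w ≤ m)
    (hb : b w ≤ m) (θ : ℝ) : ‖x.ev w θ‖ ≤ B * m := by
  obtain ⟨c, h0, h1, h2, h3⟩ := h
  refine (tsum_of_norm_bounded (h1.hasSum.mul_right m) fun k => ?_).trans (by gcongr)
  rw [norm_mul, norm_ch, mul_one]
  refine (h3 k w hw).trans ?_
  have := h0 k
  unfold wt; split_ifs <;> gcongr

/-- the non-symmetric part at a point -/
theorem ev_sub_le (h : Bd S a b x B) {w : ℝ} (hw : w ∈ S) (hb : 0 ≤ b w) (θ : ℝ) :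
    ‖x.ev w θ - x.co 0 w‖ ≤ B * b w := by
  have h1 : Bd {w} b b (x - WA.sc (x.co 0)) B := by
    simpa using (h.subset (singleton_subset_iff.2 hw)).of_le (y := x - WA.sc (x.co 0)) (a' := b)
      (b' := b) zero_le_one fun k u hu c hc hx => by
        rw [mem_singleton_iff.1 hu] at hx ⊢
        by_cases hk : k = 0
        · simp [hk, co_sc]; positivity
        · simpa [co_sc, hk, wt_ne _ _ hk] using hx
  have := h1.ev_le (mem_singleton w) hb le_rfl le_rfl θ
  rwa [← evA_apply, map_sub, evA_apply, evA_apply, ev_sc] at this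

end Bd

namespace WA

/-- substitution in the variable `w` -/
noncomputable def comp (φ : C(ℝ, ℝ)) (x : WA) : WA :=
  mk (fun k => (x.co k).compContinuous φ) (Summable.of_nonneg_of_le (fun _ => norm_nonneg _)
    (fun _ => BoundedContinuousFunction.norm_compContinuous_le _ _) x.summable)

@[simp] theorem co_comp (φ : C(ℝ, ℝ)) (x : WA) (k : ℤ) (w : ℝ) :
    (comp φ x).co k w = x.co k (φ w) := rfl

theorem ev_comp (φ : C(ℝ, ℝ)) (x : WA) (w θ : ℝ) : (comp φ x).ev w θ = x.ev (φ w) θ := rfl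

theorem norm_comp_le (φ : C(ℝ, ℝ)) (x : WA) : ‖comp φ x‖ ≤ ‖x‖ := by
  rw [x.norm_eq]
  exact norm_le_of x.summable fun _ => BoundedContinuousFunction.norm_compContinuous_le _ _

/-- substitution as a bounded linear map -/
noncomputable def compL (φ : C(ℝ, ℝ)) : WA →L[ℂ] WA :=
  LinearMap.mkContinuous ⟨⟨comp φ, fun _ _ => ext'' fun _ _ => rfl⟩,
    fun _ _ => ext'' fun _ _ => rfl⟩ 1 fun x => by rw [one_mul]; exact norm_comp_le φ x

@[simp] theorem compL_apply (φ : C(ℝ, ℝ)) (x : WA) : compL φ x = comp φ x := rfl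

theorem summable_diag {m : ℤ → CB} {M : ℝ} (hm : ∀ k, ‖m k‖ ≤ M) (x : WA) :
    Summable fun k => ‖m k * x.co k‖ :=
  Summable.of_nonneg_of_le (fun _ => norm_nonneg _)
    (fun k => (norm_mul_le _ _).trans (by gcongr; exact hm k)) (x.summable.mul_left M)

/-- Fourier multiplier with `w`-dependent symbol -/
noncomputable def diag (m : ℤ → CB) (M : ℝ) (hm : ∀ k, ‖m k‖ ≤ M) : WA →L[ℂ] WA :=
  LinearMap.mkContinuous ⟨⟨fun x => mk (fun k => m k * x.co k) (summable_diag hm x),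
    fun _ _ => ext' fun _ => by simp [mul_add]⟩, fun _ _ => ext' fun _ => by simp⟩ M fun x => by
      rw [x.norm_eq, ← tsum_mul_left]
      exact norm_le_of (x.summable.mul_left M) fun k =>
        (norm_mul_le _ _).trans (by gcongr; exact hm k)

@[simp] theorem co_diag (m : ℤ → CB) (M : ℝ) (hm : ∀ k, ‖m k‖ ≤ M) (x : WA) (k : ℤ) :
    (diag m M hm x).co k = m k * x.co k := rfl

/-- complex conjugation -/
noncomputable def cj (x : WA) : WA :=
  mk (fun k => star (x.co (-k))) (by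
    simp only [norm_star]
    exact (Equiv.neg ℤ).summable_iff.2 x.summable)

@[simp] theorem co_cj (x : WA) (k : ℤ) (w : ℝ) : (cj x).co k w = starRingEnd ℂ (x.co (-k) w) := rfl

theorem ev_cj (x : WA) (w θ : ℝ) : (cj x).ev w θ = starRingEnd ℂ (x.ev w θ) := by
  rw [ev, ev, ← (Equiv.neg ℤ).tsum_eq, conj_tsum]
  refine tsum_congr fun k => ?_
  simp only [Equiv.neg_apply, co_cj, neg_neg, map_mul, ch, ← exp_conj, map_intCast, conj_ofReal,
    conj_I]
  congr 2; push_cast; ring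

/-- conjugation as a ring homomorphism -/
noncomputable def cjR : WA →+* WA :=
  ⟨⟨⟨cj, ev_inj fun w θ => by simp [ev_cj, ev_one]⟩,
    fun x y => ev_inj fun w θ => by simp [ev_cj, ev_mul]⟩,
    ev_inj fun w θ => by simp [ev_cj, ev_zero], fun x y => ev_inj fun w θ => by
      simp [ev_cj, ev_add]⟩

/-- `x'` is `t * d/dθ x` on `S` -/
def HasD (S : Set ℝ) (t : ℝ → ℂ) (x x' : WA) : Prop :=
  ∀ k, ∀ w ∈ S, x'.co k w = t w * (k * I) * x.co k w

theorem HasD.add {S : Set ℝ} {t : ℝ → ℂ} {x x' y y' : WA} (h : HasD S t x x')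
    (h' : HasD S t y y') : HasD S t (x + y) (x' + y') := fun k w hw => by
  simp only [co_add, BoundedContinuousFunction.add_apply, h k w hw, h' k w hw]; ring

theorem HasD.smul {S : Set ℝ} {t : ℝ → ℂ} {x x' : WA} (h : HasD S t x x') (c : ℂ) :
    HasD S t (c • x) (c • x') := fun k w hw => by
  simp only [co_smul, BoundedContinuousFunction.smul_apply, h k w hw, smul_eq_mul]; ring

theorem HasD.neg {S : Set ℝ} {t : ℝ → ℂ} {x x' : WA} (h : HasD S t x x') :
    HasD S t (-x) (-x') := by simpa using h.smul (-1)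

theorem HasD.mul {S : Set ℝ} {t : ℝ → ℂ} {x x' y y' : WA} (h : HasD S t x x')
    (h' : HasD S t y y') : HasD S t (x * y) (x' * y + x * y') := fun k w hw => by
  have h1 := (hasSum_co_mul x' y k w).add (hasSum_co_mul x y' k w)
  have h2 := (hasSum_co_mul x y k w).mul_left (t w * (k * I))
  rw [co_add, BoundedContinuousFunction.add_apply]
  have e : (fun j => x'.co j w * y.co (k - j) w + x.co j w * y'.co (k - j) w) =
      fun j => t w * (k * I) * (x.co j w * y.co (k - j) w) := funext fun j => by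
    simp only [h j w hw, h' (k - j) w hw]; push_cast; ring
  rw [e] at h1
  exact h1.unique h2

theorem HasD.sc (S : Set ℝ) (t : ℝ → ℂ) (c : CB) : HasD S t (sc c) 0 := fun k w _ => by
  by_cases hk : k = 0 <;> simp [co_sc, hk]

end WA

theorem Bd.comp {S S' : Set ℝ} {a b : ℝ → ℝ} {x : WA} {B : ℝ} (h : Bd S a b x B) (φ : C(ℝ, ℝ))
    (hφ : MapsTo φ S' S) : Bd S' (a ∘ φ) (b ∘ φ) (comp φ x) B := by
  obtain ⟨c, h0, h1, h2, h3⟩ := h
  refine ⟨c, h0, h1, h2, fun k w hw => ?_⟩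
  have : wt (a ∘ φ) (b ∘ φ) k w = wt a b k (φ w) := by unfold wt; split_ifs <;> rfl
  rw [this]
  exact h3 k _ (hφ hw)

theorem Bd.cj {S : Set ℝ} {a b : ℝ → ℝ} {x : WA} {B : ℝ} (h : Bd S a b x B) :
    Bd S a b (cj x) B := by
  obtain ⟨c, h0, h1, h2, h3⟩ := h
  refine ⟨fun k => c (-k), fun k => h0 _, (Equiv.neg ℤ).summable_iff.2 h1, ?_, fun k w hw => ?_⟩
  · exact ((Equiv.neg ℤ).tsum_eq c).trans_le h2
  · have : wt a b k w = wt a b (-k) w := by unfold wt; simp
    rw [this, co_cj, RCLike.norm_conj]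
    exact h3 _ w hw

/-- a positive continuous weight, bounded away from `0` -/
structure IsWt (a : ℝ → ℝ) : Prop where
  cont : Continuous a
  low : ∃ m, 0 < m ∧ ∀ w, m ≤ a w

theorem IsWt.pos {a : ℝ → ℝ} (h : IsWt a) (w : ℝ) : 0 < a w := by
  obtain ⟨m, hm, h⟩ := h.low
  exact hm.trans_le (h w)

theorem exists_normaliser {a b : ℝ → ℝ} (ha : IsWt a) (hb : IsWt b) :
    ∃ T : WA →L[ℂ] WA, ∀ x B, ‖T x‖ ≤ B ↔ Bd univ a b x B := by
  have key : ∀ {a : ℝ → ℝ}, IsWt a → ∃ u : CB, ∀ w, u w = ((a w)⁻¹ : ℝ) := by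
    intro a ha
    obtain ⟨m, hm, hl⟩ := ha.low
    refine ⟨BoundedContinuousFunction.ofNormedAddCommGroup (fun w => (((a w)⁻¹ : ℝ) : ℂ))
      (continuous_ofReal.comp (ha.cont.inv₀ fun w => (ha.pos w).ne')) m⁻¹ fun w => ?_, fun w => rfl⟩
    rw [norm_real, Real.norm_of_nonneg (inv_pos.2 (ha.pos w)).le]
    exact inv_anti₀ hm (hl w)
  obtain ⟨u, hu⟩ := key ha
  obtain ⟨v, hv⟩ := key hb
  have hpos : ∀ k w, 0 < wt a b k w := fun k w => by
    unfold wt; split_ifs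
    · exact ha.pos w
    · exact hb.pos w
  have hm : ∀ k w, (if k = 0 then u else v : CB) w = (((wt a b k w)⁻¹ : ℝ) : ℂ) := fun k w => by
    unfold wt; split_ifs
    · exact hu w
    · exact hv w
  refine ⟨diag (fun k => if k = 0 then u else v) (‖u‖ + ‖v‖) fun k => ?_, fun x B => ⟨fun h => ?_,
    fun h => Bd.norm_le ?_⟩⟩
  · split_ifs <;> linarith [norm_nonneg u, norm_nonneg v]
  · simpa using ((Bd.of_norm univ _).mono h).of_le (y := x) (a' := a) (b' := b) zero_le_one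
      fun k w _ c _ hx => by
        have e : wt 1 1 k w = 1 := by unfold wt; split_ifs <;> rfl
        rw [e, co_diag, BoundedContinuousFunction.mul_apply, hm, norm_mul, norm_real,
          Real.norm_of_nonneg (inv_pos.2 (hpos k w)).le, inv_mul_le_iff₀ (hpos k w)] at hx
        linarith
  · simpa using h.of_le (a' := 1) (b' := 1) zero_le_one fun k w _ c _ hx => by
      have e : wt 1 1 k w = 1 := by unfold wt; split_ifs <;> rfl
      rw [e, co_diag, BoundedContinuousFunction.mul_apply, hm, norm_mul, norm_real,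
        Real.norm_of_nonneg (inv_pos.2 (hpos k w)).le, inv_mul_le_iff₀ (hpos k w)]
      linarith

/-- holomorphy of `WA`-valued maps is tested on the coefficients -/
theorem differentiableOn_WA {E : Type*} [NormedAddCommGroup E] [NormedSpace ℂ E] {f : E → WA}
    {U : Set E} (hb : ∀ x ∈ U, ∃ r M, 0 < r ∧ Metric.ball x r ⊆ U ∧ ∀ y ∈ Metric.ball x r, ‖f y‖ ≤ M)
    (hd : ∀ k, DifferentiableOn ℂ (fun z => (f z).co k) U) : DifferentiableOn ℂ f U := by
  refine differentiableOn_of_tendsto (l := atTop)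
    (g := fun (s : Finset ℤ) z => ∑ k ∈ s, single k ((f z).co k)) (fun x hx => ?_)
    fun x _ => tendsto_trunc _
  obtain ⟨r, M, hr, hs, hM⟩ := hb x hx
  refine ⟨r, M, hr, hs, Eventually.of_forall fun s => ⟨?_, fun y hy =>
    (norm_trunc_le _ s).trans (hM y hy)⟩⟩
  exact DifferentiableOn.fun_sum fun k _ =>
    (single k).differentiable.comp_differentiableOn ((hd k).mono hs)

/-- holomorphy of `CB`-valued maps is tested pointwise -/
theorem differentiableOn_CB {E : Type*} [NormedAddCommGroup E] [NormedSpace ℂ E] {f : E → CB}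
    {U : Set E} (hb : ∀ x ∈ U, ∃ r M, 0 < r ∧ Metric.ball x r ⊆ U ∧ ∀ y ∈ Metric.ball x r, ‖f y‖ ≤ M)
    (hd : ∀ w, DifferentiableOn ℂ (fun z => f z w) U) : DifferentiableOn ℂ f U :=
  differentiableOn_of_norming (G := fun _ : ℝ => ℂ)
    (fun w => (BoundedContinuousFunction.evalCLM ℂ w : CB →L[ℂ] ℂ))
    (fun w y => y.norm_coe_le_norm w)
    (fun _ _ hB h => (BoundedContinuousFunction.norm_le hB).2 h) hb hd

end Vale.Agent.P218EN
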